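import Mathlib
import Vale.Agent.P150.Defs

/-!
Ising measures with general couplings and fields; entropy and its heat-bath dissipation.
-/

namespace Vale.Agent.P150.High

open Finset

noncomputable section

variable {n : ℕ}

/-- Couplings: symmetric with zero diagonal. -/
structure IsCoupling (J : Fin n → Fin n → ℝ) : Prop where
  symm : ∀ i j, J i j = J j i
  diag : ∀ i, J i i = 0

/-- `½ ∑ J_ij x_i x_j + ∑ b_i x_i`. -/
def ham (J : Fin n → Fin n → ℝ) (b : Fin n → ℝ) (x : Cube n) : ℝ :=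
  (1 / 2) * (∑ i, ∑ j, J i j * spin (x i) * spin (x j)) + ∑ i, b i * spin (x i)

/-- The Ising measure with couplings `J` and field `b`. -/
def ising (J : Fin n → Fin n → ℝ) (b : Fin n → ℝ) (x : Cube n) : ℝ :=
  Real.exp (ham J b x) / ∑ y, Real.exp (ham J b y)

/-- The quadratic form of `J` is at most `lam` times the squared norm in absolute value. -/
def NormLe (J : Fin n → Fin n → ℝ) (lam : ℝ) : Prop :=
  ∀ u : Fin n → ℝ, |∑ i, ∑ j, J i j * u i * u j| ≤ lam * ∑ i, u i ^ 2

/-- The SK couplings at inverse temperature `β`. -/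
def skJ (β : ℝ) (g : Disorder n) (i j : Fin n) : ℝ :=
  if i = j then 0 else β / Real.sqrt n * g s(i, j)

/-- The relative entropy `E[f log f] - E f log E f`. -/
def ent (μ : Cube n → ℝ) (f : Cube n → ℝ) : ℝ :=
  ∑ x, μ x * (f x * Real.log (f x)) - (∑ x, μ x * f x) * Real.log (∑ x, μ x * f x)

/-- The heat-bath Dirichlet form `⟨f, -L log f⟩_μ`. -/
def dirLog (μ : Cube n → ℝ) (f : Cube n → ℝ) : ℝ :=
  (1 / 2) * ∑ x, ∑ i, μ x * flipProb μ i x *
    ((f (flipAt i x) - f x) * (Real.log (f (flipAt i x)) - Real.log (f x)))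

/-- A modified log-Sobolev inequality with constant `C`. -/
def HasMLSI (μ : Cube n → ℝ) (C : ℝ) : Prop :=
  ∀ f : Cube n → ℝ, (∀ x, 0 < f x) → ent μ f ≤ C * dirLog μ f

theorem ising_pos (J : Fin n → Fin n → ℝ) (b : Fin n → ℝ) (x : Cube n) : 0 < ising J b x :=
  div_pos (Real.exp_pos _) (sum_pos (fun _ _ => Real.exp_pos _) univ_nonempty)

theorem sum_ising (J : Fin n → Fin n → ℝ) (b : Fin n → ℝ) : ∑ x, ising J b x = 1 := by
  unfold ising
  rw [← sum_div, div_self (sum_pos (fun _ _ => Real.exp_pos _) univ_nonempty).ne']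

end

end Vale.Agent.P150.High
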