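import Mathlib
import Vale.Agent.P150.High.Defs

/-!
# P150: modified log-Sobolev inequality of a product measure

Entropy tensorises, and on two points it is at most `Cov(f, log f)`.
-/

namespace Vale.Agent.P150.High

open Finset

noncomputable section

variable {n : ℕ}

theorem sum_cube_succ {M : Type*} [AddCommMonoid M] (F : Cube (n + 1) → M) :
    ∑ x, F x = ∑ a : Bool, ∑ y : Cube n, F (Fin.cons a y) := by
  rw [← Fintype.sum_prod_type', ← (Fin.consEquiv fun _ : Fin (n + 1) => Bool).sum_comp F]
  rfl

theorem flipAt_zero_cons (a : Bool) (y : Cube n) :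
    flipAt 0 (Fin.cons a y : Cube (n + 1)) = Fin.cons (!a) y := by
  simp [flipAt, Fin.update_cons_zero]

theorem flipAt_succ_cons (a : Bool) (i : Fin n) (y : Cube n) :
    flipAt i.succ (Fin.cons a y : Cube (n + 1)) = Fin.cons a (flipAt i y) := by
  simp [flipAt, Fin.cons_update]

/-- The weight of a spin. -/
def bernW (p : ℝ) (a : Bool) : ℝ := if a then p else 1 - p

/-- A product measure on the cube. -/
def prodW (p : Fin n → ℝ) (x : Cube n) : ℝ := ∏ i, bernW (p i) (x i)

theorem prodW_cons (p : Fin (n + 1) → ℝ) (a : Bool) (y : Cube n) :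
    prodW p (Fin.cons a y) = bernW (p 0) a * prodW (fun i => p i.succ) y := by
  simp [prodW, Fin.prod_univ_succ]

theorem bernW_pos {p : ℝ} (h0 : 0 < p) (h1 : p < 1) (a : Bool) : 0 < bernW p a := by
  cases a <;> simp [bernW] <;> linarith

theorem sum_bernW (p : ℝ) : ∑ a : Bool, bernW p a = 1 := by simp [bernW]

theorem prodW_pos {p : Fin n → ℝ} (h : ∀ i, 0 < p i ∧ p i < 1) (x : Cube n) : 0 < prodW p x :=
  prod_pos fun i _ => bernW_pos (h i).1 (h i).2 _

theorem sum_prodW (p : Fin n → ℝ) : ∑ x, prodW p x = 1 := by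
  rw [show ∑ x, prodW p x = ∏ i, ∑ a : Bool, bernW (p i) a from
    (Fintype.prod_sum fun i a => bernW (p i) a).symm]
  exact prod_eq_one fun i _ => sum_bernW (p i)

/-- The entropy is convex. -/
theorem ent_mix {ι : Type*} [Fintype ι] [Nonempty ι] (ν : Cube n → ℝ) (hν : ∀ y, 0 < ν y)
    (w : ι → ℝ) (hw : ∀ a, 0 < w a) (f : ι → Cube n → ℝ) (hf : ∀ a y, 0 < f a y) :
    ent ν (fun y => ∑ a, w a * f a y) ≤ ∑ a, w a * ent ν (f a) := by
  set F : Cube n → ℝ := fun y => ∑ a, w a * f a y with hF
  set E : ι → ℝ := fun a => ∑ y, ν y * f a y with hE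
  set EF : ℝ := ∑ y, ν y * F y with hEF
  have hFpos : ∀ y, 0 < F y := fun y =>
    sum_pos (fun a _ => mul_pos (hw a) (hf a y)) univ_nonempty
  have hEpos : ∀ a, 0 < E a := fun a =>
    sum_pos (fun y _ => mul_pos (hν y) (hf a y)) univ_nonempty
  have hEFpos : 0 < EF := sum_pos (fun y _ => mul_pos (hν y) (hFpos y)) univ_nonempty
  have hswap : ∀ G : Cube n → ℝ, ∑ y, ν y * (F y * G y) = ∑ a, w a * ∑ y, ν y * (f a y * G y) := by
    intro G
    simp only [hF, sum_mul, mul_sum]
    rw [sum_comm]
    exact sum_congr rfl fun a _ => sum_congr rfl fun y _ => by ring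
  have hEFs : EF = ∑ a, w a * E a := by simpa [hEF, hE] using hswap fun _ => 1
  have hkey : ∑ a, w a * ent ν (f a) - ent ν F = ∑ a, w a * ∑ y, ν y *
      (f a y * (Real.log (f a y) - Real.log (E a) - Real.log (F y) + Real.log EF)) := by
    have hv : ∀ G : Cube n → ℝ, ent ν G
        = ∑ y, ν y * (G y * (Real.log (G y) - Real.log (∑ z, ν z * G z))) := fun G => by
      simp only [ent, mul_sub, sum_sub_distrib, sum_mul, mul_assoc]
    rw [hv F, hswap fun y => Real.log (F y) - Real.log (∑ z, ν z * F z), ← sum_sub_distrib]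
    refine sum_congr rfl fun a _ => ?_
    rw [hv (f a), ← mul_sub, ← sum_sub_distrib]
    congr 1
    refine sum_congr rfl fun y _ => ?_
    simp only [hE, hEF]
    ring
  suffices 0 ≤ ∑ a, w a * ent ν (f a) - ent ν F by linarith
  rw [hkey]
  calc (0 : ℝ) = ∑ a, w a * ∑ y, ν y * (f a y - E a * F y / EF) := by
        simp only [mul_sub, sum_sub_distrib, ← mul_div_assoc]
        have h1 : ∀ a, ∑ y, ν y * (E a * F y) / EF = E a := fun a => by
          rw [← sum_div]
          simp only [mul_left_comm (ν _) (E a), ← mul_sum, ← hEF]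
          field_simp
        simp only [h1]
        simp [hE]
    _ ≤ _ := by
        refine sum_le_sum fun a _ => mul_le_mul_of_nonneg_left (sum_le_sum fun y _ =>
          mul_le_mul_of_nonneg_left ?_ (hν y).le) (hw a).le
        have hz : 0 < E a * F y / (f a y * EF) :=
          div_pos (mul_pos (hEpos a) (hFpos y)) (mul_pos (hf a y) hEFpos)
        have hlog := Real.log_le_sub_one_of_pos hz
        rw [Real.log_div (mul_pos (hEpos a) (hFpos y)).ne' (mul_pos (hf a y) hEFpos).ne',
          Real.log_mul (hEpos a).ne' (hFpos y).ne', Real.log_mul (hf a y).ne' hEFpos.ne'] at hlog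
        have := mul_le_mul_of_nonneg_left hlog (hf a y).le
        have he : f a y * (E a * F y / (f a y * EF) - 1) = E a * F y / EF - f a y := by
          field_simp [(hf a y).ne']
        rw [he] at this
        linarith

/-- On two points the entropy is at most `Cov(f, log f)`. -/
theorem ent_two_point {p : ℝ} (h0 : 0 < p) (h1 : p < 1) {A B : ℝ} (hA : 0 < A) (hB : 0 < B) :
    p * (A * Real.log A) + (1 - p) * (B * Real.log B)
        - (p * A + (1 - p) * B) * Real.log (p * A + (1 - p) * B)
      ≤ p * (1 - p) * ((A - B) * (Real.log A - Real.log B)) := by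
  set m := p * A + (1 - p) * B with hm
  have hm0 : 0 < m := add_pos (mul_pos h0 hA) (mul_pos (by linarith) hB)
  have hA' := Real.log_le_sub_one_of_pos (div_pos hA hm0)
  have hB' := Real.log_le_sub_one_of_pos (div_pos hB hm0)
  rw [Real.log_div hA.ne' hm0.ne'] at hA'
  rw [Real.log_div hB.ne' hm0.ne'] at hB'
  have hjen : p * Real.log A + (1 - p) * Real.log B ≤ Real.log m := by
    have h2 : p * (A / m - 1) + (1 - p) * (B / m - 1) = 0 := by
      field_simp
      rw [hm]; ring
    have := add_le_add (mul_le_mul_of_nonneg_left hA' h0.le)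
      (mul_le_mul_of_nonneg_left hB' (by linarith : (0:ℝ) ≤ 1 - p))
    linarith
  have := mul_le_mul_of_nonneg_left hjen hm0.le
  rw [hm] at this ⊢
  linarith

/-- Tensorised modified log-Sobolev inequality for product measures. -/
theorem hasMLSI_prodW : ∀ {n : ℕ} (p : Fin n → ℝ), (∀ i, 0 < p i ∧ p i < 1) →
    HasMLSI (prodW p) 1
  | 0, p, _ => fun f _ => by simp [ent, dirLog, prodW]
  | n + 1, p, hp => by
    intro f hf
    set ν := prodW fun i => p i.succ with hν
    set w := bernW (p 0) with hw
    have hν0 : ∀ y, 0 < ν y := fun y => prodW_pos (fun i => hp i.succ) y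
    have hν1 : ∑ y, ν y = 1 := sum_prodW _
    have hw0 : ∀ a, 0 < w a := bernW_pos (hp 0).1 (hp 0).2
    set g : Bool → Cube n → ℝ := fun a y => f (Fin.cons a y) with hg
    set F : Cube n → ℝ := fun y => ∑ a, w a * g a y with hF
    set e0 : Cube n → ℝ := fun y =>
      ∑ a, w a * (g a y * Real.log (g a y)) - F y * Real.log (F y) with he0
    have hent : ent (prodW p) f = (∑ y, ν y * e0 y) + ent ν F := by
      have hsw : ∀ G : Cube (n + 1) → ℝ,
          ∑ x, prodW p x * G x = ∑ y, ν y * ∑ a, w a * G (Fin.cons a y) := fun G => by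
        rw [sum_cube_succ, sum_comm]
        refine sum_congr rfl fun y _ => ?_
        rw [mul_sum]
        refine sum_congr rfl fun a _ => ?_
        rw [prodW_cons, hν, hw]
        ring
      unfold ent
      rw [hsw, hsw]
      simp only [he0, hF, hg, mul_sub, sum_sub_distrib]
      ring
    have hD : dirLog (prodW p) f
        = (∑ y, ν y * (p 0 * (1 - p 0) * ((g true y - g false y)
            * (Real.log (g true y) - Real.log (g false y)))))
          + ∑ a, w a * dirLog ν (g a) := by
      have hq0 : ∀ a y, flipProb (prodW p) 0 (Fin.cons a y) = w (!a) := by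
        intro a y
        simp only [flipProb, flipAt_zero_cons, prodW_cons, ← hν, ← hw]
        have : w a + w (!a) = 1 := by cases a <;> simp [hw, bernW]
        rw [← add_mul, this, one_mul, mul_div_assoc, div_self (hν0 y).ne', mul_one]
      have hqs : ∀ a i y, flipProb (prodW p) i.succ (Fin.cons a y) = flipProb ν i y := by
        intro a i y
        simp only [flipProb, flipAt_succ_cons, prodW_cons, ← hν, ← hw, ← mul_add]
        rw [mul_div_mul_left _ _ (hw0 a).ne']
      simp only [dirLog, sum_cube_succ, Fin.sum_univ_succ, prodW_cons, ← hν, ← hw, hq0, hqs,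
        flipAt_zero_cons, flipAt_succ_cons, sum_add_distrib, mul_add]
      congr 1
      · rw [Fintype.sum_bool]
        simp only [Bool.not_true, Bool.not_false, hw, bernW, if_true, Bool.false_eq_true, if_false,
          hg, mul_sum, ← sum_add_distrib, mul_add]
        exact sum_congr rfl fun y _ => by ring
      · simp only [hg, mul_sum]
        exact sum_congr rfl fun a _ => sum_congr rfl fun y _ => sum_congr rfl fun i _ => by ring
    have hmix : ent ν F ≤ ∑ a, w a * ent ν (g a) :=
      ent_mix ν hν0 w hw0 g fun a y => hf _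
    have hrec : ∀ a, ent ν (g a) ≤ dirLog ν (g a) := fun a => by
      simpa using hasMLSI_prodW (fun i => p i.succ) (fun i => hp i.succ) (g a) fun y => hf _
    have hsite : ∀ y, e0 y ≤ p 0 * (1 - p 0) * ((g true y - g false y)
        * (Real.log (g true y) - Real.log (g false y))) := fun y => by
      have := ent_two_point (hp 0).1 (hp 0).2 (hf (Fin.cons true y)) (hf (Fin.cons false y))
      simpa [he0, hF, hg, hw, bernW] using this
    rw [one_mul, hent, hD]
    exact add_le_add (sum_le_sum fun y _ => mul_le_mul_of_nonneg_left (hsite y) (hν0 y).le)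
      (hmix.trans (sum_le_sum fun a _ => mul_le_mul_of_nonneg_left (hrec a) (hw0 a).le))

/-- The probability of `+1` of a spin in the field `b`. -/
def upProb (b : ℝ) : ℝ := Real.exp b / (Real.exp b + Real.exp (-b))

theorem ising_zero_eq (b : Fin n → ℝ) :
    ising (fun _ _ => 0) b = prodW fun i => upProb (b i) := by
  funext x
  have hW : ∀ y : Cube n, Real.exp (ham (fun _ _ => 0) b y) = ∏ i, Real.exp (b i * spin (y i)) :=
    fun y => by simp [ham, Real.exp_sum]
  have hZ : ∑ y : Cube n, ∏ i, Real.exp (b i * spin (y i))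
      = ∏ i, (Real.exp (b i) + Real.exp (-b i)) := by
    rw [← Fintype.prod_sum fun i a => Real.exp (b i * spin a)]
    simp [spin]
  simp only [ising, hW, hZ, prodW, ← prod_div_distrib]
  refine prod_congr rfl fun i _ => ?_
  have : Real.exp (b i) + Real.exp (-b i) ≠ 0 := (add_pos (Real.exp_pos _) (Real.exp_pos _)).ne'
  cases x i <;> simp [spin, bernW, upProb]
  field_simp
  ring

/-- Frozen: product measures satisfy the modified log-Sobolev inequality with constant `1`. -/
theorem hasMLSI_product (b : Fin n → ℝ) : HasMLSI (ising (fun _ _ => 0) b) 1 := by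
  rw [ising_zero_eq]
  refine hasMLSI_prodW _ fun i => ⟨div_pos (Real.exp_pos _) (add_pos (Real.exp_pos _)
    (Real.exp_pos _)), ?_⟩
  rw [upProb, div_lt_one (add_pos (Real.exp_pos _) (Real.exp_pos _))]
  linarith [Real.exp_pos (-b i)]

end

end Vale.Agent.P150.High
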