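import Mathlib
import Vale.Agent.P150.High.Defs
import Vale.Agent.P150.High.Product
import Vale.Agent.P150.Gauss
import Vale.Agent.P150.Poincare

/-!
Annealing: a spectral gap uniform in the field, along the interpolation `sJ`, gives a modified
log-Sobolev inequality for the Ising measure with couplings `J`.

One step from `sJ` to `(s + δ)J` writes the new measure as a Gaussian mixture of measures with
couplings `sJ` and shifted fields.  The entropy between the components is `O(δ)` times the
entropy itself, because the gap bounds the covariance of every exponential tilt.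
-/

namespace Vale.Agent.P150.High

open MeasureTheory Finset Real Filter
open scoped Topology Matrix
open scoped MatrixOrder

noncomputable section

variable {n : ℕ}

theorem isProb_ising (J : Fin n → Fin n → ℝ) (b : Fin n → ℝ) : IsProb (ising J b) :=
  ⟨fun x => (ising_pos J b x).le, sum_ising J b⟩

theorem ham_add_field (J : Fin n → Fin n → ℝ) (b u : Fin n → ℝ) (x : Cube n) :
    ham J (fun i => b i + u i) x = ham J b x + lin u x := by
  simp only [ham, lin, add_mul, sum_add_distrib]
  ring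

/-- A measure proportional to a reweighting of an Ising measure. -/
theorem ising_eq_reweight {J J' : Fin n → Fin n → ℝ} {b b' : Fin n → ℝ} {z : Cube n → ℝ} {K : ℝ}
    (h : ∀ x, ham J' b' x = ham J b x + z x + K) (x : Cube n) :
    ising J' b' x = ising J b x * exp (z x) / ∑ y, ising J b y * exp (z y) := by
  have hZ : 0 < ∑ y, exp (ham J b y) := sum_pos (fun _ _ => exp_pos _) univ_nonempty
  have hK := exp_pos K
  have h2 : 0 < ∑ y, exp (ham J b y) * exp (z y) :=
    sum_pos (fun _ _ => mul_pos (exp_pos _) (exp_pos _)) univ_nonempty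
  simp only [ising, h, exp_add, div_mul_eq_mul_div, ← sum_div, ← sum_mul]
  field_simp

/-! ## Exponential tilts and entropy -/

/-- Bounded variance of all tilts gives the transport inequality against entropy. -/
theorem transport {μ : Cube n → ℝ} (hμ : ∀ x, 0 < μ x) (hs : ∑ x, μ x = 1) {w : Cube n → ℝ}
    {q : ℝ} (hq : ∀ t : ℝ, (∑ x, μ x * w x ^ 2 * exp (t * w x)) * (∑ x, μ x * exp (t * w x))
        - (∑ x, μ x * w x * exp (t * w x)) ^ 2 ≤ q * (∑ x, μ x * exp (t * w x)) ^ 2)
    {f : Cube n → ℝ} (hf : ∀ x, 0 < f x) {t : ℝ} (ht : 0 ≤ t) :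
    t * ∑ x, μ x * (f x - ∑ y, μ y * f y) * w x
      ≤ ent μ f + (∑ y, μ y * f y) * (q * t ^ 2 / 2) := by
  set c := ∑ y, μ y * f y with hc
  have hcpos : 0 < c := sum_pos (fun x _ => mul_pos (hμ x) (hf x)) univ_nonempty
  set m := ∑ x, μ x * w x with hm
  set Z : ℝ → ℝ := fun s => ∑ x, μ x * exp (s * w x) with hZ
  set A : ℝ → ℝ := fun s => ∑ x, μ x * w x * exp (s * w x) with hA
  set V : ℝ → ℝ := fun s => ∑ x, μ x * w x ^ 2 * exp (s * w x) with hV
  have hZp : ∀ s, 0 < Z s := fun s =>
    sum_pos (fun x _ => mul_pos (hμ x) (exp_pos _)) univ_nonempty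
  have hexp : ∀ s x, HasDerivAt (fun s : ℝ => exp (s * w x)) (exp (s * w x) * w x) s := fun s x =>
    by simpa using ((hasDerivAt_id s).mul_const (w x)).exp
  have dZ : ∀ s, HasDerivAt Z (A s) s := fun s => by
    refine (HasDerivAt.fun_sum fun x _ => (hexp s x).const_mul (μ x)).congr_deriv ?_
    exact sum_congr rfl fun x _ => by ring
  have dA : ∀ s, HasDerivAt A (V s) s := fun s => by
    refine (HasDerivAt.fun_sum fun x _ => (hexp s x).const_mul (μ x * w x)).congr_deriv ?_
    exact sum_congr rfl fun x _ => by ring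
  set h' : ℝ → ℝ := fun s => q * s + m - A s / Z s with hh'
  have dh' : ∀ s, HasDerivAt h' (q - (V s * Z s - A s * A s) / Z s ^ 2) s := fun s => by
    have h1 := (((hasDerivAt_id s).const_mul q).add_const m).fun_sub
      ((dA s).fun_div (dZ s) (hZp s).ne')
    simpa [hh'] using h1
  have hmono : Monotone h' := monotone_of_hasDerivAt_nonneg (fun s => dh' s) fun s => by
    rw [Pi.zero_apply, sub_nonneg, div_le_iff₀ (pow_pos (hZp s) 2), ← sq]
    exact hq s
  have h'0 : h' 0 = 0 := by simp [hh', hA, hZ, hs, hm]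
  set h : ℝ → ℝ := fun s => q * s ^ 2 / 2 + m * s - log (Z s) with hh
  have dh : ∀ s, HasDerivAt h (h' s) s := fun s => by
    have h1 := ((((hasDerivAt_pow 2 s).const_mul q).div_const 2).fun_add
      ((hasDerivAt_id s).const_mul m)).fun_sub ((dZ s).log (hZp s).ne')
    refine h1.congr_deriv ?_
    simp [hh']
    ring
  have hh0 : 0 ≤ h t := by
    have hmon : MonotoneOn h (Set.Ici (0 : ℝ)) := by
      refine monotoneOn_of_deriv_nonneg (convex_Ici 0)
        (fun s _ => (dh s).continuousAt.continuousWithinAt)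
        (fun s _ => (dh s).differentiableAt.differentiableWithinAt) fun s hs' => ?_
      rw [interior_Ici] at hs'
      rw [(dh s).deriv, ← h'0]
      exact hmono (le_of_lt hs')
    have := hmon Set.self_mem_Ici ht ht
    simpa [hh, hZ, hs] using this
  have hp : ∀ x, μ x * (f x * (t * w x - log (Z t) + log c))
      ≤ μ x * (f x * log (f x) + (c * exp (t * w x) / Z t - f x)) := fun x => by
    refine mul_le_mul_of_nonneg_left ?_ (hμ x).le
    have h1 := log_le_sub_one_of_pos (show 0 < c * exp (t * w x) / (Z t * f x) from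
      div_pos (mul_pos hcpos (exp_pos _)) (mul_pos (hZp t) (hf x)))
    rw [log_div (mul_pos hcpos (exp_pos _)).ne' (mul_pos (hZp t) (hf x)).ne',
      log_mul hcpos.ne' (exp_pos _).ne', log_mul (hZp t).ne' (hf x).ne', log_exp] at h1
    have h2 := mul_le_mul_of_nonneg_left h1 (hf x).le
    have h3 : f x * (c * exp (t * w x) / (Z t * f x)) = c * exp (t * w x) / Z t := by
      field_simp [(hf x).ne', (hZp t).ne']
    rw [mul_sub (f x) (c * exp (t * w x) / (Z t * f x)) 1, h3] at h2
    linarith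
  have hsum := sum_le_sum (s := univ) fun x _ => hp x
  have e1 : ∑ x, μ x * (f x * (t * w x - log (Z t) + log c))
      = t * (∑ x, μ x * (f x - c) * w x) + c * (t * m - log (Z t) + log c) := by
    have : ∀ x, μ x * (f x * (t * w x - log (Z t) + log c)) = t * (μ x * (f x - c) * w x)
        + (t * c) * (μ x * w x) + (log c - log (Z t)) * (μ x * f x) := fun x => by ring
    simp only [this, sum_add_distrib, ← mul_sum, ← hc, ← hm]
    ring
  have e2 : ∑ x, μ x * (f x * log (f x) + (c * exp (t * w x) / Z t - f x))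
      = ∑ x, μ x * (f x * log (f x)) := by
    have : ∀ x, μ x * (f x * log (f x) + (c * exp (t * w x) / Z t - f x))
        = μ x * (f x * log (f x)) + ((c / Z t) * (μ x * exp (t * w x)) - μ x * f x) := fun x => by
      ring
    simp only [this, sum_add_distrib, sum_sub_distrib, ← mul_sum, ← hc]
    rw [show ∑ x, μ x * exp (t * w x) = Z t from rfl, div_mul_cancel₀ _ (hZp t).ne']
    ring
  rw [e1, e2] at hsum
  have hl : log (Z t) ≤ q * t ^ 2 / 2 + m * t := by
    simp only [hh] at hh0
    linarith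
  have hl' := mul_le_mul_of_nonneg_left hl hcpos.le
  rw [ent, ← hc]
  linarith

/-- A gap bounds the first moment of the spins against the entropy. -/
theorem sum_sq_mean_le (J : Fin n → Fin n → ℝ) (b : Fin n → ℝ) {c : ℝ} (hc : 0 < c)
    (hgap : ∀ b', HasGap (ising J b') c) {f : Cube n → ℝ} (hf : ∀ x, 0 < f x) :
    ∑ i, (∑ x, ising J b x * (f x / (∑ y, ising J b y * f y) - 1) * spin (x i)) ^ 2
      ≤ 2 / c * (ent (ising J b) f / ∑ y, ising J b y * f y) := by
  set μ := ising J b with hμdef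
  set cf := ∑ y, μ y * f y with hcf
  have hcfp : 0 < cf := sum_pos (fun x _ => mul_pos (ising_pos J b x) (hf x)) univ_nonempty
  set u : Fin n → ℝ := fun i => ∑ x, μ x * (f x / cf - 1) * spin (x i) with hu
  set U := ∑ i, u i ^ 2 with hU
  have hlin : ∑ x, μ x * (f x - cf) * lin u x = cf * U := by
    rw [hU, mul_sum]
    simp only [lin, mul_sum]
    rw [sum_comm]
    refine sum_congr rfl fun i _ => ?_
    have hcu : cf * u i = ∑ x, μ x * (f x - cf) * spin (x i) := by
      rw [hu, mul_sum]
      refine sum_congr rfl fun x _ => ?_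
      field_simp
    rw [sq, ← mul_assoc, hcu, sum_mul]
    exact sum_congr rfl fun x _ => by ring
  have hvar : ∀ t : ℝ, (∑ x, μ x * lin u x ^ 2 * exp (t * lin u x))
      * (∑ x, μ x * exp (t * lin u x)) - (∑ x, μ x * lin u x * exp (t * lin u x)) ^ 2
        ≤ U / c * (∑ x, μ x * exp (t * lin u x)) ^ 2 := by
    intro t
    set Z := ∑ x, μ x * exp (t * lin u x)
    have hZ : 0 < Z := sum_pos (fun x _ => mul_pos (ising_pos J b x) (exp_pos _)) univ_nonempty
    have htilt : ∀ x, ising J (fun i => b i + t * u i) x = μ x * exp (t * lin u x) / Z :=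
      ising_eq_reweight (K := 0) fun x => by
        rw [ham_add_field, add_zero]
        simp only [lin, mul_sum, mul_assoc]
    have hp := isProb_ising J (fun i => b i + t * u i)
    have h1 := (hgap (fun i => b i + t * u i) (lin u)).trans (dirichlet_lin_le hp u)
    rw [← hU, variance_eq hp] at h1
    simp only [av, htilt, div_mul_eq_mul_div, ← sum_div] at h1
    have e1 : ∀ x, μ x * exp (t * lin u x) * lin u x ^ 2
        = μ x * lin u x ^ 2 * exp (t * lin u x) := fun x => by ring
    have e2 : ∀ x, μ x * exp (t * lin u x) * lin u x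
        = μ x * lin u x * exp (t * lin u x) := fun x => by ring
    simp only [e1, e2] at h1
    rw [div_mul_eq_mul_div U c (Z ^ 2), le_div_iff₀ hc]
    refine le_trans (le_of_eq ?_) (mul_le_mul_of_nonneg_right h1 (sq_nonneg Z))
    generalize ∑ x, μ x * lin u x ^ 2 * exp (t * lin u x) = A
    generalize ∑ x, μ x * lin u x * exp (t * lin u x) = A'
    field_simp
  have key := transport (ising_pos J b) (sum_ising J b) hvar hf hc.le
  rw [← hcf, hlin, show U / c * c ^ 2 / 2 = c * U / 2 by field_simp] at key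
  rw [show 2 / c * (ent μ f / cf) = 2 * ent μ f / (c * cf) by field_simp,
    le_div_iff₀ (mul_pos hc hcfp)]
  change U * (c * cf) ≤ _
  linarith

/-- The entropy bounds the total variation. -/
theorem sq_sum_abs_le {μ : Cube n → ℝ} (hμ : ∀ x, 0 < μ x) (hs : ∑ x, μ x = 1) {f : Cube n → ℝ}
    (hf : ∀ x, 0 < f x) :
    (∑ x, |μ x * (f x / (∑ y, μ y * f y) - 1)|) ^ 2 ≤ 2 * (ent μ f / ∑ y, μ y * f y) := by
  set cf := ∑ y, μ y * f y with hcf
  have hcfp : 0 < cf := sum_pos (fun x _ => mul_pos (hμ x) (hf x)) univ_nonempty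
  set D := ∑ x, |μ x * (f x / cf - 1)| with hD
  let w : Cube n → ℝ := fun x => if cf ≤ f x then 1 else -1
  have hw : ∀ x, w x ^ 2 = 1 := fun x => by simp only [w]; split_ifs <;> norm_num
  have hvar : ∀ t : ℝ, (∑ x, μ x * w x ^ 2 * exp (t * w x)) * (∑ x, μ x * exp (t * w x))
      - (∑ x, μ x * w x * exp (t * w x)) ^ 2 ≤ 1 * (∑ x, μ x * exp (t * w x)) ^ 2 := by
    intro t
    simp only [hw, mul_one, one_mul, sq (∑ x, μ x * exp (t * w x))]
    linarith [sq_nonneg (∑ x, μ x * w x * exp (t * w x))]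
  have hlin : ∑ x, μ x * (f x - cf) * w x = cf * D := by
    rw [hD, mul_sum]
    refine sum_congr rfl fun x _ => ?_
    have e : μ x * (f x - cf) = cf * (μ x * (f x / cf - 1)) := by field_simp
    rw [e, mul_assoc]
    congr 1
    simp only [w]
    split_ifs with h
    · rw [mul_one, abs_of_nonneg (mul_nonneg (hμ x).le (sub_nonneg.2 ((one_le_div hcfp).2 h)))]
    · rw [abs_of_nonpos (mul_nonpos_of_nonneg_of_nonpos (hμ x).le
        (sub_nonpos.2 ((div_le_one hcfp).2 (not_le.1 h).le)))]
      ring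
  have key := transport hμ hs hvar hf (show 0 ≤ D from sum_nonneg fun _ _ => abs_nonneg _)
  rw [← hcf, hlin, one_mul] at key
  rw [← mul_div_assoc, le_div_iff₀ hcfp]
  linarith

/-! ## One step of annealing -/

variable {J : Fin n → Fin n → ℝ} {lam : ℝ}

/-- A square root of `J + lam`. -/
theorem exists_factor (hJ : IsCoupling J) (hnorm : NormLe J lam) :
    ∃ B : Fin n → Fin n → ℝ, ∀ u : Fin n → ℝ,
      ∑ k, (∑ i, B k i * u i) ^ 2 = (∑ i, ∑ j, J i j * u i * u j) + lam * ∑ i, u i ^ 2 := by
  classical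
  let M : Matrix (Fin n) (Fin n) ℝ := Matrix.of fun i j => J i j + if i = j then lam else 0
  have hq : ∀ u : Fin n → ℝ, ∑ i, ∑ j, M i j * u i * u j
      = (∑ i, ∑ j, J i j * u i * u j) + lam * ∑ i, u i ^ 2 := by
    intro u
    simp only [M, Matrix.of_apply, add_mul, sum_add_distrib, ite_mul, zero_mul, sum_ite_eq,
      mem_univ, if_true, mul_sum]
    congr 1
    exact sum_congr rfl fun i _ => by ring
  have hM : M.PosSemidef := by
    refine Matrix.PosSemidef.of_dotProduct_mulVec_nonneg ?_ fun u => ?_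
    · ext i j
      simp [M, hJ.symm i j, eq_comm]
    · have h1 : star u ⬝ᵥ (M *ᵥ u) = ∑ i, ∑ j, M i j * u i * u j := by
        simp only [dotProduct, Matrix.mulVec, mul_sum, Pi.star_apply, star_trivial]
        exact sum_congr rfl fun i _ => sum_congr rfl fun j _ => by ring
      rw [h1, hq]
      linarith [(abs_le.1 (hnorm u)).1]
  obtain ⟨B, hB⟩ := CStarAlgebra.nonneg_iff_eq_star_mul_self.mp hM.nonneg
  refine ⟨fun k i => B k i, fun u => ?_⟩
  rw [← hq u, hB]
  simp only [sq, sum_mul_sum]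
  simp only [Matrix.mul_apply, Matrix.star_apply, star_trivial, sum_mul]
  rw [sum_comm]
  refine sum_congr rfl fun i _ => ?_
  rw [sum_comm]
  exact sum_congr rfl fun j _ => sum_congr rfl fun k _ => by ring

theorem ham_smul (s : ℝ) (b : Fin n → ℝ) (x : Cube n) :
    ham (fun i j => s * J i j) b x
      = s / 2 * (∑ i, ∑ j, J i j * spin (x i) * spin (x j)) + lin b x := by
  simp only [ham, lin, mul_assoc, ← mul_sum]
  ring

/-- One step of annealing. -/
theorem hasMLSI_step (hJ : IsCoupling J) (hlam : 0 ≤ lam) (hnorm : NormLe J lam) {c : ℝ}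
    (hc : 0 < c) {s δ C : ℝ} (hδ : 0 ≤ δ) (hC : 0 ≤ C) (hsmall : δ * (8 * lam * n) ≤ 1)
    (hκ : exp (δ * (lam * n)) * (4 * lam / c * δ + 2 * (8 * lam * n) ^ 2 * δ ^ 2) < 1)
    (hmlsi : ∀ b, HasMLSI (ising (fun i j => s * J i j) b) C)
    (hgap : ∀ b, HasGap (ising (fun i j => (s + δ) * J i j) b) c) (b : Fin n → ℝ) :
    HasMLSI (ising (fun i j => (s + δ) * J i j) b)
      (C / (1 - exp (δ * (lam * n)) * (4 * lam / c * δ + 2 * (8 * lam * n) ^ 2 * δ ^ 2))) := by
  intro f hf
  obtain ⟨B, hB⟩ := exists_factor hJ hnorm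
  set μ := ising (fun i j => (s + δ) * J i j) b with hμdef
  have hμp : ∀ x, 0 < μ x := ising_pos _ b
  have hμ1 : ∑ x, μ x = 1 := sum_ising _ b
  set cf := ∑ y, μ y * f y with hcf
  have hcfp : 0 < cf := sum_pos (fun x _ => mul_pos (hμp x) (hf x)) univ_nonempty
  -- the vectors attached to the configurations
  set a : Cube n → Fin n → ℝ := fun x k => ∑ i, B k i * spin (x i) with ha
  have hnn : ∀ x : Cube n, ∑ i, spin (x i) ^ 2 = (n : ℝ) := sum_spin_sq
  have haq : ∀ x, ∑ k, a x k ^ 2 = (∑ i, ∑ j, J i j * spin (x i) * spin (x j)) + lam * n :=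
    fun x => by rw [ha, hB fun i => spin (x i), hnn]
  have hale : ∀ x, ∑ k, a x k ^ 2 ≤ 2 * lam * n := fun x => by
    rw [haq]
    have := (abs_le.1 (hnorm fun i => spin (x i))).2
    simp only [hnn] at this
    linarith
  set m : Fin n → ℝ := fun k => ∑ x, μ x * a x k with hm
  set q := ∑ x, μ x * ∑ k, a x k ^ 2 with hq
  have hqle : q ≤ 2 * lam * n := by
    calc q ≤ ∑ x, μ x * (2 * lam * n) :=
          sum_le_sum fun x _ => mul_le_mul_of_nonneg_left (hale x) (hμp x).le
      _ = _ := by rw [← sum_mul, hμ1, one_mul]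
  have hmq : ∑ k, m k ^ 2 ≤ q := by
    rw [hq]
    simp only [mul_sum]
    rw [sum_comm]
    refine sum_le_sum fun k _ => ?_
    have h0 : 0 ≤ ∑ x, μ x * (a x k - m k) ^ 2 :=
      sum_nonneg fun x _ => mul_nonneg (hμp x).le (sq_nonneg _)
    have e : ∀ x, μ x * (a x k - m k) ^ 2
        = μ x * a x k ^ 2 - 2 * m k * (μ x * a x k) + m k ^ 2 * μ x := fun x => by ring
    simp only [e, sum_add_distrib, sum_sub_distrib, ← mul_sum, hμ1] at h0
    change 0 ≤ (∑ x, μ x * a x k ^ 2) - 2 * m k * m k + m k ^ 2 * 1 at h0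
    linarith
  -- the Gaussian weights
  set r := Real.sqrt δ with hr
  have hr2 : r * r = δ := Real.mul_self_sqrt hδ
  set z : Cube n → (Fin n → ℝ) → ℝ := fun x ξ =>
    (∑ k, (r * a x k) * ξ k) - δ / 2 * ∑ k, a x k ^ 2 with hz
  have hint_l : ∀ x, HasInt (fun ξ => exp (z x ξ)) 1 := fun x => by
    refine ((hasInt_exp fun k => r * a x k).const_mul
      (exp (-(δ / 2 * ∑ k, a x k ^ 2)))).of_eq (fun ξ => ?_) ?_
    · rw [← exp_add]; congr 1; simp only [hz]; ring
    · rw [← exp_add, eq_comm, exp_eq_one_iff, mul_sum, sum_div, ← sum_neg_distrib,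
        ← sum_add_distrib]
      refine sum_eq_zero fun k _ => ?_
      rw [mul_pow, sq r, hr2]
      ring
  have hint2 : ∀ x y, HasInt
      (fun ξ => exp (z x ξ) * exp (z y ξ) * exp (δ * q / 2 - ∑ k, (r * m k) * ξ k))
      (exp (δ / 2 * (q - ∑ k, m k ^ 2) + δ * ∑ k, (a x k - m k) * (a y k - m k))) := fun x y => by
    refine ((hasInt_exp fun k => r * (a x k + a y k - m k)).const_mul
      (exp (δ * q / 2 - δ / 2 * ∑ k, a x k ^ 2 - δ / 2 * ∑ k, a y k ^ 2))).of_eq (fun ξ => ?_) ?_
    · simp only [hz, ← exp_add]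
      congr 1
      simp only [mul_sub, mul_add, sub_mul, add_mul, sum_sub_distrib, sum_add_distrib]
      ring
    · rw [← exp_add]
      congr 1
      have e : ∀ k, (r * (a x k + a y k - m k)) ^ 2
          = δ * (a x k ^ 2) + δ * (a y k ^ 2) - δ * (m k ^ 2)
            + 2 * δ * ((a x k - m k) * (a y k - m k)) := fun k => by
        rw [mul_pow, sq r, hr2]; ring
      simp only [e, sum_add_distrib, sum_sub_distrib, ← mul_sum]
      ring
  set g : Cube n → ℝ := fun x => μ x * (f x / cf - 1) with hg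
  have hg0 : ∑ x, g x = 0 := by
    have : ∀ x, g x = μ x * f x / cf - μ x := fun x => by simp only [hg]; ring
    simp only [this, sum_sub_distrib, ← sum_div, ← hcf, hμ1, div_self hcfp.ne', sub_self]
  set D : Cube n → Fin n → ℝ :=
    fun x i => (f (flipAt i x) - f x) * (log (f (flipAt i x)) - log (f x)) with hD
  have hD0 : ∀ x i, 0 ≤ D x i := fun x i => by
    rcases le_total (f x) (f (flipAt i x)) with h | h
    · exact mul_nonneg (sub_nonneg.2 h) (sub_nonneg.2 (log_le_log (hf _) h))
    · exact mul_nonneg_of_nonpos_of_nonpos (sub_nonpos.2 h) (sub_nonpos.2 (log_le_log (hf _) h))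
  set τ : Cube n → Fin n → ℝ := fun x i => μ (flipAt i x) / (μ x + μ (flipAt i x)) with hτ
  set Φ : (Fin n → ℝ) → ℝ := fun ξ =>
    (1 / 2) * ∑ x, ∑ i, (D x i * τ x i ^ 2 * μ x * exp (z x ξ)
      + D x i * (1 - τ x i) ^ 2 * μ (flipAt i x) * exp (z (flipAt i x) ξ)) with hΦ
  -- the pointwise inequality
  have point : ∀ ξ, ∑ x, μ x * (f x * log (f x)) * exp (z x ξ)
      ≤ C * Φ ξ + ((∑ x, ((log cf + 1) * (μ x * f x) - cf * μ x) * exp (z x ξ))
        + cf * ∑ x, ∑ y, g x * g y *
          (exp (z x ξ) * exp (z y ξ) * exp (δ * q / 2 - ∑ k, (r * m k) * ξ k))) := by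
    intro ξ
    set L := ∑ x, μ x * exp (z x ξ) with hL
    set N := ∑ x, μ x * f x * exp (z x ξ) with hN
    have hLp : 0 < L := sum_pos (fun x _ => mul_pos (hμp x) (exp_pos _)) univ_nonempty
    have hNp : 0 < N :=
      sum_pos (fun x _ => mul_pos (mul_pos (hμp x) (hf x)) (exp_pos _)) univ_nonempty
    set b' : Fin n → ℝ := fun i => b i + r * ∑ k, ξ k * B k i with hb'
    set ν := ising (fun i j => s * J i j) b' with hνdef
    have hν : ∀ x, ν x = μ x * exp (z x ξ) / L :=
      ising_eq_reweight (K := δ * lam * n / 2) fun x => by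
        rw [hb', ham_add_field, ham_smul, ham_smul]
        have hlin : lin (fun i => r * ∑ k, ξ k * B k i) x = ∑ k, (r * a x k) * ξ k := by
          simp only [lin, ha, mul_sum, sum_mul]
          rw [sum_comm]
          exact sum_congr rfl fun k _ => sum_congr rfl fun i _ => by ring
        simp only [hz, hlin]
        rw [haq]
        ring
    have hent : ent ν f = (∑ x, μ x * (f x * log (f x)) * exp (z x ξ)) / L
        - N / L * log (N / L) := by
      have e1 : ∑ x, ν x * (f x * log (f x))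
          = (∑ x, μ x * (f x * log (f x)) * exp (z x ξ)) / L := by
        rw [sum_div]; exact sum_congr rfl fun x _ => by rw [hν]; ring
      have e2 : ∑ x, ν x * f x = N / L := by
        rw [hN, sum_div]; exact sum_congr rfl fun x _ => by rw [hν]; ring
      rw [ent, e1, e2]
    have hdir : L * dirLog ν f ≤ Φ ξ := by
      simp only [dirLog, hΦ, mul_left_comm L, mul_sum]
      refine sum_le_sum fun x _ => sum_le_sum fun i _ => ?_
      set A := μ x * exp (z x ξ) with hA
      set A' := μ (flipAt i x) * exp (z (flipAt i x) ξ) with hA'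
      have hAp : 0 < A := mul_pos (hμp x) (exp_pos _)
      have hA'p : 0 < A' := mul_pos (hμp _) (exp_pos _)
      have e : L * (ν x * flipProb ν i x) = A * A' / (A + A') := by
        simp only [flipProb, hν]
        rw [← hA, ← hA']
        field_simp
      have hle : A * A' / (A + A') ≤ τ x i ^ 2 * A + (1 - τ x i) ^ 2 * A' := by
        rw [div_le_iff₀ (add_pos hAp hA'p)]
        linarith [sq_nonneg (τ x i * A - (1 - τ x i) * A')]
      have h2 := mul_le_mul_of_nonneg_left (e.le.trans hle) (hD0 x i)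
      simp only [hD] at h2 ⊢
      linarith
    have h1 := mul_le_mul_of_nonneg_left (hmlsi b' f hf) hLp.le
    rw [← hνdef, hent, mul_left_comm L C] at h1
    have h2 := mul_le_mul_of_nonneg_left hdir hC
    rw [mul_sub, mul_div_cancel₀ _ hLp.ne', ← mul_assoc, mul_div_cancel₀ _ hLp.ne'] at h1
    have h3 := mul_le_mul_of_nonneg_left
      (log_le_sub_one_of_pos (div_pos (div_pos hNp hLp) hcfp)) hNp.le
    rw [log_div (div_pos hNp hLp).ne' hcfp.ne'] at h3
    have e3 : N * (N / L / cf - 1) = (N - cf * L) ^ 2 / (cf * L) + N - cf * L := by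
      field_simp
      ring
    have e4 : ∑ x, ((log cf + 1) * (μ x * f x) - cf * μ x) * exp (z x ξ)
        = (log cf + 1) * N - cf * L := by
      simp only [hN, hL, mul_sum, ← sum_sub_distrib]
      exact sum_congr rfl fun x _ => by ring
    have hquad : (N - cf * L) ^ 2 / (cf * L) ≤ cf * ∑ x, ∑ y, g x * g y *
        (exp (z x ξ) * exp (z y ξ) * exp (δ * q / 2 - ∑ k, (r * m k) * ξ k)) := by
      have e5 : N - cf * L = cf * ∑ x, g x * exp (z x ξ) := by
        simp only [hN, hL, mul_sum, ← sum_sub_distrib]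
        exact sum_congr rfl fun x _ => by simp only [hg]; field_simp
      set Mz := ∑ x, μ x * z x ξ with hMz
      have hjen : exp Mz ≤ L := by
        calc exp Mz = ∑ x, μ x * (exp Mz * (z x ξ - Mz + 1)) := by
              have : ∀ x, μ x * (exp Mz * (z x ξ - Mz + 1))
                  = exp Mz * (μ x * z x ξ) + exp Mz * (1 - Mz) * μ x := fun x => by ring
              simp only [this, sum_add_distrib, ← mul_sum, hμ1, ← hMz]
              ring
          _ ≤ L := sum_le_sum fun x _ => by
              refine mul_le_mul_of_nonneg_left ?_ (hμp x).le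
              refine (mul_le_mul_of_nonneg_left (add_one_le_exp _) (exp_pos _).le).trans_eq ?_
              rw [← exp_add, add_sub_cancel]
      have hMeq : -Mz = δ * q / 2 - ∑ k, (r * m k) * ξ k := by
        have e6 : ∑ x, μ x * ∑ k, (r * a x k) * ξ k = ∑ k, (r * m k) * ξ k := by
          simp only [hm, mul_sum, sum_mul]
          rw [sum_comm]
          exact sum_congr rfl fun k _ => sum_congr rfl fun x _ => by ring
        simp only [hMz, hz, mul_sub, sum_sub_distrib, e6, hq, mul_left_comm _ (δ / 2), ← mul_sum]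
        ring
      rw [e5, mul_pow, sq cf, mul_assoc, mul_div_mul_left _ _ hcfp.ne', mul_div_assoc]
      refine mul_le_mul_of_nonneg_left ?_ hcfp.le
      have : (∑ x, g x * exp (z x ξ)) ^ 2 / L ≤ (∑ x, g x * exp (z x ξ)) ^ 2 * exp (-Mz) := by
        rw [exp_neg, ← div_eq_mul_inv]
        exact div_le_div_of_nonneg_left (sq_nonneg _) (exp_pos _) hjen
      refine this.trans_eq ?_
      rw [hMeq, sq, sum_mul_sum, sum_mul]
      refine sum_congr rfl fun x _ => ?_
      rw [sum_mul]
      exact sum_congr rfl fun y _ => by ring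
    rw [e3] at h3
    linarith
  -- integrate
  have hlhs := HasInt.sum univ fun x _ => (hint_l x).const_mul (μ x * (f x * log (f x)))
  have hΦi : HasInt Φ (dirLog μ f) := by
    refine ((HasInt.sum univ fun x _ => HasInt.sum univ fun i _ =>
      ((hint_l x).const_mul (D x i * τ x i ^ 2 * μ x)).add
        ((hint_l (flipAt i x)).const_mul
          (D x i * (1 - τ x i) ^ 2 * μ (flipAt i x)))).const_mul (1 / 2)).of_eq
        (fun ξ => rfl) ?_
    simp only [dirLog, mul_one]
    congr 1
    refine sum_congr rfl fun x _ => sum_congr rfl fun i _ => ?_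
    have h1 := hμp x
    have h2 := hμp (flipAt i x)
    simp only [hτ, hD, flipProb]
    field_simp
    ring
  have hrhs := (hΦi.const_mul C).add
    ((HasInt.sum univ fun x _ =>
      (hint_l x).const_mul ((log cf + 1) * (μ x * f x) - cf * μ x)).add
    ((HasInt.sum univ fun x _ => HasInt.sum univ fun y _ =>
      (hint2 x y).const_mul (g x * g y)).const_mul cf))
  have hmain := integral_mono hlhs.1 hrhs.1 point
  rw [hlhs.2, hrhs.2] at hmain
  -- the quadratic term
  set H := 8 * lam * n with hH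
  have hH0 : 0 ≤ H := by positivity
  set hv : Cube n → Cube n → ℝ := fun x y => ∑ k, (a x k - m k) * (a y k - m k) with hhv
  have hsq : ∀ x, ∑ k, (a x k - m k) ^ 2 ≤ H := fun x => by
    calc ∑ k, (a x k - m k) ^ 2 ≤ ∑ k, (2 * a x k ^ 2 + 2 * m k ^ 2) :=
          sum_le_sum fun k _ => by linarith [sq_nonneg (a x k + m k)]
      _ = 2 * (∑ k, a x k ^ 2) + 2 * ∑ k, m k ^ 2 := by rw [sum_add_distrib, mul_sum, mul_sum]
      _ ≤ _ := by linarith [hale x]
  have hhH : ∀ x y, |hv x y| ≤ H := fun x y => by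
    rw [abs_le]
    have e : ∀ k, (a x k - m k + (a y k - m k)) ^ 2 = (a x k - m k) ^ 2 + (a y k - m k) ^ 2
        + 2 * ((a x k - m k) * (a y k - m k)) := fun k => by ring
    have e' : ∀ k, (a x k - m k - (a y k - m k)) ^ 2 = (a x k - m k) ^ 2 + (a y k - m k) ^ 2
        - 2 * ((a x k - m k) * (a y k - m k)) := fun k => by ring
    have h1 : 0 ≤ ∑ k, (a x k - m k + (a y k - m k)) ^ 2 := sum_nonneg fun _ _ => sq_nonneg _
    have h2 : 0 ≤ ∑ k, (a x k - m k - (a y k - m k)) ^ 2 := sum_nonneg fun _ _ => sq_nonneg _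
    simp only [e, e', sum_add_distrib, sum_sub_distrib, ← mul_sum] at h1 h2
    simp only [hhv]
    constructor <;> linarith [hsq x, hsq y]
  set E := ent μ f / cf with hE
  set G := ∑ x, |g x| with hG
  have hG2 : G ^ 2 ≤ 2 * E := sq_sum_abs_le hμp hμ1 hf
  have hlin2 : ∑ x, ∑ y, g x * g y * hv x y ≤ 2 * lam * (2 / c * E) := by
    set u : Fin n → ℝ := fun i => ∑ x, g x * spin (x i) with hu
    have e1 : ∑ x, ∑ y, g x * g y * hv x y = ∑ k, (∑ x, g x * (a x k - m k)) ^ 2 := by
      simp only [sq, sum_mul_sum]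
      simp only [hhv, mul_sum]
      rw [sum_comm (γ := Fin n)]
      refine sum_congr rfl fun x _ => ?_
      rw [sum_comm]
      exact sum_congr rfl fun k _ => sum_congr rfl fun y _ => by ring
    have e2 : ∀ k, ∑ x, g x * (a x k - m k) = ∑ i, B k i * u i := fun k => by
      simp only [mul_sub, sum_sub_distrib, ← sum_mul, hg0, zero_mul, sub_zero, ha, hu, mul_sum]
      rw [sum_comm]
      exact sum_congr rfl fun i _ => sum_congr rfl fun x _ => by ring
    simp only [e1, e2, hB u]
    have h3 : ∑ i, u i ^ 2 ≤ 2 / c * E := sum_sq_mean_le _ b hc hgap hf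
    have h4 := mul_le_mul_of_nonneg_left h3 hlam
    linarith [(abs_le.1 (hnorm u)).2]
  have hexp : ∀ x y, g x * g y * exp (δ * hv x y)
      ≤ g x * g y + δ * (g x * g y * hv x y) + |g x| * |g y| * (δ * H) ^ 2 := by
    intro x y
    have h1 : |δ * hv x y| ≤ δ * H := by
      rw [abs_mul, abs_of_nonneg hδ]; exact mul_le_mul_of_nonneg_left (hhH x y) hδ
    have h2 := abs_exp_sub_one_sub_id_le (h1.trans hsmall)
    have h3 : (δ * hv x y) ^ 2 ≤ (δ * H) ^ 2 := by
      rw [← sq_abs (δ * hv x y)]; exact pow_le_pow_left₀ (abs_nonneg _) h1 2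
    have h4 : g x * g y * (exp (δ * hv x y) - 1 - δ * hv x y) ≤ |g x| * |g y| * (δ * H) ^ 2 := by
      refine (le_abs_self _).trans ?_
      rw [abs_mul, abs_mul]
      exact mul_le_mul_of_nonneg_left (h2.trans h3) (mul_nonneg (abs_nonneg _) (abs_nonneg _))
    linarith
  have hE0 : 0 ≤ E := by linarith [sq_nonneg G]
  have hQ : ∑ x, ∑ y, g x * g y * exp (δ / 2 * (q - ∑ k, m k ^ 2) + δ * hv x y)
      ≤ exp (δ * (lam * n)) * (4 * lam / c * δ + 2 * H ^ 2 * δ ^ 2) * E := by
    have hS : ∑ x, ∑ y, g x * g y * exp (δ * hv x y)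
        ≤ (4 * lam / c * δ + 2 * H ^ 2 * δ ^ 2) * E := by
      refine (sum_le_sum fun x _ => sum_le_sum fun y _ => hexp x y).trans ?_
      simp only [sum_add_distrib, ← mul_sum, ← sum_mul, hg0, mul_zero, zero_add, ← hG]
      have h5 := mul_le_mul_of_nonneg_left hlin2 hδ
      have h6 := mul_le_mul_of_nonneg_right hG2 (sq_nonneg (δ * H))
      rw [show 2 * lam * (2 / c * E) = 4 * lam / c * E by ring] at h5
      linarith
    have hcoef : 0 ≤ 4 * lam / c * δ + 2 * H ^ 2 * δ ^ 2 := by positivity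
    have hexp1 : exp (δ / 2 * (q - ∑ k, m k ^ 2)) ≤ exp (δ * (lam * n)) := by
      refine exp_le_exp.2 ?_
      calc δ / 2 * (q - ∑ k, m k ^ 2) ≤ δ / 2 * (2 * lam * n) := by
            refine mul_le_mul_of_nonneg_left ?_ (by positivity)
            linarith [sum_nonneg (s := univ) fun k _ => sq_nonneg (m k)]
        _ = _ := by ring
    calc ∑ x, ∑ y, g x * g y * exp (δ / 2 * (q - ∑ k, m k ^ 2) + δ * hv x y)
        = exp (δ / 2 * (q - ∑ k, m k ^ 2)) * ∑ x, ∑ y, g x * g y * exp (δ * hv x y) := by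
          simp only [mul_sum, exp_add]
          exact sum_congr rfl fun x _ => sum_congr rfl fun y _ => by ring
      _ ≤ exp (δ / 2 * (q - ∑ k, m k ^ 2)) * ((4 * lam / c * δ + 2 * H ^ 2 * δ ^ 2) * E) :=
          mul_le_mul_of_nonneg_left hS (exp_pos _).le
      _ ≤ exp (δ * (lam * n)) * ((4 * lam / c * δ + 2 * H ^ 2 * δ ^ 2) * E) :=
          mul_le_mul_of_nonneg_right hexp1 (mul_nonneg hcoef hE0)
      _ = _ := by ring
  simp only [mul_one, sum_sub_distrib, ← mul_sum, hμ1, ← hcf] at hmain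
  rw [div_mul_eq_mul_div, le_div_iff₀ (by linarith)]
  have hQ' := mul_le_mul_of_nonneg_left hQ hcfp.le
  rw [mul_comm (exp _ * _) E, ← mul_assoc cf E, hE, mul_div_cancel₀ _ hcfp.ne'] at hQ'
  rw [ent] at hQ' ⊢
  rw [← hcf] at hQ' ⊢
  simp only [hhv] at hQ'
  linarith

/-! ## The annealing -/

/-- A uniform gap along the interpolation gives a modified log-Sobolev inequality, given the
inequality for product measures. -/
theorem hasMLSI_of_gap_of_product (J : Fin n → Fin n → ℝ) (hJ : IsCoupling J) {lam c : ℝ}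
    (hlam : 0 ≤ lam) (hc : 0 < c) (hnorm : NormLe J lam)
    (hgap : ∀ s ∈ Set.Icc (0 : ℝ) 1, ∀ b, HasGap (ising (fun i j => s * J i j) b) c)
    (hprod : ∀ b : Fin n → ℝ, HasMLSI (ising (fun _ _ => 0) b) 1)
    (b : Fin n → ℝ) : HasMLSI (ising J b) (Real.exp (8 * lam / c + 1)) := by
  set H := 8 * lam * n with hH
  set K : ℝ → ℝ := fun δ => exp (δ * (lam * n)) * (4 * lam / c + 2 * H ^ 2 * δ) with hK
  have hKlim : Tendsto (fun N : ℕ => K (1 / ((N : ℝ) + 1))) atTop (𝓝 (4 * lam / c)) := by
    have hcont : Continuous K := by fun_prop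
    have := (hcont.tendsto 0).comp tendsto_one_div_add_atTop_nhds_zero_nat
    simpa [hK, Function.comp_def] using this
  have hsm : ∀ a : ℝ, Tendsto (fun N : ℕ => 1 / ((N : ℝ) + 1) * a) atTop (𝓝 0) := fun a => by
    simpa using (tendsto_one_div_add_atTop_nhds_zero_nat (𝕜 := ℝ)).mul_const a
  obtain ⟨N, h1, h2, h3⟩ := ((hKlim.eventually (eventually_lt_nhds
    (show 4 * lam / c < 4 * lam / c + 1 / 2 by linarith))).and
    (((hsm H).eventually (eventually_lt_nhds zero_lt_one)).and
    ((hsm (4 * lam / c + 1 / 2)).eventually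
      (eventually_lt_nhds (show (0 : ℝ) < 1 / 2 by norm_num))))).exists
  set δ := 1 / ((N : ℝ) + 1) with hδ
  have hδ0 : 0 < δ := by positivity
  set κ := exp (δ * (lam * n)) * (4 * lam / c * δ + 2 * H ^ 2 * δ ^ 2) with hκ
  have hκeq : κ = δ * K δ := by simp only [hκ, hK]; ring
  have hK0 : 0 ≤ K δ := by simp only [hK]; positivity
  have hκle : κ ≤ δ * (4 * lam / c + 1 / 2) :=
    hκeq ▸ mul_le_mul_of_nonneg_left h1.le hδ0.le
  have hκ0 : 0 ≤ κ := hκeq ▸ mul_nonneg hδ0.le hK0
  have hκ1 : 0 < 1 - κ := by linarith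
  have hNδ : ((N : ℝ) + 1) * δ = 1 := by rw [hδ]; field_simp
  have step : ∀ k : ℕ, k ≤ N + 1 → ∀ b, HasMLSI (ising (fun i j => (k * δ) * J i j) b)
      (1 / (1 - κ) ^ k) := by
    intro k
    induction k with
    | zero => intro _ b; simpa using hprod b
    | succ k ih =>
      intro hk b
      have hs : ((k : ℝ) + 1) * δ ∈ Set.Icc (0 : ℝ) 1 := by
        refine ⟨by positivity, ?_⟩
        calc ((k : ℝ) + 1) * δ ≤ ((N : ℝ) + 1) * δ := by
              gcongr
              exact_mod_cast (show k ≤ N by omega)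
          _ = 1 := hNδ
      have h := hasMLSI_step hJ hlam hnorm hc (s := k * δ) (δ := δ) hδ0.le
        (by positivity) h2.le (by linarith) (ih (by omega))
        (fun b' => by rw [show (k : ℝ) * δ + δ = ((k : ℝ) + 1) * δ by ring]; exact hgap _ hs b') b
      rw [show (k : ℝ) * δ + δ = ((k + 1 : ℕ) : ℝ) * δ by push_cast; ring] at h
      change HasMLSI _ (1 / (1 - κ) ^ k / (1 - κ)) at h
      rwa [div_div, ← pow_succ] at h
  have hfin := step (N + 1) le_rfl b
  simp only [Nat.cast_add, Nat.cast_one, hNδ, one_mul] at hfin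
  intro f hf
  refine (hfin f hf).trans (mul_le_mul_of_nonneg_right ?_ ?_)
  · rw [one_div, ← inv_pow]
    have hbase : (1 - κ)⁻¹ ≤ exp (2 * κ) := by
      rw [← one_div, div_le_iff₀ hκ1]
      calc (1 : ℝ) ≤ (1 + 2 * κ) * (1 - κ) := by
            have : κ * κ ≤ κ * (1 / 2) := mul_le_mul_of_nonneg_left (by linarith) hκ0
            linarith
        _ ≤ _ := mul_le_mul_of_nonneg_right (by linarith [add_one_le_exp (2 * κ)]) hκ1.le
    refine (pow_le_pow_left₀ (inv_nonneg.2 hκ1.le) hbase _).trans ?_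
    rw [← exp_nat_mul]
    refine exp_le_exp.2 ?_
    push_cast
    calc ((N : ℝ) + 1) * (2 * κ) ≤ ((N : ℝ) + 1) * (2 * (δ * (4 * lam / c + 1 / 2))) := by gcongr
      _ = (((N : ℝ) + 1) * δ) * (8 * lam / c + 1) := by ring
      _ = _ := by rw [hNδ, one_mul]
  · refine mul_nonneg (by norm_num) (sum_nonneg fun x _ => sum_nonneg fun i _ => mul_nonneg ?_ ?_)
    · exact mul_nonneg (ising_pos J b x).le (flipProb_nonneg (isProb_ising J b) i x)
    · rcases le_total (f x) (f (flipAt i x)) with h | h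
      · exact mul_nonneg (sub_nonneg.2 h) (sub_nonneg.2 (log_le_log (hf _) h))
      · exact mul_nonneg_of_nonpos_of_nonpos (sub_nonpos.2 h) (sub_nonpos.2 (log_le_log (hf _) h))

/-- A uniform gap along the interpolation gives a modified log-Sobolev inequality. -/
theorem hasMLSI_of_gap (J : Fin n → Fin n → ℝ) (hJ : IsCoupling J) {lam c : ℝ} (hlam : 0 ≤ lam)
    (hc : 0 < c) (hnorm : NormLe J lam)
    (hgap : ∀ s ∈ Set.Icc (0 : ℝ) 1, ∀ b, HasGap (ising (fun i j => s * J i j) b) c)
    (b : Fin n → ℝ) : HasMLSI (ising J b) (Real.exp (8 * lam / c + 1)) :=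
  hasMLSI_of_gap_of_product J hJ hlam hc hnorm hgap hasMLSI_product b

end

end Vale.Agent.P150.High
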