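import Vale.Agent.P150.High.Sites

/-!
The integrated `Γ₂` inequality for Ising measures, and the resulting spectral gap, uniformly in
the external field.
-/

namespace Vale.Agent.P150.High

open Finset

noncomputable section

variable {n : ℕ} {J : Fin n → Fin n → ℝ} {b : Fin n → ℝ}

/-- `m_i² v_i²`. -/
def curv (J : Fin n → Fin n → ℝ) (b : Fin n → ℝ) (i : Fin n) (x : Cube n) : ℝ :=
  mean J b i x ^ 2 * cvar J b i x ^ 2

/-- `D_i f = f - E[f | x_{-i}]`. -/
def dev (J : Fin n → Fin n → ℝ) (b : Fin n → ℝ) (f : Cube n → ℝ) (i : Fin n) (x : Cube n) : ℝ :=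
  (spin (x i) - mean J b i x) * deriv' f i x

theorem tanh_shift (A J₀ : ℝ) {τ : ℝ} (hτ : τ ^ 2 = 1) :
    Real.tanh (A + J₀ * τ) =
      (Real.tanh A + Real.tanh J₀ * τ) / (1 + Real.tanh J₀ * Real.tanh A * τ) := by
  have e : Real.tanh (J₀ * τ) = Real.tanh J₀ * τ := by
    rcases sq_eq_one_iff.1 hτ with rfl | rfl <;> simp [Real.tanh_neg]
  have h1 := (Real.cosh_pos A).ne'
  have h2 := (Real.cosh_pos (J₀ * τ)).ne'
  have h3 := (Real.cosh_pos (A + J₀ * τ)).ne'
  rw [show Real.tanh J₀ * Real.tanh A * τ = Real.tanh A * (Real.tanh J₀ * τ) by ring, ← e]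
  simp only [Real.tanh_eq_sinh_div_cosh]
  rw [Real.sinh_add, Real.cosh_add]
  rw [Real.cosh_add] at h3
  field_simp

theorem spin_bool : spin true = 1 ∧ spin false = -1 := by simp [spin]

/-- The bound for two sites. -/
theorem two_site (hJ : IsCoupling J) {i j : Fin n} (hij : i ≠ j) (hsmall : |J i j| ≤ 1 / 40)
    (f : Cube n → ℝ) :
    -(J i j ^ 2 * ∑ x, ising J b x *
          (curv J b i x * deriv' f i x ^ 2 + curv J b j x * deriv' f j x ^ 2)) -
        100 * |J i j| ^ 3 * ∑ x, ising J b x *
          (cvar J b i x * deriv' f i x ^ 2 + cvar J b j x * deriv' f j x ^ 2) ≤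
      ∑ x, ising J b x * (dev J b f i x * dev J b f j x) +
        J i j * ∑ x, ising J b x *
          ((cvar J b i x * deriv' f i x) * (cvar J b j x * deriv' f j x)) := by
  set w := J i j with hw
  set t := Real.tanh w with ht
  set P := fun x => ising J b x *
    (curv J b i x * deriv' f i x ^ 2 + curv J b j x * deriv' f j x ^ 2) with hP
  set E := fun x => ising J b x *
    (cvar J b i x * deriv' f i x ^ 2 + cvar J b j x * deriv' f j x ^ 2) with hE
  set T := fun x => ising J b x * (dev J b f i x * dev J b f j x) with hT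
  set W := fun x => ising J b x *
    ((cvar J b i x * deriv' f i x) * (cvar J b j x * deriv' f j x)) with hW
  set B4 := fun (G : Cube n → ℝ) (x : Cube n) => G (upd i j x true true) + G (upd i j x true false) +
    G (upd i j x false true) + G (upd i j x false false) with hB4
  suffices h : ∀ x, -(w ^ 2 * B4 P x) - 100 * |w| ^ 3 * B4 E x ≤ B4 T x + w * B4 W x by
    have hs := sum_le_sum fun x (_ : x ∈ (univ : Finset (Cube n))) => h x
    simp only [sum_sub_distrib, sum_add_distrib, sum_neg_distrib, ← mul_sum] at hs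
    simp only [hB4, sum_blocks hij] at hs
    linarith
  intro x
  set A := field J b i x - w * spin (x j) with hA
  set B := field J b j x - w * spin (x i) with hB
  set m := Real.tanh A with hm
  set k := Real.tanh B with hk
  set c := ising J b x * Real.exp (-(spin (x i) * A + spin (x j) * B + w * spin (x i) * spin (x j)))
    * (Real.cosh A * Real.cosh B * Real.cosh w) * (4 * (1 + t * m * k)) with hc
  have hm1 : |m| ≤ 1 := (Real.abs_tanh_lt_one A).le
  have hk1 : |k| ≤ 1 := (Real.abs_tanh_lt_one B).le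
  have ht1 : |t| ≤ 1 / 20 := by
    have := Pair.tanh_bound hsmall
    have h3 : |w| ^ 3 ≤ |w| / 1600 := by
      calc |w| ^ 3 = |w| * |w| ^ 2 := by ring
        _ ≤ |w| * (1 / 40) ^ 2 :=
            mul_le_mul_of_nonneg_left (pow_le_pow_left₀ (abs_nonneg w) hsmall 2) (abs_nonneg w)
        _ = _ := by ring
    have h4 := abs_sub_abs_le_abs_sub t w
    linarith
  have hN : 0 < 1 + t * m * k := by
    have := Pair.den_pos ht1 (Pair.abs_mul_le_one hm1 hk1)
    rw [← mul_assoc] at this; linarith
  have hc0 : 0 ≤ c := by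
    have := ising_pos J b x
    positivity
  have hfi : ∀ p q, field J b i (upd i j x p q) = A + w * spin q := by
    intro p q
    rw [upd, field_update, field_update_self hJ, Function.update_of_ne (Ne.symm hij)]
    ring
  have hfj : ∀ p q, field J b j (upd i j x p q) = B + w * spin p := by
    intro p q
    rw [upd, field_update_self hJ, field_update, hJ.symm j i]
    ring
  have hlaw : ∀ p q, ising J b (upd i j x p q) = c * Pair.law t m k (spin p) (spin q) := by
    intro p q
    have hfj0 : field J b j (Function.update x i p) = B + w * spin p := by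
      rw [field_update, hJ.symm j i]; ring
    rw [upd, ising_update hJ, ising_update hJ, hfj0, Function.update_of_ne (Ne.symm hij),
      show field J b i x = A + w * spin (x j) by ring, mul_assoc, ← Real.exp_add]
    have e : (spin p - spin (x i)) * (A + w * spin (x j)) +
        (spin q - spin (x j)) * (B + w * spin p) =
        -(spin (x i) * A + spin (x j) * B + w * spin (x i) * spin (x j)) +
          (spin p * A + spin q * B + spin p * spin q * w) := by ring
    have hpq : (spin p * spin q) ^ 2 = 1 := by rw [mul_pow, spin_sq, spin_sq, one_mul]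
    rw [e, Real.exp_add, Real.exp_add, Real.exp_add, exp_spin A (spin_sq p),
      exp_spin B (spin_sq q), exp_spin w hpq, hc, Pair.law, ← hm, ← hk, ← ht]
    have hne : 1 + m * k * t ≠ 0 := by
      have : 1 + m * k * t = 1 + t * m * k := by ring
      rw [this]; exact hN.ne'
    field_simp
  have hmi : ∀ p q, mean J b i (upd i j x p q) = Pair.cm t m (spin q) := by
    intro p q; rw [mean, hfi, tanh_shift A w (spin_sq q)]; rfl
  have hmj : ∀ p q, mean J b j (upd i j x p q) = Pair.cm t k (spin p) := by
    intro p q; rw [mean, hfj, tanh_shift B w (spin_sq p)]; rfl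
  set F := fun p q => f (upd i j x p q) with hF
  have hgi : ∀ p q, deriv' f i (upd i j x p q) = (F true q - F false q) / 2 := by
    intro p q
    simp only [deriv', hF, upd]
    simp [Function.update_comm hij, Function.update_idem]
  have hgj : ∀ p q, deriv' f j (upd i j x p q) = (F p true - F p false) / 2 := by
    intro p q
    simp only [deriv', hF, upd, Function.update_idem]
  have hsi : ∀ p q, upd i j x p q i = p ∧ upd i j x p q j = q := by
    intro p q; simp [upd, Function.update_of_ne hij]
  obtain ⟨s1, s2⟩ := spin_bool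
  set a := (F true true - F false true + F true false - F false false) / 4 with ha
  set d := (F true true - F false true - F true false + F false false) / 4 with hd
  set bb := (F true true - F true false + F false true - F false false) / 4 with hbb
  have eT : B4 T x = c * Pair.cross t m k a bb d := by
    simp only [hB4, hT, dev, hlaw, hmi, hmj, hgi, hgj, (hsi _ _).1, (hsi _ _).2, s1, s2,
      Pair.cross, Pair.S4, ha, hd, hbb]
    ring
  have eW : B4 W x = c * Pair.corr t m k a bb d := by
    simp only [hB4, hW, cvar, hlaw, hmi, hmj, hgi, hgj, s1, s2, Pair.corr, Pair.S4, ha, hd, hbb]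
    ring
  have eE : B4 E x = c * (Pair.enI t m k a d + Pair.enJ t m k bb d) := by
    simp only [hB4, hE, cvar, hlaw, hmi, hmj, hgi, hgj, s1, s2, Pair.enI, Pair.enJ, Pair.S4, ha,
      hd, hbb]
    ring
  have eP : B4 P x = c * (Pair.phI t m k a d + Pair.phJ t m k bb d) := by
    simp only [hB4, hP, curv, cvar, hlaw, hmi, hmj, hgi, hgj, s1, s2, Pair.phI, Pair.phJ, Pair.S4,
      ha, hd, hbb]
    ring
  rw [eT, eW, eE, eP]
  have h := mul_le_mul_of_nonneg_left
    (Pair.pair_bound (a := a) (b := bb) (d := d) hsmall hm1 hk1) hc0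
  rw [← ht] at h
  linarith

/-- `E (Lf)² ≥ c E ⟨f, -Lf⟩`. -/
theorem bochner (hJ : IsCoupling J) {lam s δ : ℝ} (hlam : NormLe J lam)
    (hrow : ∀ i, ∑ j, J i j ^ 2 ≤ s) (hδ : ∀ i j, |J i j| ≤ δ) (hδ₀ : δ ≤ 1 / 40)
    (hs : 2 * s ≤ lam) (f : Cube n → ℝ) :
    (1 - lam - 200 * δ * s) * dirichlet (ising J b) f ≤
      ∑ x, ising J b x * (generator (ising J b)).mulVec f x ^ 2 := by
  set μ := ising J b with hμ
  set g := fun i x => cvar J b i x * deriv' f i x ^ 2 with hg
  set φ := fun i x => curv J b i x * deriv' f i x ^ 2 with hφ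
  set u := fun i x => cvar J b i x * deriv' f i x with hu
  have hpair : ∀ i j, (if i = j then ∑ x, μ x * g i x else 0) -
      J i j * ∑ x, μ x * (u i x * u j x) - J i j ^ 2 * ∑ x, μ x * (φ i x + φ j x) -
      100 * δ * (J i j ^ 2 * ∑ x, μ x * (g i x + g j x)) ≤
      ∑ x, μ x * (dev J b f i x * dev J b f j x) := by
    intro i j
    by_cases h : i = j
    · subst h
      rw [if_pos rfl, hJ.diag]
      have := diag_term (b := b) hJ f i
      simp only [dev, ← sq]
      rw [this]
      simp [hg, hμ]
    · rw [if_neg h]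
      have h1 := two_site (b := b) hJ h ((hδ i j).trans hδ₀) f
      have h2 : 0 ≤ ∑ x, μ x * (g i x + g j x) := sum_nonneg fun x _ =>
        mul_nonneg (ising_pos J b x).le (add_nonneg
          (mul_nonneg (cvar_nonneg J b i x).1 (sq_nonneg _))
          (mul_nonneg (cvar_nonneg J b j x).1 (sq_nonneg _)))
      have h3 : |J i j| ^ 3 ≤ δ * J i j ^ 2 := by
        rw [pow_succ, sq_abs, mul_comm]
        exact mul_le_mul_of_nonneg_right (hδ i j) (sq_nonneg _)
      have h4 := mul_le_mul_of_nonneg_right h3 h2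
      simp only [hg, hφ, hu, hμ] at h1 h4 ⊢
      linarith
  have hL : ∑ x, μ x * (generator μ).mulVec f x ^ 2 =
      ∑ i, ∑ j, ∑ x, μ x * (dev J b f i x * dev J b f j x) := by
    rw [sum_congr rfl fun i (_ : i ∈ (univ : Finset (Fin n))) => sum_comm, sum_comm]
    refine sum_congr rfl fun x _ => ?_
    rw [hμ, generator_eq hJ, neg_sq, sq, sum_mul_sum]
    simp only [mul_sum, dev]
  have hdir : dirichlet μ f = ∑ i, ∑ x, μ x * g i x := dirichlet_ising hJ f
  have hsum := sum_le_sum fun i (_ : i ∈ (univ : Finset (Fin n))) =>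
    sum_le_sum fun j (_ : j ∈ (univ : Finset (Fin n))) => hpair i j
  rw [← hL] at hsum
  simp only [sum_sub_distrib, sum_ite_eq, mem_univ, if_true, ← mul_sum] at hsum
  -- the three double sums, pointwise in `x`
  have hW : ∑ i, ∑ j, J i j * ∑ x, μ x * (u i x * u j x) ≤
      lam * ∑ x, μ x * ∑ i, u i x ^ 2 := by
    calc ∑ i, ∑ j, J i j * ∑ x, μ x * (u i x * u j x)
        = ∑ x, μ x * ∑ i, ∑ j, J i j * u i x * u j x := by
          simp only [mul_sum]
          rw [sum_congr rfl fun i (_ : i ∈ (univ : Finset (Fin n))) => sum_comm, sum_comm]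
          exact sum_congr rfl fun x _ => sum_congr rfl fun i _ => sum_congr rfl fun j _ => by ring
      _ ≤ _ := by
          rw [mul_sum]
          refine sum_le_sum fun x _ => ?_
          calc μ x * ∑ i, ∑ j, J i j * u i x * u j x ≤ μ x * (lam * ∑ i, u i x ^ 2) :=
                mul_le_mul_of_nonneg_left (le_of_abs_le (hlam fun i => u i x)) (ising_pos J b x).le
            _ = _ := by ring
  have hrows : ∀ G : Fin n → Cube n → ℝ, (∀ i x, 0 ≤ G i x) →
      ∑ i, ∑ j, J i j ^ 2 * ∑ x, μ x * (G i x + G j x) ≤ 2 * s * ∑ i, ∑ x, μ x * G i x := by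
    intro G hG
    have e : ∑ i, ∑ j, J i j ^ 2 * ∑ x, μ x * (G i x + G j x) =
        2 * ∑ i, (∑ j, J i j ^ 2) * ∑ x, μ x * G i x := by
      simp only [mul_add, sum_add_distrib, ← sum_mul]
      rw [two_mul]
      refine congrArg _ ?_
      rw [sum_comm]
      exact sum_congr rfl fun i _ => by
        rw [sum_mul]; exact sum_congr rfl fun j _ => by rw [hJ.symm j i]
    rw [e, mul_assoc, mul_sum (a := s)]
    refine mul_le_mul_of_nonneg_left (sum_le_sum fun i _ => ?_) zero_le_two
    exact mul_le_mul_of_nonneg_right (hrow i)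
      (sum_nonneg fun x _ => mul_nonneg (ising_pos J b x).le (hG i x))
  have hΦ := hrows φ fun i x =>
    mul_nonneg (mul_nonneg (sq_nonneg _) (sq_nonneg _)) (sq_nonneg _)
  have hG := hrows g fun i x => mul_nonneg (cvar_nonneg J b i x).1 (sq_nonneg _)
  have hkey : lam * ∑ x, μ x * ∑ i, u i x ^ 2 + 2 * s * ∑ i, ∑ x, μ x * φ i x ≤
      lam * ∑ i, ∑ x, μ x * g i x := by
    simp only [mul_sum]
    rw [sum_comm, ← sum_add_distrib]
    refine sum_le_sum fun i _ => ?_
    rw [← sum_add_distrib]
    refine sum_le_sum fun x _ => ?_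
    obtain ⟨v0, v1⟩ := cvar_nonneg J b i x
    have hm : mean J b i x ^ 2 = 1 - cvar J b i x := by simp [cvar]
    simp only [hu, hφ, hg, curv, hm]
    set v := cvar J b i x
    have i1 := mul_le_mul_of_nonneg_left hs
      (mul_nonneg (mul_nonneg (ising_pos J b x).le (sq_nonneg (deriv' f i x)))
        (mul_nonneg (sub_nonneg.2 v1) (sq_nonneg v)))
    have hlam0 : 0 ≤ lam := by
      have : 0 ≤ s := le_trans (sum_nonneg fun j _ => sq_nonneg (J i j)) (hrow i)
      linarith
    have i2 := mul_nonneg (mul_nonneg hlam0 (mul_nonneg (ising_pos J b x).le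
      (sq_nonneg (deriv' f i x)))) (mul_nonneg v0 (mul_nonneg (sub_nonneg.2 v1) (sub_nonneg.2 v1)))
    linarith
  rcases isEmpty_or_nonempty (Fin n) with hn | ⟨⟨i₀⟩⟩
  · simp only [hdir, univ_eq_empty, sum_empty, mul_zero]
    exact sum_nonneg fun x _ => mul_nonneg (ising_pos J b x).le (sq_nonneg _)
  have hδ' : 0 ≤ 100 * δ := by
    have := (abs_nonneg _).trans (hδ i₀ i₀); linarith
  have hG' := mul_le_mul_of_nonneg_left hG hδ'
  rw [hdir]
  linarith

/-- The spectral gap is at least `1 - lam - 200 δ s`, whatever the field. -/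
theorem hasGap_of_bochner (hJ : IsCoupling J) {lam s δ : ℝ} (hlam : NormLe J lam)
    (hrow : ∀ i, ∑ j, J i j ^ 2 ≤ s) (hδ : ∀ i j, |J i j| ≤ δ) (hδ₀ : δ ≤ 1 / 40)
    (hs : 2 * s ≤ lam) : HasGap (ising J b) (1 - lam - 200 * δ * s) := by
  by_contra hng
  set μ := ising J b with hμ
  obtain ⟨e, l, hl, hne, hmean, hge⟩ := exists_slow_mode (ising_pos J b) (sum_ising J b) hng
  set N := ∑ x, μ x * e x ^ 2 with hN
  have hN0 : 0 < N := by
    obtain ⟨y, hy⟩ := Function.ne_iff.1 hne
    refine sum_pos' (fun x _ => mul_nonneg (ising_pos J b x).le (sq_nonneg _))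
      ⟨y, mem_univ y, mul_pos (ising_pos J b y) (sq_pos_of_ne_zero hy)⟩
  have hd : dirichlet μ e = l * N := by
    rw [dirichlet_eq, hge, hN, mul_sum, ← sum_neg_distrib]
    exact sum_congr rfl fun x _ => by simp only [Pi.smul_apply, smul_eq_mul]; ring
  have h2 : ∑ x, μ x * (generator μ).mulVec e x ^ 2 = l ^ 2 * N := by
    rw [hge, hN, mul_sum]
    exact sum_congr rfl fun x _ => by simp only [Pi.smul_apply, smul_eq_mul]; ring
  have hb := bochner (b := b) hJ hlam hrow hδ hδ₀ hs e
  rw [← hμ, hd, h2] at hb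
  have hterm : ∀ x i, 0 ≤ μ x * flipProb μ i x * (e (flipAt i x) - e x) ^ 2 := fun x i => by
    have := ising_pos J b x
    have := ising_pos J b (flipAt i x)
    rw [flipProb, hμ]; positivity
  have hd0 : 0 ≤ dirichlet μ e :=
    mul_nonneg (by norm_num) (sum_nonneg fun x _ => sum_nonneg fun i _ => hterm x i)
  rw [hd] at hd0
  rcases (nonneg_of_mul_nonneg_left hd0 hN0).lt_or_eq with hl0 | hl0
  · have : (1 - lam - 200 * δ * s) * (l * N) ≤ l * (l * N) := by linarith
    linarith [le_of_mul_le_mul_right this (mul_pos hl0 hN0)]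
  · -- a vanishing Dirichlet form forces a constant, hence zero, function
    have hflip : ∀ x i, e (flipAt i x) = e x := by
      intro x i
      have h0 : dirichlet μ e = 0 := by rw [hd, ← hl0, zero_mul]
      unfold dirichlet at h0
      have h1 : ∑ x, ∑ i, μ x * flipProb μ i x * (e (flipAt i x) - e x) ^ 2 = 0 := by linarith
      have h2 := (sum_eq_zero_iff_of_nonneg fun x _ => sum_nonneg fun i _ => hterm x i).1 h1 x
        (mem_univ x)
      have h3 := (sum_eq_zero_iff_of_nonneg fun i _ => hterm x i).1 h2 i (mem_univ i)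
      have hq : μ x * flipProb μ i x ≠ 0 := by
        have := ising_pos J b x
        have := ising_pos J b (flipAt i x)
        rw [flipProb, hμ]; positivity
      have := (mul_eq_zero.1 h3).resolve_left hq
      exact sub_eq_zero.1 (pow_eq_zero_iff two_ne_zero |>.1 this)
    have hupd : ∀ x i c, e (Function.update x i c) = e x := by
      intro x i c
      by_cases h : c = x i
      · subst h; rw [Function.update_eq_self]
      · have : c = !x i := by cases c <;> cases hx : x i <;> simp_all
        subst this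
        exact hflip x i
    have hconst : ∀ x y, e x = e y := by
      intro x y
      have h : ∀ S : Finset (Fin n), e (S.piecewise y x) = e x := by
        intro S
        induction S using Finset.induction with
        | empty => rw [Finset.piecewise_empty]
        | insert a S _ ih => rw [Finset.piecewise_insert, hupd, ih]
      have := h univ
      rw [Finset.piecewise_univ] at this
      exact this.symm
    obtain ⟨y, hy⟩ := Function.ne_iff.1 hne
    have : ∑ x, μ x * e x = e y := by
      rw [sum_congr rfl fun x _ => by rw [hconst x y], ← sum_mul, hμ, sum_ising, one_mul]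
    rw [hmean] at this
    exact hy this.symm

theorem hasGap_of_normLe : ∃ K δ₀ : ℝ, 0 < δ₀ ∧ 0 ≤ K ∧
    ∀ (n : ℕ) (J : Fin n → Fin n → ℝ) (b : Fin n → ℝ) (lam s δ : ℝ), IsCoupling J →
      NormLe J lam → (∀ i, ∑ j, J i j ^ 2 ≤ s) → (∀ i j, |J i j| ≤ δ) → δ ≤ δ₀ → 2 * s ≤ lam →
      HasGap (ising J b) (1 - lam - K * δ * s) :=
  ⟨200, 1 / 40, by norm_num, by norm_num, fun _ _ _ _ _ _ hJ h1 h2 h3 h4 h5 =>
    hasGap_of_bochner hJ h1 h2 h3 h4 h5⟩

end

end Vale.Agent.P150.High
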