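import Mathlib

/-!
Second-order expansion of a small power of a sum of exponentials.
-/

namespace Vale.Agent.P150.High

open Finset Real

noncomputable section

variable {J : Type*} [Fintype J] [Nonempty J]

/-- The sum of exponentials. -/
def expSum (x : J → ℝ) : ℝ := ∑ u, exp (x u)

/-- The power `θ` of the sum of exponentials. -/
def softPow (θ : ℝ) (x : J → ℝ) : ℝ := exp (θ * log (expSum x))

/-- The moment of `d` of order `j` under the soft-max weights at `x`. -/
def mom (j : ℕ) (x d : J → ℝ) : ℝ := (∑ u, exp (x u) * d u ^ j) / expSum x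

lemma expSum_pos (x : J → ℝ) : 0 < expSum x := sum_pos (fun _ _ => exp_pos _) univ_nonempty

omit [Nonempty J] in
lemma softPow_pos (θ : ℝ) (x : J → ℝ) : 0 < softPow θ x := exp_pos _

lemma abs_mom_le (j : ℕ) (x d : J → ℝ) {m : ℝ} (hm : ∀ u, |d u| ≤ m) : |mom j x d| ≤ m ^ j := by
  rw [mom, abs_div, abs_of_pos (expSum_pos x), div_le_iff₀ (expSum_pos x), expSum, mul_sum]
  refine (abs_sum_le_sum_abs _ _).trans (sum_le_sum fun u _ => ?_)
  rw [abs_mul, abs_exp, abs_pow, mul_comm]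
  exact mul_le_mul_of_nonneg_right (pow_le_pow_left₀ (abs_nonneg _) (hm u) j) (exp_pos _).le

omit [Nonempty J] in
lemma hasDerivAt_num (j : ℕ) (x d : J → ℝ) (s : ℝ) :
    HasDerivAt (fun t : ℝ => ∑ u, exp (x u + t * d u) * d u ^ j)
      (∑ u, exp (x u + s * d u) * d u ^ (j + 1)) s := by
  refine HasDerivAt.fun_sum fun u _ => ?_
  have h := (((hasDerivAt_id s).mul_const (d u)).const_add (x u)).exp.mul_const (d u ^ j)
  simp only [id_eq, one_mul] at h
  exact h.congr_deriv (by ring)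

omit [Nonempty J] in
lemma hasDerivAt_expSum (x d : J → ℝ) (s : ℝ) :
    HasDerivAt (fun t : ℝ => expSum (fun u => x u + t * d u))
      (∑ u, exp (x u + s * d u) * d u) s := by
  have h := hasDerivAt_num 0 x d s
  simp only [pow_zero, mul_one, pow_one, zero_add] at h
  exact h

lemma hasDerivAt_mom (j : ℕ) (x d : J → ℝ) (s : ℝ) :
    HasDerivAt (fun t : ℝ => mom j (fun u => x u + t * d u) d)
      (mom (j + 1) (fun u => x u + s * d u) d -
        mom j (fun u => x u + s * d u) d * mom 1 (fun u => x u + s * d u) d) s := by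
  refine ((hasDerivAt_num j x d s).div (hasDerivAt_expSum x d s) (expSum_pos _).ne').congr_deriv ?_
  have hne := (expSum_pos (fun u => x u + s * d u)).ne'
  simp only [mom, pow_one]
  field_simp

lemma hasDerivAt_softPow (θ : ℝ) (x d : J → ℝ) (s : ℝ) :
    HasDerivAt (fun t : ℝ => softPow θ (fun u => x u + t * d u))
      (softPow θ (fun u => x u + s * d u) * (θ * mom 1 (fun u => x u + s * d u) d)) s := by
  refine (((hasDerivAt_expSum x d s).log (expSum_pos _).ne').const_mul θ).exp.congr_deriv ?_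
  simp only [mom, pow_one, softPow]

/-- Shifting `x` by `d` changes the power by at most `exp` of the largest shift. -/
lemma softPow_add_le {θ : ℝ} (h0 : 0 ≤ θ) (h1 : θ ≤ 1) (x d : J → ℝ) {m : ℝ}
    (hm : ∀ u, |d u| ≤ m) : softPow θ (fun u => x u + d u) ≤ softPow θ x * exp m := by
  have hm0 : 0 ≤ m := (abs_nonneg _).trans (hm (Classical.arbitrary J))
  have h : log (expSum fun u => x u + d u) ≤ log (expSum x) + m := by
    rw [← log_exp m, ← log_mul (expSum_pos x).ne' (exp_pos m).ne']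
    refine log_le_log (expSum_pos _) ?_
    rw [expSum, expSum, sum_mul]
    refine sum_le_sum fun u _ => ?_
    rw [← exp_add]
    exact exp_le_exp.2 (by linarith [le_abs_self (d u), hm u])
  rw [softPow, softPow, ← exp_add, exp_le_exp]
  nlinarith

/-- The linear term of the expansion. -/
def lin1 (θ : ℝ) (x d : J → ℝ) : ℝ := softPow θ x * (θ * mom 1 x d)

/-- The quadratic term of the expansion. -/
def quad2 (θ : ℝ) (x d : J → ℝ) : ℝ :=
  softPow θ x * (θ * (mom 2 x d - mom 1 x d ^ 2) + θ ^ 2 * mom 1 x d ^ 2)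

lemma quad2_le {θ : ℝ} (h0 : 0 ≤ θ) (h1 : θ ≤ 1) (x d : J → ℝ) {m : ℝ} (hm : ∀ u, |d u| ≤ m) :
    |quad2 θ x d| ≤ 3 * m ^ 2 * softPow θ x := by
  rw [quad2, abs_mul, abs_of_pos (softPow_pos θ x), mul_comm (3 * m ^ 2)]
  refine mul_le_mul_of_nonneg_left ?_ (softPow_pos θ x).le
  have a2 := abs_le.1 (abs_mom_le 2 x d hm)
  have a1 := abs_le.1 (abs_mom_le 1 x d hm)
  rw [pow_one] at a1
  have b1 : mom 1 x d ^ 2 ≤ m ^ 2 := sq_le_sq' (by linarith) (by linarith)
  have b2 : θ ^ 2 ≤ 1 := by nlinarith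
  have c1 := mul_le_mul_of_nonneg_right b2 (sq_nonneg (mom 1 x d))
  have c2 : |θ * (mom 2 x d - mom 1 x d ^ 2)| ≤ 2 * m ^ 2 := by
    rw [abs_mul, abs_of_nonneg h0]
    refine (mul_le_of_le_one_left (abs_nonneg _) h1).trans (abs_le.2 ⟨?_, ?_⟩) <;>
      nlinarith [sq_nonneg (mom 1 x d)]
  have c3 := abs_le.1 c2
  refine abs_le.2 ⟨?_, ?_⟩ <;> nlinarith [sq_nonneg (θ * mom 1 x d)]

/-- Taylor's formula to second order. -/
theorem softPow_taylor {θ : ℝ} (h0 : 0 ≤ θ) (h1 : θ ≤ 1) (x d : J → ℝ) {m : ℝ}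
    (hm : ∀ u, |d u| ≤ m) :
    |softPow θ (fun u => x u + d u) - (softPow θ x + lin1 θ x d + quad2 θ x d / 2)| ≤
      16 * m ^ 3 * exp m * softPow θ x := by
  have hm0 : 0 ≤ m := (abs_nonneg _).trans (hm (Classical.arbitrary J))
  set X : ℝ → J → ℝ := fun s u => x u + s * d u
  set a0 := softPow θ x
  set a1 := lin1 θ x d
  set a2 := quad2 θ x d
  set K := 16 * m ^ 3 * exp m * softPow θ x
  have hX0 : X 0 = x := by funext u; simp [X]
  set f3 : ℝ → ℝ := fun s => softPow θ (X s) * (θ * mom 1 (X s) d) *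
      (θ * (mom 2 (X s) d - mom 1 (X s) d ^ 2) + θ ^ 2 * mom 1 (X s) d ^ 2) +
    softPow θ (X s) * (θ * (mom 3 (X s) d - mom 2 (X s) d * mom 1 (X s) d -
        2 * mom 1 (X s) d * (mom 2 (X s) d - mom 1 (X s) d * mom 1 (X s) d)) +
      θ ^ 2 * (2 * mom 1 (X s) d * (mom 2 (X s) d - mom 1 (X s) d * mom 1 (X s) d))) with hf3
  have d1 : ∀ s, HasDerivAt (fun t => softPow θ (X t)) (lin1 θ (X s) d) s := fun s =>
    hasDerivAt_softPow θ x d s
  have d2 : ∀ s, HasDerivAt (fun t => lin1 θ (X t) d) (quad2 θ (X s) d) s := fun s => by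
    refine ((hasDerivAt_softPow θ x d s).mul
      ((hasDerivAt_mom 1 x d s).const_mul θ)).congr_deriv ?_
    simp only [quad2, X]; ring
  have d3 : ∀ s, HasDerivAt (fun t => quad2 θ (X t) d) (f3 s) s := fun s => by
    have e1 := hasDerivAt_mom 1 x d s
    have e2 := hasDerivAt_mom 2 x d s
    refine ((hasDerivAt_softPow θ x d s).mul
      ((((e2.sub (e1.pow 2)).const_mul θ)).add ((e1.pow 2).const_mul (θ ^ 2)))).congr_deriv ?_
    simp only [hf3, X, Pi.add_apply, Pi.sub_apply, Pi.pow_apply]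
    norm_num
  have hb : ∀ s ∈ Set.Icc (0 : ℝ) 1, |f3 s| ≤ K := by
    intro s hs
    have hP : softPow θ (X s) ≤ softPow θ x * exp m :=
      softPow_add_le h0 h1 x (fun u => s * d u) fun u => by
        rw [abs_mul, abs_of_nonneg hs.1]
        exact (mul_le_of_le_one_left (abs_nonneg _) hs.2).trans (hm u)
    have a1 := abs_mom_le 1 (X s) d hm
    have a2 := abs_mom_le 2 (X s) d hm
    have a3 := abs_mom_le 3 (X s) d hm
    rw [pow_one] at a1
    have hq := quad2_le h0 h1 (X s) d hm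
    have hvar : |mom 2 (X s) d - mom 1 (X s) d * mom 1 (X s) d| ≤ 2 * m ^ 2 := by
      refine (abs_sub _ _).trans ?_
      rw [abs_mul]
      nlinarith [mul_le_mul a1 a1 (abs_nonneg _) hm0]
    set P := softPow θ (X s)
    have hP0 : 0 < P := softPow_pos θ _
    have hpart1 : |θ * (mom 3 (X s) d - mom 2 (X s) d * mom 1 (X s) d -
        2 * mom 1 (X s) d * (mom 2 (X s) d - mom 1 (X s) d * mom 1 (X s) d))| ≤ 6 * m ^ 3 := by
      rw [abs_mul, abs_of_nonneg h0]
      refine (mul_le_of_le_one_left (abs_nonneg _) h1).trans ?_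
      refine (abs_sub _ _).trans ?_
      have e1 := (abs_sub (mom 3 (X s) d) (mom 2 (X s) d * mom 1 (X s) d))
      rw [abs_mul] at e1
      have e2 := mul_le_mul a2 a1 (abs_nonneg _) (by positivity)
      rw [abs_mul, abs_mul, abs_two]
      have e3 := mul_le_mul a1 hvar (abs_nonneg _) hm0
      nlinarith
    have hpart2 : |θ ^ 2 * (2 * mom 1 (X s) d * (mom 2 (X s) d - mom 1 (X s) d * mom 1 (X s) d))|
        ≤ 4 * m ^ 3 := by
      rw [abs_mul, abs_mul, abs_mul, abs_two, abs_of_nonneg (sq_nonneg θ)]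
      refine (mul_le_of_le_one_left (by positivity) (by nlinarith)).trans ?_
      nlinarith [mul_le_mul a1 hvar (abs_nonneg _) hm0]
    have hfirst : |P * (θ * mom 1 (X s) d) *
        (θ * (mom 2 (X s) d - mom 1 (X s) d ^ 2) + θ ^ 2 * mom 1 (X s) d ^ 2)| ≤ P * (3 * m ^ 3) := by
      have e : P * (θ * mom 1 (X s) d) *
          (θ * (mom 2 (X s) d - mom 1 (X s) d ^ 2) + θ ^ 2 * mom 1 (X s) d ^ 2) =
          θ * mom 1 (X s) d * quad2 θ (X s) d := by simp only [quad2, P]; ring
      rw [e, abs_mul, abs_mul, abs_of_nonneg h0]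
      calc θ * |mom 1 (X s) d| * |quad2 θ (X s) d| ≤ 1 * m * (3 * m ^ 2 * P) :=
            mul_le_mul (mul_le_mul h1 a1 (abs_nonneg _) zero_le_one) hq (abs_nonneg _) (by positivity)
        _ = _ := by ring
    calc |f3 s| ≤ P * (3 * m ^ 3) + P * (6 * m ^ 3 + 4 * m ^ 3) := by
          refine (abs_add_le _ _).trans (add_le_add hfirst ?_)
          rw [abs_mul, abs_of_pos hP0]
          exact mul_le_mul_of_nonneg_left
            ((abs_add_le _ _).trans (add_le_add hpart1 hpart2)) hP0.le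
      _ = P * (13 * m ^ 3) := by ring
      _ ≤ softPow θ x * exp m * (16 * m ^ 3) :=
          mul_le_mul hP (by nlinarith [pow_nonneg hm0 3]) (by positivity)
            (mul_nonneg (softPow_pos _ _).le (exp_pos _).le)
      _ = K := by simp only [K]; ring
  have hK : 0 ≤ K := (abs_nonneg _).trans (hb 0 ⟨le_rfl, zero_le_one⟩)
  -- integrate the bound on the third derivative three times
  have step : ∀ f f' : ℝ → ℝ, (∀ s, HasDerivAt f (f' s) s) → f 0 = 0 →
      (∀ s ∈ Set.Icc (0 : ℝ) 1, |f' s| ≤ K) → ∀ s ∈ Set.Icc (0 : ℝ) 1, |f s| ≤ K := by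
    intro f f' hf hf0 hbd s hs
    have h := norm_image_sub_le_of_norm_deriv_le_segment' (f := f) (f' := f') (a := 0) (b := 1)
      (C := K) (fun t _ => (hf t).hasDerivWithinAt) (fun t ht => hbd t ⟨ht.1, ht.2.le⟩) s hs
    rw [hf0, sub_zero, sub_zero, Real.norm_eq_abs] at h
    exact h.trans (mul_le_of_le_one_right hK hs.2)
  have g2 : ∀ s, HasDerivAt (fun t => quad2 θ (X t) d - a2) (f3 s) s := fun s =>
    (d3 s).sub_const a2
  have g1 : ∀ s, HasDerivAt (fun t => lin1 θ (X t) d - (a1 + a2 * t)) (quad2 θ (X s) d - a2) s :=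
    fun s => by
      have h := (d2 s).sub (((hasDerivAt_id s).const_mul a2).const_add a1)
      simp only [mul_one] at h
      exact h
  have g0 : ∀ s, HasDerivAt (fun t => softPow θ (X t) - (a0 + a1 * t + a2 / 2 * t ^ 2))
      (lin1 θ (X s) d - (a1 + a2 * s)) s := fun s => by
    have h := (d1 s).sub ((((hasDerivAt_id s).const_mul a1).const_add a0).add
      ((hasDerivAt_pow 2 s).const_mul (a2 / 2)))
    refine h.congr_deriv ?_
    norm_num
    ring
  have hfin := step _ _ g0 (by simp [hX0, a0]) (step _ _ g1 (by simp [hX0, a1])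
    (step _ _ g2 (by simp [hX0, a2]) hb)) 1 ⟨zero_le_one, le_rfl⟩
  simpa [X] using hfin

end

end Vale.Agent.P150.High
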