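import Vale.Agent.P150.Gauss
import Vale.Agent.P150.High.SoftPow

/-!
A comparison inequality for Gaussian processes with equal variances up to a constant.
-/

namespace Vale.Agent.P150.High

open MeasureTheory ProbabilityTheory Finset Real

noncomputable section

variable {ι J : Type*} [Fintype ι] [Fintype J]

/-- A linear image of a Gaussian vector. -/
def lnf (C : J → ι → ℝ) (g : ι → ℝ) (u : J) : ℝ := ∑ k, C u k * g k

/-- A bound on all the values of `lnf C g`. -/
def l1 (C : J → ι → ℝ) (g : ι → ℝ) : ℝ := ∑ k, (∑ u, |C u k|) * |g k|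

lemma l1_nonneg (C : J → ι → ℝ) (g : ι → ℝ) : 0 ≤ l1 C g :=
  sum_nonneg fun _ _ => mul_nonneg (sum_nonneg fun _ _ => abs_nonneg _) (abs_nonneg _)

lemma abs_lnf_le (C : J → ι → ℝ) (g : ι → ℝ) (u : J) : |lnf C g u| ≤ l1 C g := by
  refine (abs_sum_le_sum_abs _ _).trans (sum_le_sum fun k _ => ?_)
  rw [abs_mul]
  exact mul_le_mul_of_nonneg_right
    (single_le_sum (f := fun v => |C v k|) (fun _ _ => abs_nonneg _) (Finset.mem_univ u))
    (abs_nonneg _)

omit [Fintype J] in
lemma continuous_lnf (C : J → ι → ℝ) : Continuous (lnf C) :=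
  continuous_pi fun _ => continuous_finsetSum _ fun k _ => continuous_const.mul (continuous_apply k)

lemma continuous_softPow [Nonempty J] (θ : ℝ) : Continuous (softPow θ : (J → ℝ) → ℝ) :=
  Real.continuous_exp.comp (continuous_const.mul (Continuous.log
    (continuous_finsetSum _ fun u _ => Real.continuous_exp.comp (continuous_apply u))
    fun x => (expSum_pos x).ne'))

lemma integrable_exp_l1 (C : J → ι → ℝ) (a : ℝ) :
    Integrable (fun g => exp (a * l1 C g)) (gauss ι) := by
  simp only [l1, mul_sum, exp_sum]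
  refine Integrable.fintype_prod_dep (f := fun k x => exp (a * ((∑ u, |C u k|) * |x|))) fun k => ?_
  set c := abs (a * ∑ u, |C u k|)
  refine ((integrable_exp_gauss c).add (integrable_exp_gauss (-c))).mono'
    (by fun_prop) (.of_forall fun x => ?_)
  rw [Real.norm_eq_abs, abs_exp, Pi.add_apply]
  have h : a * ((∑ u, |C u k|) * |x|) ≤ c * |x| := by
    rw [← mul_assoc]; exact mul_le_mul_of_nonneg_right (le_abs_self _) (abs_nonneg _)
  rcases abs_cases x with ⟨h1, -⟩ | ⟨h1, -⟩ <;> rw [h1] at h ⊢
  · linarith [exp_le_exp.2 h, exp_pos (-c * x)]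
  · have := exp_le_exp.2 h
    rw [show c * -x = -c * x by ring] at this
    linarith [exp_pos (c * x)]

/-- Two independent Gaussian vectors add up to one. -/
lemma map_combine {a b c : ι → ℝ} (h : ∀ k, a k ^ 2 + b k ^ 2 = c k ^ 2) :
    ((gauss ι).prod (gauss ι)).map (fun p k => a k * p.1 k + b k * p.2 k) =
      (gauss ι).map (fun g k => c k * g k) := by
  have h1 : ∀ k, MeasurePreserving (fun p : ℝ × ℝ => a k * p.1 + b k * p.2)
      ((gaussianReal 0 1).prod (gaussianReal 0 1))
      ((gaussianReal 0 1).map (fun x => c k * x)) := fun k => by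
    refine ⟨by fun_prop, ?_⟩
    rw [show (fun p : ℝ × ℝ => a k * p.1 + b k * p.2) =
        (fun q : ℝ × ℝ => q.1 + q.2) ∘ Prod.map (fun x => a k * x) (fun x => b k * x) from rfl,
      ← Measure.map_map (by fun_prop) (by fun_prop),
      ← Measure.map_prod_map _ _ (by fun_prop) (by fun_prop), gaussianReal_map_const_mul,
      gaussianReal_map_const_mul, gaussianReal_map_const_mul, ← Measure.conv,
      gaussianReal_conv_gaussianReal]
    congr 1
    · simp
    · ext
      simpa using h k
  have : ∀ k, IsProbabilityMeasure ((gaussianReal 0 1).map fun x => c k * x) := fun k =>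
    Measure.isProbabilityMeasure_map (by fun_prop)
  have h2 := (measurePreserving_pi _ _ h1).comp
    ((measurePreserving_arrowProdEquivProdArrow ℝ ℝ ι (fun _ => gaussianReal 0 1)
      (fun _ => gaussianReal 0 1)).symm _)
  have h3 := measurePreserving_pi (fun _ : ι => gaussianReal 0 1)
    (fun k => (gaussianReal 0 1).map fun x => c k * x)
    (f := fun k x => c k * x) fun k => ⟨by fun_prop, rfl⟩
  exact (Eq.trans h2.map_eq h3.map_eq.symm)

lemma integral_combine {a b c : ι → ℝ} (h : ∀ k, a k ^ 2 + b k ^ 2 = c k ^ 2)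
    {f : (ι → ℝ) → ℝ} (hf : Continuous f)
    (hi : Integrable (fun g => f fun k => c k * g k) (gauss ι)) :
    Integrable (fun g => ∫ g', f (fun k => a k * g k + b k * g' k) ∂gauss ι) (gauss ι) ∧
      ∫ g, ∫ g', f (fun k => a k * g k + b k * g' k) ∂gauss ι ∂gauss ι =
        ∫ g, f (fun k => c k * g k) ∂gauss ι := by
  have hT : Measurable fun (p : (ι → ℝ) × (ι → ℝ)) k => a k * p.1 k + b k * p.2 k := by fun_prop
  have hS : Measurable fun (g : ι → ℝ) k => c k * g k := by fun_prop
  have hi' : Integrable (fun p : (ι → ℝ) × (ι → ℝ) => f fun k => a k * p.1 k + b k * p.2 k)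
      ((gauss ι).prod (gauss ι)) := by
    refine (integrable_map_measure hf.aestronglyMeasurable hT.aemeasurable).1 ?_
    rw [map_combine h]
    exact (integrable_map_measure hf.aestronglyMeasurable hS.aemeasurable).2 hi
  refine ⟨hi'.integral_prod_left, ?_⟩
  rw [integral_integral hi', ← integral_map hT.aemeasurable hf.aestronglyMeasurable, map_combine h,
    integral_map hS.aemeasurable hf.aestronglyMeasurable]

variable [Nonempty J]

/-- The soft-max weights. -/
def pw (x : J → ℝ) (u : J) : ℝ := exp (x u) / expSum x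

omit [Nonempty J] in
lemma mom_eq (j : ℕ) (x d : J → ℝ) : mom j x d = ∑ u, pw x u * d u ^ j := by
  simp only [mom, pw, sum_div, div_mul_eq_mul_div]

lemma sum_pw (x : J → ℝ) : ∑ u, pw x u = 1 := by
  simp only [pw, ← sum_div]; exact div_self (expSum_pos x).ne'

lemma softPow_lnf_le {θ : ℝ} (h0 : 0 ≤ θ) (h1 : θ ≤ 1) (x : J → ℝ) (C : J → ι → ℝ) (g : ι → ℝ) :
    softPow θ (fun u => x u + lnf C g u) ≤ softPow θ x * exp (1 * l1 C g) := by
  rw [one_mul]; exact softPow_add_le h0 h1 x _ (abs_lnf_le C g)

lemma integrable_softPow_lnf {θ : ℝ} (h0 : 0 ≤ θ) (h1 : θ ≤ 1) (x : J → ℝ) (C : J → ι → ℝ) :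
    Integrable (fun g => softPow θ (fun u => x u + lnf C g u)) (gauss ι) := by
  refine ((integrable_exp_l1 C 1).const_mul (softPow θ x)).mono'
    ((continuous_softPow θ).comp (continuous_pi fun u =>
      continuous_const.add ((continuous_apply u).comp (continuous_lnf C)))).aestronglyMeasurable
    (.of_forall fun g => ?_)
  rw [Real.norm_eq_abs, abs_of_pos (softPow_pos _ _)]
  exact softPow_lnf_le h0 h1 x C g

/-- The covariance term of the second order expansion. -/
def covTerm (θ : ℝ) (x : J → ℝ) (C : J → ι → ℝ) : ℝ :=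
  θ * ∑ u, pw x u * ∑ k, C u k ^ 2 + (θ ^ 2 - θ) * ∑ k, (∑ u, pw x u * C u k) ^ 2

omit [Nonempty J] in
lemma hasInt_lin1 (θ : ℝ) (x : J → ℝ) (C : J → ι → ℝ) :
    HasInt (fun g => lin1 θ x (lnf C g)) 0 := by
  classical
  have h : ∀ k : ι, HasInt (fun ξ : ι → ℝ => ξ k) 0 := fun k => by
    refine (hasInt_coord_exp (0 : ι → ℝ) k).of_eq (fun ξ => by simp) (by simp)
  refine (((HasInt.sum univ fun k (_ : k ∈ univ) =>
    (h k).const_mul (∑ u, pw x u * C u k))).const_mul (softPow θ x * θ)).of_eq (fun g => ?_)
    (by simp)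
  simp only [lin1, mom_eq, pow_one, lnf, mul_sum, sum_mul]
  rw [sum_comm]
  exact sum_congr rfl fun k _ => sum_congr rfl fun u _ => by ring

omit [Nonempty J] in
lemma hasInt_quad2 (θ : ℝ) (x : J → ℝ) (C : J → ι → ℝ) :
    HasInt (fun g => quad2 θ x (lnf C g)) (softPow θ x * covTerm θ x C) := by
  classical
  set q : ι → ℝ := fun k => ∑ u, pw x u * C u k
  set M : ι → ι → ℝ := fun k l =>
    softPow θ x * (θ * ∑ u, pw x u * (C u k * C u l) + (θ ^ 2 - θ) * (q k * q l))
  refine (HasInt.sum univ fun k (_ : k ∈ univ) => HasInt.sum univ fun l (_ : l ∈ univ) =>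
    (hasInt_coord_mul k l).const_mul (M k l)).of_eq (fun g => ?_) ?_
  · have e1 : mom 1 x (lnf C g) = ∑ k, q k * g k := by
      simp only [mom_eq, pow_one, lnf, q, mul_sum, sum_mul]
      rw [sum_comm]
      exact sum_congr rfl fun k _ => sum_congr rfl fun u _ => by ring
    have e2 : mom 2 x (lnf C g) = ∑ k, ∑ l, (∑ u, pw x u * (C u k * C u l)) * (g k * g l) := by
      simp only [mom_eq, lnf, sq, sum_mul_sum]
      simp only [mul_sum, sum_mul]
      rw [sum_comm]
      refine sum_congr rfl fun k _ => ?_
      rw [sum_comm]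
      exact sum_congr rfl fun l _ => sum_congr rfl fun u _ => by ring
    rw [quad2, e2, e1, sq, sum_mul_sum]
    simp only [mul_sum, ← sum_sub_distrib, ← sum_add_distrib]
    refine sum_congr rfl fun k _ => sum_congr rfl fun l _ => ?_
    simp only [M, mul_sum]
    ring_nf
    simp only [mul_sum, sum_mul]
    ring_nf
    congr 1
    exact sum_congr rfl fun u _ => by ring
  · simp only [mul_ite, mul_one, mul_zero, sum_ite_eq, Finset.mem_univ, if_true, M, covTerm, q,
      ← sq, sum_add_distrib, ← mul_sum]
    congr 3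
    rw [sum_comm]
    exact sum_congr rfl fun u _ => by rw [mul_sum]

/-- The constant of the remainder. -/
def remConst (C : J → ι → ℝ) : ℝ := ∫ g, 96 * exp (2 * l1 C g) ∂gauss ι

/-- The expansion of the average over a small Gaussian shift. -/
lemma integral_shift {θ : ℝ} (h0 : 0 ≤ θ) (h1 : θ ≤ 1) (x : J → ℝ) (C : J → ι → ℝ) {e : ℝ}
    (he0 : 0 ≤ e) (he1 : e ≤ 1) :
    |∫ g, softPow θ (fun u => x u + e * lnf C g u) ∂gauss ι -
        softPow θ x * (1 + e ^ 2 * covTerm θ x C / 2)| ≤ softPow θ x * (e ^ 3 * remConst C) := by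
  have hlin : ∀ g, lnf (fun u k => e * C u k) g = fun u => e * lnf C g u := fun g => by
    funext u; simp only [lnf, mul_sum, mul_assoc]
  have hi := integrable_softPow_lnf h0 h1 x fun u k => e * C u k
  simp only [hlin] at hi
  have hL := hasInt_lin1 θ x fun u k => e * C u k
  have hQ := hasInt_quad2 θ x fun u k => e * C u k
  simp only [hlin] at hL hQ
  have hcov : covTerm θ x (fun u k => e * C u k) = e ^ 2 * covTerm θ x C := by
    simp only [covTerm, mul_pow, mul_left_comm _ e, ← mul_sum, mul_left_comm _ (e ^ 2)]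
    ring
  have hT := ((HasInt.const (ι := ι) (softPow θ x)).add hL).add (hQ.const_mul (1 / 2))
  rw [show softPow θ x * (1 + e ^ 2 * covTerm θ x C / 2) =
      ∫ g, (softPow θ x + lin1 θ x (fun u => e * lnf C g u) +
        1 / 2 * quad2 θ x (fun u => e * lnf C g u)) ∂gauss ι by rw [hT.2, hcov]; ring,
    ← integral_sub hi hT.1, remConst, ← integral_const_mul, ← integral_const_mul,
    ← Real.norm_eq_abs]
  refine norm_integral_le_of_norm_le ((((integrable_exp_l1 C 2).const_mul 96).const_mul
    (e ^ 3)).const_mul _) (.of_forall fun g => ?_)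
  set m := l1 C g
  have hm : 0 ≤ m := l1_nonneg C g
  have hd : ∀ u, |e * lnf C g u| ≤ e * m := fun u => by
    rw [abs_mul, abs_of_nonneg he0]; exact mul_le_mul_of_nonneg_left (abs_lnf_le C g u) he0
  have h := softPow_taylor h0 h1 x _ hd
  rw [Real.norm_eq_abs]
  refine (le_of_eq ?_).trans (h.trans ?_)
  · congr 1
    ring
  have h3 : m ^ 3 ≤ 6 * exp m := by
    have := pow_div_factorial_le_exp m hm 3
    rw [div_le_iff₀ (by norm_num)] at this
    norm_num [Nat.factorial] at this ⊢
    linarith
  have h4 : exp (e * m) ≤ exp m := exp_le_exp.2 (mul_le_of_le_one_left hm he1)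
  calc 16 * (e * m) ^ 3 * exp (e * m) * softPow θ x
      ≤ 16 * (e ^ 3 * (6 * exp m)) * exp m * softPow θ x := by
        rw [mul_pow]
        have := softPow_pos θ x
        gcongr
    _ = softPow θ x * (e ^ 3 * (96 * exp (2 * m))) := by rw [two_mul, exp_add]; ring

/-- The coefficients of the interpolation. -/
def rho (left : ι → Bool) (s t : ℝ) (k : ι) : ℝ := √(if left k then s else t)

/-- The interpolated expectation. -/
def phi (θ : ℝ) (C : J → ι → ℝ) (left : ι → Bool) (s t : ℝ) : ℝ :=
  ∫ g, softPow θ (lnf C fun k => rho left s t k * g k) ∂gauss ι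

/-- The part of the coefficients on one side. -/
def side (C : J → ι → ℝ) (left : ι → Bool) (b : Bool) (u : J) (k : ι) : ℝ :=
  if left k = b then C u k else 0

lemma integrable_phi {θ : ℝ} (h0 : 0 ≤ θ) (h1 : θ ≤ 1) (C : J → ι → ℝ) (c : ι → ℝ) :
    Integrable (fun g => softPow θ (lnf C fun k => c k * g k)) (gauss ι) := by
  have h := integrable_softPow_lnf h0 h1 0 fun u k => C u k * c k
  have e : ∀ g : ι → ℝ, (fun u => (0 : J → ℝ) u + lnf (fun u k => C u k * c k) g u) =
      lnf C fun k => c k * g k := fun g => by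
    funext u; simp [lnf, mul_assoc]
  simpa only [e] using h

/-- One step of the interpolation. -/
lemma phi_step {θ : ℝ} (h0 : 0 ≤ θ) (h1 : θ ≤ 1) (C : J → ι → ℝ) (left : ι → Bool) {κ : ℝ}
    (hκ : κ ≤ 0)
    (hdiag : ∀ u, ∑ k, side C left true u k ^ 2 - ∑ k, side C left false u k ^ 2 = κ)
    (hoff : ∀ u v, κ ≤ ∑ k, side C left true u k * side C left true v k -
      ∑ k, side C left false u k * side C left false v k)
    {s t δ : ℝ} (hs : 0 ≤ s) (ht : 0 ≤ t) (hδ : 0 ≤ δ) (hδ1 : δ ≤ 1) (hst : s + t ≤ 1) :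
    phi θ C left (s + δ) t ≤ phi θ C left s (t + δ) +
      √δ ^ 3 * (remConst (side C left true) + remConst (side C left false)) *
        (softPow θ (0 : J → ℝ) * ∫ g, exp (1 * l1 C g) ∂gauss ι) := by
  set a : ι → ℝ := rho left s t
  have hb : ∀ (b : Bool) (u v : ℝ), u = (if b then s + δ else s) → v = (if b then t else t + δ) →
      Integrable (fun g => ∫ g', softPow θ (fun w =>
        lnf C (fun k => a k * g k) w + √δ * lnf (side C left b) g' w) ∂gauss ι) (gauss ι) ∧
      ∫ g, ∫ g', softPow θ (fun w =>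
        lnf C (fun k => a k * g k) w + √δ * lnf (side C left b) g' w) ∂gauss ι ∂gauss ι =
      phi θ C left u v := by
    intro b u v hu hv
    have hc : ∀ k, a k ^ 2 + (if left k = b then √δ else 0) ^ 2 = rho left u v k ^ 2 := fun k => by
      subst hu hv
      simp only [a, rho]
      cases left k <;> cases b <;> simp [Real.sq_sqrt, hs, ht, hδ, add_nonneg]
    have h := integral_combine hc ((continuous_softPow θ).comp (continuous_lnf C))
      (integrable_phi h0 h1 C _)
    have e : ∀ g g' : ι → ℝ,
        lnf C (fun k => a k * g k + (if left k = b then √δ else 0) * g' k) =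
        fun w => lnf C (fun k => a k * g k) w + √δ * lnf (side C left b) g' w := fun g g' => by
      funext w
      simp only [lnf, side, mul_sum, ← sum_add_distrib]
      exact sum_congr rfl fun k _ => by split_ifs <;> ring
    simp only [Function.comp_apply, e] at h
    exact h
  obtain ⟨hiT, heT⟩ := hb true (s + δ) t rfl rfl
  obtain ⟨hiF, heF⟩ := hb false s (t + δ) rfl rfl
  set R := remConst (side C left true) + remConst (side C left false)
  have hF0 : ∀ g : ι → ℝ, softPow θ (lnf C fun k => a k * g k) ≤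
      softPow θ (0 : J → ℝ) * exp (1 * l1 C g) := fun g => by
    have hd : ∀ u, |lnf C (fun k => a k * g k) u| ≤ l1 C g := fun u =>
      (abs_lnf_le C _ u).trans (sum_le_sum fun k _ => by
        refine mul_le_mul_of_nonneg_left ?_ (sum_nonneg fun _ _ => abs_nonneg _)
        rw [abs_mul]
        refine mul_le_of_le_one_left (abs_nonneg _) ?_
        rw [abs_of_nonneg (show (0 : ℝ) ≤ a k from Real.sqrt_nonneg _)]
        show √(if left k then s else t) ≤ 1
        rw [Real.sqrt_le_one]
        split_ifs <;> linarith)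
    have := softPow_add_le h0 h1 (0 : J → ℝ) _ hd
    simpa [one_mul] using this
  have hpt : ∀ g : ι → ℝ, (∫ g', softPow θ (fun w =>
        lnf C (fun k => a k * g k) w + √δ * lnf (side C left true) g' w) ∂gauss ι) ≤
      (∫ g', softPow θ (fun w =>
        lnf C (fun k => a k * g k) w + √δ * lnf (side C left false) g' w) ∂gauss ι) +
      √δ ^ 3 * R * softPow θ (lnf C fun k => a k * g k) := by
    intro g
    set x := lnf C fun k => a k * g k
    have hsq : √δ ≤ 1 := Real.sqrt_le_one.2 hδ1
    have hA := abs_le.1 (integral_shift h0 h1 x (side C left true) (Real.sqrt_nonneg δ) hsq)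
    have hB := abs_le.1 (integral_shift h0 h1 x (side C left false) (Real.sqrt_nonneg δ) hsq)
    have hcov : covTerm θ x (side C left true) ≤ covTerm θ x (side C left false) := by
      have hsqsum : ∀ b, ∑ k, (∑ u, pw x u * side C left b u k) ^ 2 =
          ∑ u, ∑ v, pw x u * pw x v * ∑ k, side C left b u k * side C left b v k := fun b => by
        simp only [sq, sum_mul_sum]
        simp only [mul_sum]
        rw [sum_comm]
        refine sum_congr rfl fun u _ => ?_
        rw [sum_comm]
        exact sum_congr rfl fun v _ => sum_congr rfl fun k _ => by ring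
      have hp : ∀ u, 0 ≤ pw x u := fun u => div_nonneg (exp_pos _).le (expSum_pos x).le
      have h2 : κ ≤ ∑ k, (∑ u, pw x u * side C left true u k) ^ 2 -
          ∑ k, (∑ u, pw x u * side C left false u k) ^ 2 := by
        rw [hsqsum, hsqsum, ← sum_sub_distrib]
        calc κ = ∑ u, ∑ v, pw x u * pw x v * κ := by
              simp only [← sum_mul, ← mul_sum, sum_pw, mul_one, one_mul]
          _ ≤ _ := sum_le_sum fun u _ => by
              rw [← sum_sub_distrib]
              exact sum_le_sum fun v _ => by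
                rw [← mul_sub]
                exact mul_le_mul_of_nonneg_left (hoff u v) (mul_nonneg (hp u) (hp v))
      have h3 : ∑ u, pw x u * ∑ k, side C left true u k ^ 2 -
          ∑ u, pw x u * ∑ k, side C left false u k ^ 2 = κ := by
        simp only [← sum_sub_distrib, ← mul_sub, hdiag, ← sum_mul, sum_pw, one_mul]
      have hθ : θ ^ 2 - θ ≤ 0 := by nlinarith
      have h4 := mul_le_mul_of_nonpos_left h2 hθ
      have h5 : θ ^ 2 * κ ≤ 0 := mul_nonpos_of_nonneg_of_nonpos (sq_nonneg θ) hκ
      simp only [covTerm]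
      linear_combination h4 + h5 + θ * h3
    have hP := softPow_pos θ x
    have hmul := mul_le_mul_of_nonneg_left hcov (mul_nonneg hP.le (sq_nonneg √δ))
    simp only [R]
    linarith [hA.2, hB.1]
  rw [← heT, ← heF]
  have hi0 := (integrable_phi h0 h1 C a).const_mul (√δ ^ 3 * R)
  refine (integral_mono hiT (hiF.add hi0) hpt).trans ?_
  rw [integral_add' hiF hi0, integral_const_mul]
  refine add_le_add le_rfl (mul_le_mul_of_nonneg_left ?_ ?_)
  · rw [← integral_const_mul]
    exact integral_mono (integrable_phi h0 h1 C a) ((integrable_exp_l1 C 1).const_mul _) hF0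
  · have : 0 ≤ R := add_nonneg (integral_nonneg fun g => by positivity)
      (integral_nonneg fun g => by positivity)
    positivity

/-- The comparison inequality. -/
theorem compare {θ : ℝ} (h0 : 0 ≤ θ) (h1 : θ ≤ 1) (C : J → ι → ℝ) (left : ι → Bool) {κ : ℝ}
    (hκ : κ ≤ 0)
    (hdiag : ∀ u, ∑ k, side C left true u k ^ 2 - ∑ k, side C left false u k ^ 2 = κ)
    (hoff : ∀ u v, κ ≤ ∑ k, side C left true u k * side C left true v k -
      ∑ k, side C left false u k * side C left false v k) :
    ∫ g, softPow θ (lnf (side C left true) g) ∂gauss ι ≤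
      ∫ g, softPow θ (lnf (side C left false) g) ∂gauss ι := by
  have hends : ∀ b, ∫ g, softPow θ (lnf (side C left b) g) ∂gauss ι =
      phi θ C left (if b then 1 else 0) (if b then 0 else 1) := fun b => by
    refine integral_congr_ae (.of_forall fun g => congrArg (softPow θ) (funext fun u => ?_))
    simp only [lnf, side, rho]
    refine sum_congr rfl fun k _ => ?_
    cases left k <;> cases b <;> simp
  rw [hends, hends]
  simp only [if_true, Bool.false_eq_true, if_false]
  set M := (remConst (side C left true) + remConst (side C left false)) *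
    (softPow θ (0 : J → ℝ) * ∫ g, exp (1 * l1 C g) ∂gauss ι)
  have hstep : ∀ N : ℕ, 0 < N →
      phi θ C left 1 0 ≤ phi θ C left 0 1 + (√(1 / N : ℝ)) * M := by
    intro N hN
    set δ : ℝ := 1 / N
    have hδ : 0 ≤ δ := by positivity
    have hN' : (0 : ℝ) < N := by exact_mod_cast hN
    have hδ1 : δ ≤ 1 := by
      rw [div_le_one hN']; exact_mod_cast hN
    have hind : ∀ i : ℕ, i ≤ N → phi θ C left (i * δ) ((N - i : ℕ) * δ) ≤
        phi θ C left 0 1 + i * (√δ ^ 3 * M) := by
      intro i
      induction i with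
      | zero => intro _; simp [δ, hN'.ne']
      | succ i ih =>
        intro hi
        have h := phi_step h0 h1 C left hκ hdiag hoff (s := i * δ) (t := (N - (i + 1) : ℕ) * δ)
          (δ := δ) (by positivity) (by positivity) hδ hδ1 (by
            rw [← add_mul, mul_one_div, div_le_one hN']
            exact_mod_cast (by omega : i + (N - (i + 1)) ≤ N))
        have e1 : (i : ℝ) * δ + δ = ((i + 1 : ℕ) : ℝ) * δ := by push_cast; ring
        have e2 : ((N - (i + 1) : ℕ) : ℝ) * δ + δ = ((N - i : ℕ) : ℝ) * δ := by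
          rw [show N - i = N - (i + 1) + 1 by omega]; push_cast; ring
        rw [e1, e2, mul_assoc] at h
        refine h.trans ?_
        have := ih (by omega)
        push_cast
        linarith
    have h := hind N le_rfl
    have e : (N : ℝ) * δ = 1 := by simp [δ, hN'.ne']
    rw [Nat.sub_self, Nat.cast_zero, zero_mul, e] at h
    refine h.trans (le_of_eq ?_)
    rw [pow_succ, Real.sq_sqrt hδ]
    linear_combination (√δ * M) * e
  have hM : 0 ≤ M :=
    mul_nonneg (add_nonneg (integral_nonneg fun g => by positivity)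
      (integral_nonneg fun g => by positivity))
      (mul_nonneg (softPow_pos _ _).le (integral_nonneg fun g => (exp_pos _).le))
  refine le_of_forall_pos_le_add fun ε hε => ?_
  obtain ⟨N, hN⟩ := exists_nat_gt ((M / ε) ^ 2 + 1)
  have hN0 : (0 : ℝ) < N := lt_of_le_of_lt (by positivity) hN
  refine (hstep N (by exact_mod_cast hN0)).trans (add_le_add le_rfl ?_)
  have h2 : √(1 / N : ℝ) * M ≤ √(1 / N : ℝ) * (ε * √N) := by
    refine mul_le_mul_of_nonneg_left ?_ (Real.sqrt_nonneg _)
    rw [mul_comm, ← div_le_iff₀ hε]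
    exact Real.le_sqrt_of_sq_le (by linarith)
  refine h2.trans (le_of_eq ?_)
  rw [mul_left_comm, ← Real.sqrt_mul (by positivity), div_mul_cancel₀ _ hN0.ne', Real.sqrt_one,
    mul_one]

end

end Vale.Agent.P150.High
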