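import Vale.Agent.P150.High.Defs
import Vale.Agent.P150.High.Compare

/-!
The symmetric Gaussian matrix is typically of norm at most `(2 + ε) √n`, by comparison with a
linear process on a net of the sphere.
-/

namespace Vale.Agent.P150.High

open MeasureTheory ProbabilityTheory Finset Real Filter
open scoped Topology

noncomputable section

variable {n : ℕ}

/-- The weight of an ordered pair in the invariant ensemble. -/
def cw (i j : Fin n) : ℝ := if i = j then √2 else 1

/-- The coefficient of an unordered pair in the quadratic form at `u`. -/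
def goeCoef (u : Fin n → ℝ) (p : Sym2 (Fin n)) : ℝ :=
  ∑ x : Fin n × Fin n, if s(x.1, x.2) = p then cw x.1 x.2 * u x.1 * u x.2 else 0

/-- The quadratic form of the invariant ensemble. -/
def goeForm (g : Disorder n) (u : Fin n → ℝ) : ℝ :=
  ∑ i, ∑ j, cw i j * g s(i, j) * u i * u j

lemma goeForm_eq (g : Disorder n) (u : Fin n → ℝ) :
    goeForm g u = ∑ p, goeCoef u p * g p := by
  simp only [goeCoef, sum_mul, ite_mul, zero_mul]
  rw [sum_comm, goeForm, Fintype.sum_prod_type]
  simp only [sum_ite_eq, Finset.mem_univ, if_true]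
  exact sum_congr rfl fun i _ => sum_congr rfl fun j _ => by ring

lemma goeCoef_mk (v : Fin n → ℝ) (i j : Fin n) :
    goeCoef v s(i, j) = if i = j then √2 * v i ^ 2 else 2 * v i * v j := by
  have h : (univ.filter fun x : Fin n × Fin n => s(x.1, x.2) = s(i, j)) = {(i, j), (j, i)} := by
    ext ⟨a, b⟩
    simp [Prod.ext_iff]
  rw [goeCoef, ← sum_filter, h]
  split_ifs with hij
  · subst hij; simp [cw]; ring
  · rw [sum_pair (by simp [Prod.ext_iff, hij])]
    simp [cw, hij, Ne.symm hij]; ring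

lemma goeCov (u v : Fin n → ℝ) :
    ∑ p, goeCoef u p * goeCoef v p = 2 * (∑ i, u i * v i) ^ 2 := by
  have h : ∀ p, goeCoef u p * goeCoef v p = ∑ x : Fin n × Fin n,
      if s(x.1, x.2) = p then cw x.1 x.2 * u x.1 * u x.2 * goeCoef v p else 0 := fun p => by
    rw [goeCoef, sum_mul]
    simp only [ite_mul, zero_mul]
  simp only [h]
  rw [sum_comm, Fintype.sum_prod_type, sq, sum_mul_sum, mul_sum]
  simp only [sum_ite_eq, Finset.mem_univ, if_true, mul_sum, goeCoef_mk]
  refine sum_congr rfl fun i _ => sum_congr rfl fun j _ => ?_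
  unfold cw
  split_ifs with hij
  · subst hij
    linear_combination (u i * u i * v i ^ 2) * Real.mul_self_sqrt (show (0 : ℝ) ≤ 2 by norm_num)
  · ring

lemma sum_exp_neg_abs_le (m : ℕ) :
    ∑ j ∈ Icc (-(m : ℤ)) m, exp (-(j : ℝ) ^ 2) ≤ 4 := by
  classical
  have hsub : Icc (-(m : ℤ)) m ⊆ (range (m + 1) ×ˢ (univ : Finset Bool)).image
      (fun q => if q.2 then (q.1 : ℤ) else -(q.1 : ℤ)) := by
    intro j hj
    rw [Finset.mem_Icc] at hj
    refine Finset.mem_image.2 ⟨(j.natAbs, decide (0 ≤ j)),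
      Finset.mem_product.2 ⟨Finset.mem_range.2 (by omega), Finset.mem_univ _⟩, ?_⟩
    by_cases h : 0 ≤ j
    · simp only [h, decide_true, if_true]; exact Int.natAbs_of_nonneg h
    · simp only [h, decide_false, Bool.false_eq_true, if_false]
      rw [Int.ofNat_natAbs_of_nonpos (by omega), neg_neg]
  refine (sum_le_sum_of_subset_of_nonneg hsub fun _ _ _ => (exp_pos _).le).trans ?_
  refine (sum_image_le_of_nonneg fun _ _ => (exp_pos _).le).trans ?_
  have hhalf : ∀ q : ℕ × Bool, exp (-((if q.2 then (q.1 : ℤ) else -(q.1 : ℤ) : ℤ) : ℝ) ^ 2)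
      ≤ (1 / 2) ^ q.1 := by
    intro q
    have e : ((if q.2 then (q.1 : ℤ) else -(q.1 : ℤ) : ℤ) : ℝ) ^ 2 = (q.1 : ℝ) ^ 2 := by
      split_ifs <;> push_cast <;> ring
    rw [e]
    calc exp (-(q.1 : ℝ) ^ 2) ≤ exp (-(q.1 : ℝ)) := by
          refine exp_le_exp.2 (neg_le_neg ?_)
          exact_mod_cast Nat.le_self_pow two_ne_zero q.1
      _ = exp (-1) ^ q.1 := by rw [← exp_nat_mul]; ring_nf
      _ ≤ (1 / 2) ^ q.1 := by
          refine pow_le_pow_left₀ (exp_pos _).le ?_ _
          rw [exp_neg, one_div]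
          exact inv_anti₀ two_pos (by linarith [add_one_le_exp (1 : ℝ)])
  refine (sum_le_sum fun q _ => hhalf q).trans ?_
  rw [Finset.sum_product]
  simp only [Fintype.sum_bool, ← two_mul, ← mul_sum]
  linarith [sum_geometric_two_le (m + 1)]

/-- A net of the sphere of exponential size. -/
theorem exists_net {h : ℝ} (h0 : 0 < h) (h1 : h ≤ 1) : ∃ Cn : ℝ, 0 ≤ Cn ∧ ∀ n : ℕ, 0 < n →
    ∃ N : Finset (Fin n → ℝ), N.Nonempty ∧ (N.card : ℝ) ≤ exp (Cn * n) ∧
      (∀ v ∈ N, ∑ i, v i ^ 2 = 1) ∧
      ∀ u : Fin n → ℝ, ∑ i, u i ^ 2 = 1 → ∃ v ∈ N, ∑ i, (u i - v i) ^ 2 ≤ h ^ 2 := by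
  classical
  set R := 4 / h ^ 2 with hR
  refine ⟨R + 4, by positivity, fun n hn => ?_⟩
  set m : ℕ := ⌈R * n⌉₊
  set B := Fintype.piFinset fun _ : Fin n => Icc (-(m : ℤ)) m
  set K := B.filter fun k => (∑ i, (k i : ℝ) ^ 2) ≤ R * n ∧ 0 < ∑ i, (k i : ℝ) ^ 2
  set vec : (Fin n → ℤ) → Fin n → ℝ := fun k i => (k i : ℝ) / √(∑ l, (k l : ℝ) ^ 2)
  have hunit : ∀ k ∈ K, ∑ i, vec k i ^ 2 = 1 := fun k hk => by
    have hpos := (Finset.mem_filter.1 hk).2.2
    simp only [vec, div_pow, Real.sq_sqrt hpos.le, ← sum_div, div_self hpos.ne']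
  have hcover : ∀ u : Fin n → ℝ, ∑ i, u i ^ 2 = 1 →
      ∃ v ∈ K.image vec, ∑ i, (u i - v i) ^ 2 ≤ h ^ 2 := by
    intro u hu
    set s : ℝ := √n / h
    have hn' : (0 : ℝ) < n := by exact_mod_cast hn
    have hs : 0 < s := by positivity
    set k : Fin n → ℤ := fun i => round (u i * s)
    set w : Fin n → ℝ := fun i => (k i : ℝ) / s
    have hs2 : s ^ 2 = n / h ^ 2 := by simp only [s, div_pow, Real.sq_sqrt hn'.le]
    have hclose : ∑ i, (u i - w i) ^ 2 ≤ h ^ 2 / 4 := by
      calc ∑ i, (u i - w i) ^ 2 ≤ ∑ _i : Fin n, (1 / 2) ^ 2 / s ^ 2 := by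
            refine sum_le_sum fun i _ => ?_
            rw [show u i - w i = (u i * s - k i) / s by simp only [w]; field_simp, div_pow]
            gcongr ?_ / _
            rw [← sq_abs]
            exact pow_le_pow_left₀ (abs_nonneg _) (abs_sub_round _) 2
        _ = h ^ 2 / 4 := by
            rw [sum_const, card_univ, Fintype.card_fin, nsmul_eq_mul, hs2]
            field_simp
            ring
    set S := ∑ i, w i ^ 2 with hS
    have hSk : ∑ i, (k i : ℝ) ^ 2 = S * s ^ 2 := by
      rw [hS, sum_mul]; exact sum_congr rfl fun i _ => by simp only [w]; field_simp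
    have hS4 : S ≤ 4 := by
      calc S ≤ ∑ i, (2 * u i ^ 2 + 2 * (u i - w i) ^ 2) :=
            sum_le_sum fun i _ => by nlinarith [sq_nonneg (2 * u i - w i)]
        _ ≤ 4 := by rw [sum_add_distrib, ← mul_sum, ← mul_sum, hu]; nlinarith
    have hcs : ∑ i, w i * u i ≤ √S := by
      have := Real.sum_mul_le_sqrt_mul_sqrt univ w u
      rwa [hu, Real.sqrt_one, mul_one] at this
    have hexp : ∑ i, (u i - w i) ^ 2 = 1 - 2 * ∑ i, w i * u i + S := by
      rw [hS, ← hu, mul_sum, ← sum_sub_distrib, ← sum_add_distrib]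
      exact sum_congr rfl fun i _ => by ring
    have hS0 : 0 < S := by
      by_contra hcon
      have h0' : √S = 0 := Real.sqrt_eq_zero_of_nonpos (not_lt.1 hcon)
      have : 0 ≤ S := sum_nonneg fun _ _ => sq_nonneg _
      nlinarith
    have hkK : k ∈ K := by
      have hkR : ∑ i, (k i : ℝ) ^ 2 ≤ R * n := by
        rw [hSk, hs2, hR]
        calc S * (n / h ^ 2) ≤ 4 * (n / h ^ 2) := by gcongr
          _ = _ := by ring
      refine Finset.mem_filter.2 ⟨Fintype.mem_piFinset.2 fun i => ?_, hkR,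
        by rw [hSk]; positivity⟩
      have hi : ((k i).natAbs : ℝ) ≤ (m : ℝ) := by
        calc ((k i).natAbs : ℝ) = |(k i : ℝ)| := by rw [Nat.cast_natAbs, Int.cast_abs]
          _ ≤ (k i : ℝ) ^ 2 := by
              rw [← sq_abs]
              rcases eq_or_ne (k i) 0 with h' | h'
              · simp [h']
              · exact le_self_pow₀ (by exact_mod_cast Int.one_le_abs h') two_ne_zero
          _ ≤ R * n := (single_le_sum (f := fun l => (k l : ℝ) ^ 2) (fun _ _ => sq_nonneg _)
              (Finset.mem_univ i)).trans hkR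
          _ ≤ m := Nat.le_ceil _
      have : (k i).natAbs ≤ m := by exact_mod_cast hi
      rw [Finset.mem_Icc]
      omega
    have hvec : vec k = fun i => w i / √S := by
      funext i
      simp only [vec, hSk, w]
      rw [Real.sqrt_mul hS0.le, Real.sqrt_sq hs.le, div_div, mul_comm]
    refine ⟨_, Finset.mem_image_of_mem _ hkK, ?_⟩
    rw [hvec]
    have hr := Real.mul_self_sqrt hS0.le
    have hne : √S ≠ 0 := (Real.sqrt_pos.2 hS0).ne'
    have hwv : ∑ i, (w i - w i / √S) ^ 2 = (√S - 1) ^ 2 := by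
      have e : ∀ i, (w i - w i / √S) ^ 2 = w i ^ 2 / S * (√S - 1) ^ 2 := fun i => by
        rw [show w i - w i / √S = w i / √S * (√S - 1) by field_simp, mul_pow, div_pow,
          Real.sq_sqrt hS0.le]
      simp only [e, ← sum_mul, ← sum_div, ← hS, div_self hS0.ne', one_mul]
    calc ∑ i, (u i - w i / √S) ^ 2
        ≤ ∑ i, (2 * (u i - w i) ^ 2 + 2 * (w i - w i / √S) ^ 2) :=
          sum_le_sum fun i _ => by nlinarith [sq_nonneg (u i - w i - (w i - w i / √S))]
      _ ≤ h ^ 2 := by
          rw [sum_add_distrib, ← mul_sum, ← mul_sum, hwv]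
          nlinarith
  refine ⟨K.image vec, ?_, ?_, ?_, hcover⟩
  · obtain ⟨v, hv, -⟩ := hcover (Pi.single (⟨0, hn⟩ : Fin n) 1) (by simp [Pi.single_apply])
    exact ⟨v, hv⟩
  · calc ((K.image vec).card : ℝ) ≤ K.card := by exact_mod_cast Finset.card_image_le
      _ = ∑ _k ∈ K, (1 : ℝ) := by simp
      _ ≤ ∑ k ∈ K, exp (R * n) * ∏ i, exp (-(k i : ℝ) ^ 2) := by
          refine sum_le_sum fun k hk => ?_
          rw [← exp_sum, ← exp_add, sum_neg_distrib]
          exact one_le_exp (by linarith [(Finset.mem_filter.1 hk).2.1])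
      _ ≤ ∑ k ∈ B, exp (R * n) * ∏ i, exp (-(k i : ℝ) ^ 2) :=
          sum_le_sum_of_subset_of_nonneg (filter_subset _ _) fun _ _ _ => by positivity
      _ = exp (R * n) * ∏ _i : Fin n, ∑ j ∈ Icc (-(m : ℤ)) m, exp (-(j : ℝ) ^ 2) := by
          rw [← mul_sum, prod_univ_sum]
      _ ≤ exp (R * n) * exp 4 ^ n := by
          rw [prod_const, card_univ, Fintype.card_fin]
          gcongr
          exact (sum_exp_neg_abs_le m).trans (by linarith [add_one_le_exp (4 : ℝ)])
      _ = exp ((R + 4) * n) := by rw [← exp_nat_mul, ← exp_add]; ring_nf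
  · intro v hv
    obtain ⟨k, hk, rfl⟩ := Finset.mem_image.1 hv
    exact hunit k hk

/-- A Gaussian square exponential. -/
lemma integrable_exp_sq {s : ℝ} (hs : s < 1 / 2) :
    Integrable (fun x => exp (s * x ^ 2)) (gaussianReal 0 1) ∧
      ∫ x, exp (s * x ^ 2) ∂gaussianReal 0 1 = (√(1 - 2 * s))⁻¹ := by
  have hb : 0 < 1 / 2 - s := by linarith
  have h1 : ∀ x, gaussianPDFReal 0 1 x * exp (s * x ^ 2) =
      (√(2 * π))⁻¹ * exp (-(1 / 2 - s) * x ^ 2) := fun x => by
    simp only [gaussianPDFReal_def, NNReal.coe_one, mul_one, sub_zero, mul_assoc, ← exp_add]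
    ring_nf
  constructor
  · rw [gaussianReal_of_var_ne_zero 0 one_ne_zero,
      integrable_withDensity_iff (measurable_gaussianPDF 0 1)
        (.of_forall fun _ => gaussianPDF_lt_top)]
    refine ((integrable_exp_neg_mul_sq hb).const_mul (√(2 * π))⁻¹).congr (.of_forall fun x => ?_)
    simp only [toReal_gaussianPDF]
    rw [mul_comm (exp (s * x ^ 2)), h1]
  · rw [integral_gaussianReal_eq_integral_smul one_ne_zero]
    simp only [smul_eq_mul, h1]
    rw [integral_const_mul, integral_gaussian, ← Real.sqrt_inv, ← Real.sqrt_inv,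
      ← Real.sqrt_mul (by positivity)]
    congr 1
    field_simp

/-- Exponential moments of weighted sums of squares. -/
lemma integral_exp_quad_le {ι : Type*} [Fintype ι] (c : ι → ℝ) {s : ℝ} (hs : s < 1 / 2)
    (hc : ∀ p, c p = 0 ∨ c p = s) :
    Integrable (fun g => exp (∑ p, c p * g p ^ 2)) (gauss ι) ∧
      ∫ g, exp (∑ p, c p * g p ^ 2) ∂gauss ι ≤ exp ((∑ p, c p) / (1 - 2 * s)) := by
  have hc' : ∀ p, c p < 1 / 2 := fun p => by rcases hc p with h | h <;> rw [h] <;> linarith
  simp only [exp_sum]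
  refine ⟨Integrable.fintype_prod_dep (f := fun p x => exp (c p * x ^ 2))
    fun p => (integrable_exp_sq (hc' p)).1, ?_⟩
  rw [integral_fintype_prod_eq_prod (f := fun p x => exp (c p * x ^ 2)), sum_div, exp_sum]
  refine prod_le_prod (fun p _ => integral_nonneg fun _ => (exp_pos _).le) fun p _ => ?_
  rw [(integrable_exp_sq (hc' p)).2]
  rcases hc p with h | h <;> rw [h]
  · simp
  · have hb : 0 < 1 - 2 * s := by linarith
    have key : exp (-(s / (1 - 2 * s))) ^ 2 ≤ 1 - 2 * s := by
      have e : exp (-(s / (1 - 2 * s))) ^ 2 = (exp (2 * s / (1 - 2 * s)))⁻¹ := by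
        rw [← exp_nat_mul, ← exp_neg]; ring_nf
      rw [e, inv_le_comm₀ (exp_pos _) hb]
      refine le_trans (le_of_eq ?_) (add_one_le_exp _)
      field_simp
      ring
    have h2 := Real.sqrt_le_sqrt key
    rw [Real.sqrt_sq (exp_pos _).le, exp_neg] at h2
    exact inv_le_of_inv_le₀ (exp_pos _) h2

/-- A Markov bound from an exponential moment. -/
lemma measureReal_le_of_exp {ι : Type*} [Fintype ι] {A : Set (ι → ℝ)} {f : (ι → ℝ) → ℝ} {a b : ℝ}
    (hi : Integrable (fun g => exp (f g)) (gauss ι))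
    (hb : ∫ g, exp (f g) ∂gauss ι ≤ exp b) (hA : ∀ g ∈ A, a ≤ f g) :
    (gauss ι).real A ≤ exp (b - a) := by
  have h := mul_meas_ge_le_integral_of_nonneg (.of_forall fun g => (exp_pos (f g)).le) hi (exp a)
  have hsub : (gauss ι).real A ≤ (gauss ι).real {g | exp a ≤ exp (f g)} :=
    measureReal_mono fun g hg => exp_le_exp.2 (hA g hg)
  rw [exp_sub, le_div_iff₀ (exp_pos a), mul_comm]
  exact (mul_le_mul_of_nonneg_left hsub (exp_pos a).le).trans (h.trans hb)

/-- The left block of the interpolation coefficients. -/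
def procCoef (N : Finset (Fin n → ℝ)) (β sg : ℝ) (v : N) (k : Sym2 (Fin n) ⊕ Fin n) : ℝ :=
  k.elim (fun p => β * sg * goeCoef v p) fun i => β * 2 * (v : Fin n → ℝ) i

/-- The exponential moment of the form on the net is at most that of the linear process. -/
lemma net_moment_le (N : Finset (Fin n → ℝ)) (hN : N.Nonempty) (hunit : ∀ v ∈ N, ∑ i, v i ^ 2 = 1)
    {θ β sg : ℝ} (h0 : 0 ≤ θ) (h1 : θ ≤ 1) (hsg : sg ^ 2 = 1) :
    haveI := hN.to_subtype
    ∫ g : Disorder n, softPow θ (fun v : N => β * sg * goeForm g v) ∂gauss (Sym2 (Fin n)) ≤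
      ∫ h : Fin n → ℝ, softPow θ (fun v : N => β * 2 * ∑ i, (v : Fin n → ℝ) i * h i)
        ∂gauss (Fin n) := by
  have := hN.to_subtype
  set C := procCoef N β sg
  set left : Sym2 (Fin n) ⊕ Fin n → Bool := fun k => k.isLeft
  have hl : ∀ v u : N, ∑ k, side C left true v k * side C left true u k =
      β ^ 2 * (2 * (∑ i, (v : Fin n → ℝ) i * (u : Fin n → ℝ) i) ^ 2) := fun v u => by
    rw [Fintype.sum_sum_type, ← goeCov, mul_sum]
    simp only [side, C, procCoef, left, Sum.isLeft_inl, Sum.isLeft_inr, Sum.elim_inl,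
      Bool.false_eq_true, if_true, if_false, mul_zero, sum_const_zero, add_zero]
    exact sum_congr rfl fun p _ => by linear_combination (β ^ 2 * goeCoef v p * goeCoef u p) * hsg
  have hr : ∀ v u : N, ∑ k, side C left false v k * side C left false u k =
      β ^ 2 * (4 * ∑ i, (v : Fin n → ℝ) i * (u : Fin n → ℝ) i) := fun v u => by
    rw [Fintype.sum_sum_type, mul_sum, mul_sum]
    simp only [side, C, procCoef, left, Sum.isLeft_inl, Sum.isLeft_inr, Sum.elim_inr,
      Bool.true_eq_false, if_true, if_false, mul_zero, sum_const_zero, zero_add]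
    exact sum_congr rfl fun i _ => by ring
  have hone : ∀ v : N, ∑ i, (v : Fin n → ℝ) i * (v : Fin n → ℝ) i = 1 := fun v => by
    simpa only [sq] using hunit v v.2
  have hcmp := compare h0 h1 C left (κ := -2 * β ^ 2) (by nlinarith)
    (fun v => by simp only [sq (side C left _ v _), hl, hr, hone]; ring)
    fun v u => by
      rw [hl, hr]
      nlinarith [mul_nonneg (sq_nonneg β)
        (sq_nonneg (∑ i, (v : Fin n → ℝ) i * (u : Fin n → ℝ) i - 1))]
  have hmp := measurePreserving_sumPiEquivProdPi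
    (fun _ : Sym2 (Fin n) ⊕ Fin n => gaussianReal 0 1)
  have hfst : (gauss (Sym2 (Fin n) ⊕ Fin n)).map (fun g p => g (Sum.inl p)) =
      gauss (Sym2 (Fin n)) :=
    (measurePreserving_fst.comp hmp).map_eq
  have hsnd : (gauss (Sym2 (Fin n) ⊕ Fin n)).map (fun g i => g (Sum.inr i)) = gauss (Fin n) :=
    (measurePreserving_snd.comp hmp).map_eq
  have hcL : Continuous fun g : Disorder n => fun v : N => β * sg * goeForm g v := by
    unfold goeForm; fun_prop
  have hcR : Continuous fun h : Fin n → ℝ =>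
      fun v : N => β * 2 * ∑ i, (v : Fin n → ℝ) i * h i := by
    fun_prop
  have eL := integral_map (μ := gauss (Sym2 (Fin n) ⊕ Fin n)) (φ := fun g p => g (Sum.inl p))
    (f := fun g : Disorder n => softPow θ fun v : N => β * sg * goeForm g v)
    (measurable_pi_lambda _ fun _ => measurable_pi_apply _).aemeasurable
    ((continuous_softPow θ).comp hcL).aestronglyMeasurable
  have eR := integral_map (μ := gauss (Sym2 (Fin n) ⊕ Fin n)) (φ := fun g i => g (Sum.inr i))
    (f := fun h : Fin n → ℝ => softPow θ fun v : N => β * 2 * ∑ i, (v : Fin n → ℝ) i * h i)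
    (measurable_pi_lambda _ fun _ => measurable_pi_apply _).aemeasurable
    ((continuous_softPow θ).comp hcR).aestronglyMeasurable
  rw [hfst] at eL
  rw [hsnd] at eR
  rw [eL, eR]
  refine le_of_eq_of_le ?_ (hcmp.trans_eq ?_)
  · refine integral_congr_ae (.of_forall fun g => congrArg (softPow θ) (funext fun v => ?_))
    simp only [lnf, Fintype.sum_sum_type, side, C, procCoef, left, goeForm_eq, mul_sum]
    simp [mul_assoc]
  · refine integral_congr_ae (.of_forall fun g => congrArg (softPow θ) (funext fun v => ?_))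
    simp only [lnf, Fintype.sum_sum_type, side, C, procCoef, left, mul_sum]
    simp [mul_assoc]

/-- The exponential moment of the linear process. -/
lemma linear_le (hn : 0 < n) (N : Finset (Fin n → ℝ)) (hN : N.Nonempty)
    (hunit : ∀ v ∈ N, ∑ i, v i ^ 2 = 1) {θ d Cn β : ℝ} (h0 : 0 < θ) (h1 : θ ≤ 1) (hd : 0 < d)
    (hd2 : d < 1 / 2) (hθβ : θ * β = d * √n) (hcard : (N.card : ℝ) ≤ exp (Cn * n)) :
    haveI := hN.to_subtype
    ∫ h : Fin n → ℝ, softPow θ (fun v : N => β * 2 * ∑ i, (v : Fin n → ℝ) i * h i)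
      ∂gauss (Fin n) ≤ exp ((θ * Cn + d + d / (1 - 2 * d)) * n) := by
  have := hN.to_subtype
  have hsn0 : 0 < √(n : ℝ) := Real.sqrt_pos.2 (by exact_mod_cast hn)
  have hsn : √(n : ℝ) * √n = n := Real.mul_self_sqrt (Nat.cast_nonneg n)
  have hβ : 0 ≤ β := by
    have : 0 < θ * β := hθβ ▸ mul_pos hd hsn0
    nlinarith
  obtain ⟨hiq, hleq⟩ := integral_exp_quad_le (fun _ : Fin n => d) hd2 fun _ => Or.inr rfl
  have hci : Integrable (fun h : Fin n → ℝ =>
      softPow θ (fun v : N => β * 2 * ∑ i, (v : Fin n → ℝ) i * h i)) (gauss (Fin n)) := by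
    have h := integrable_phi h0.le h1 (fun (v : N) i => β * 2 * (v : Fin n → ℝ) i) fun _ => 1
    have e : ∀ x : Fin n → ℝ,
        lnf (fun (v : N) i => β * 2 * (v : Fin n → ℝ) i) (fun k => 1 * x k) =
          fun v : N => β * 2 * ∑ i, (v : Fin n → ℝ) i * x i := fun x => by
      funext v; simp only [lnf, one_mul, mul_sum, mul_assoc]
    simpa only [e] using h
  have hpt : ∀ h : Fin n → ℝ, softPow θ (fun v : N => β * 2 * ∑ i, (v : Fin n → ℝ) i * h i) ≤
      exp ((θ * Cn + d) * n) * exp (∑ i, d * h i ^ 2) := fun h => by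
    rw [softPow, ← exp_add, exp_le_exp]
    have hlog : log (expSum fun v : N => β * 2 * ∑ i, (v : Fin n → ℝ) i * h i) ≤
        Cn * n + β * (√n + (∑ i, h i ^ 2) / √n) := by
      rw [← log_exp (Cn * n + _), exp_add]
      refine log_le_log (expSum_pos _) ?_
      refine (sum_le_card_nsmul _ _ (exp (β * (√n + (∑ i, h i ^ 2) / √n))) fun v _ =>
        exp_le_exp.2 ?_).trans ?_
      · rw [mul_assoc]
        refine mul_le_mul_of_nonneg_left ?_ hβ
        have hv := hunit v v.2
        have hkey : ∀ i, 2 * ((v : Fin n → ℝ) i * h i) ≤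
            √n * (v : Fin n → ℝ) i ^ 2 + h i ^ 2 / √n := fun i => by
          have e : √n * (v : Fin n → ℝ) i ^ 2 + h i ^ 2 / √n - 2 * ((v : Fin n → ℝ) i * h i)
              = (√n * (v : Fin n → ℝ) i - h i) ^ 2 / √n := by field_simp; ring
          have := div_nonneg (sq_nonneg (√n * (v : Fin n → ℝ) i - h i)) hsn0.le
          linarith
        have := sum_le_sum fun i (_ : i ∈ univ) => hkey i
        rw [sum_add_distrib, ← mul_sum, ← mul_sum, hv, ← sum_div, mul_one] at this
        linarith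
      · rw [card_univ, Fintype.card_coe, nsmul_eq_mul]
        exact mul_le_mul_of_nonneg_right hcard (exp_pos _).le
    refine (mul_le_mul_of_nonneg_left hlog h0.le).trans (le_of_eq ?_)
    rw [mul_add, ← mul_assoc θ β, hθβ, ← mul_sum]
    have e : d * √(n : ℝ) * ((∑ i, h i ^ 2) / √n) = d * ∑ i, h i ^ 2 := by
      rw [mul_assoc, mul_div_cancel₀ _ hsn0.ne']
    linear_combination e + d * hsn
  refine (integral_mono hci (hiq.const_mul _) hpt).trans ?_
  rw [integral_const_mul]
  refine (mul_le_mul_of_nonneg_left hleq (exp_pos _).le).trans (le_of_eq ?_)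
  rw [← exp_add, sum_const, card_univ, Fintype.card_fin, nsmul_eq_mul]
  ring_nf

/-- The tail of the form on the net. -/
lemma net_tail (hn : 0 < n) (N : Finset (Fin n → ℝ)) (hN : N.Nonempty)
    (hunit : ∀ v ∈ N, ∑ i, v i ^ 2 = 1) {θ d Cn : ℝ} (h0 : 0 < θ) (h1 : θ ≤ 1) (hd : 0 < d)
    (hd2 : d < 1 / 2) (hcard : (N.card : ℝ) ≤ exp (Cn * n)) (a sg : ℝ) (hsg : sg ^ 2 = 1) :
    (gauss (Sym2 (Fin n))).real {g | ∃ v ∈ N, a * √n < sg * goeForm g v} ≤
      exp ((θ * Cn + d + d / (1 - 2 * d) - d * a) * n) := by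
  have := hN.to_subtype
  set β := d * √n / θ with hβ
  have hsn : √(n : ℝ) * √n = n := Real.mul_self_sqrt (Nat.cast_nonneg n)
  have hsn0 : 0 < √(n : ℝ) := Real.sqrt_pos.2 (by exact_mod_cast hn)
  have hθβ : θ * β = d * √n := by rw [hβ]; field_simp
  have hi : Integrable (fun g : Disorder n => softPow θ (fun v : N => β * sg * goeForm g v))
      (gauss (Sym2 (Fin n))) := by
    have h := integrable_phi h0.le h1 (fun (v : N) p => β * sg * goeCoef (v : Fin n → ℝ) p)
      fun _ => 1
    have e : ∀ g : Disorder n,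
        lnf (fun (v : N) p => β * sg * goeCoef (v : Fin n → ℝ) p) (fun k => 1 * g k) =
          fun v : N => β * sg * goeForm g v := fun g => by
      funext v; simp only [lnf, one_mul, goeForm_eq, mul_sum, mul_assoc]
    exact h.congr (.of_forall fun g => congrArg (softPow θ) (e g))
  have hR := linear_le hn N hN hunit h0 h1 hd hd2 hθβ hcard
  have hmain : (gauss (Sym2 (Fin n))).real {g | ∃ v ∈ N, a * √n < sg * goeForm g v} ≤
      exp ((θ * Cn + d + d / (1 - 2 * d)) * n - θ * β * (a * √n)) := by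
    have hb := (net_moment_le N hN hunit h0.le h1 (β := β) (sg := sg) hsg).trans hR
    unfold softPow at hi hb
    refine measureReal_le_of_exp hi hb fun g hg => ?_
    obtain ⟨v, hv, hvg⟩ := hg
    rw [mul_assoc θ β]
    refine mul_le_mul_of_nonneg_left ?_ h0.le
    calc β * (a * √n) ≤ β * (sg * goeForm g v) := mul_le_mul_of_nonneg_left hvg.le (by positivity)
      _ = log (exp (β * sg * goeForm g v)) := by rw [log_exp]; ring
      _ ≤ _ := log_le_log (exp_pos _) (single_le_sum
          (f := fun w : N => exp (β * sg * goeForm g w)) (fun _ _ => (exp_pos _).le)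
          (Finset.mem_univ (⟨v, hv⟩ : N)))
  refine hmain.trans (le_of_eq ?_)
  congr 1
  rw [hθβ]
  linear_combination (-d * a) * hsn

/-- A symmetric form bounded on a fine net is bounded on the sphere. -/
lemma form_le_of_net (hn : 0 < n) (g : Disorder n) (N : Finset (Fin n → ℝ)) {h a : ℝ}
    (h0 : 0 < h) (hunit : ∀ v ∈ N, ∑ i, v i ^ 2 = 1)
    (hcov : ∀ u : Fin n → ℝ, ∑ i, u i ^ 2 = 1 → ∃ v ∈ N, ∑ i, (u i - v i) ^ 2 ≤ h ^ 2)
    (hN : ∀ v ∈ N, |goeForm g v| ≤ a) :
    ∀ u : Fin n → ℝ, (1 - 5 / 2 * h) * |goeForm g u| ≤ a * ∑ i, u i ^ 2 := by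
  set Sph : Set (Fin n → ℝ) := {u | ∑ i, u i ^ 2 = 1}
  have hcpt : IsCompact Sph := by
    refine Metric.isCompact_of_isClosed_isBounded (isClosed_eq (by fun_prop) continuous_const) ?_
    refine (Metric.isBounded_iff_subset_closedBall 0).2 ⟨1, fun u hu => ?_⟩
    rw [mem_closedBall_zero_iff, pi_norm_le_iff_of_nonneg zero_le_one]
    intro i
    rw [Real.norm_eq_abs, ← Real.sqrt_sq_eq_abs, Real.sqrt_le_one]
    exact (single_le_sum (f := fun l => u l ^ 2) (fun _ _ => sq_nonneg _) (Finset.mem_univ i)).trans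
      (le_of_eq hu)
  have hne : Sph.Nonempty := ⟨Pi.single ⟨0, hn⟩ 1, by simp [Sph, Pi.single_apply]⟩
  have hcont : Continuous fun u => |goeForm g u| := by unfold goeForm; fun_prop
  obtain ⟨us, hus, hmax⟩ := hcpt.exists_isMaxOn hne hcont.continuousOn
  set M := |goeForm g us|
  have hscale : ∀ (c : ℝ) (u : Fin n → ℝ),
      goeForm g (fun i => c * u i) = c ^ 2 * goeForm g u := fun c u => by
    simp only [goeForm, mul_sum]
    exact sum_congr rfl fun i _ => sum_congr rfl fun j _ => by ring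
  have hall : ∀ z : Fin n → ℝ, |goeForm g z| ≤ M * ∑ i, z i ^ 2 := by
    intro z
    rcases (sum_nonneg fun i (_ : i ∈ univ) => sq_nonneg (z i)).eq_or_lt with hz | hz
    · have hz' : ∀ i, z i = 0 := fun i => pow_eq_zero_iff two_ne_zero |>.1
        ((sum_eq_zero_iff_of_nonneg fun _ _ => sq_nonneg _).1 hz.symm i (Finset.mem_univ i))
      simp [goeForm, hz']
    set r := √(∑ i, z i ^ 2)
    have hr : 0 < r := Real.sqrt_pos.2 hz
    have hr2 : r ^ 2 = ∑ i, z i ^ 2 := Real.sq_sqrt hz.le
    have hmem : (fun i => r⁻¹ * z i) ∈ Sph := by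
      show ∑ i, (r⁻¹ * z i) ^ 2 = 1
      simp only [mul_pow, ← mul_sum, inv_pow, hr2, inv_mul_cancel₀ hz.ne']
    have hle : |goeForm g fun i => r⁻¹ * z i| ≤ M := hmax hmem
    rw [hscale, abs_mul, abs_of_pos (by positivity), inv_pow, inv_mul_le_iff₀ (by positivity),
      hr2] at hle
    linarith
  have hpolar : ∀ x y : Fin n → ℝ, goeForm g (fun i => x i + y i) - goeForm g (fun i => x i - y i)
      = 2 * ∑ i, ∑ j, cw i j * g s(i, j) * (x i * y j + y i * x j) := fun x y => by
    simp only [goeForm, mul_sum, ← sum_sub_distrib]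
    exact sum_congr rfl fun i _ => sum_congr rfl fun j _ => by ring
  obtain ⟨v, hv, hd⟩ := hcov us hus
  set x : Fin n → ℝ := fun i => (us i - v i) / √h
  set y : Fin n → ℝ := fun i => √h * (us i + v i)
  have hsh : 0 < √h := Real.sqrt_pos.2 h0
  have hdiff : 4 * (goeForm g us - goeForm g v) =
      goeForm g (fun i => x i + y i) - goeForm g (fun i => x i - y i) := by
    rw [hpolar]
    simp only [goeForm, mul_sum, ← sum_sub_distrib]
    refine sum_congr rfl fun i _ => sum_congr rfl fun j _ => ?_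
    simp only [x, y]
    field_simp
    ring
  have hxy : ∑ i, (x i + y i) ^ 2 + ∑ i, (x i - y i) ^ 2 ≤ 10 * h := by
    calc ∑ i, (x i + y i) ^ 2 + ∑ i, (x i - y i) ^ 2
        = ∑ i, (2 * ((us i - v i) ^ 2 / h) + 2 * (h * (us i + v i) ^ 2)) := by
          rw [← sum_add_distrib]
          refine sum_congr rfl fun i _ => ?_
          have e1 : x i ^ 2 = (us i - v i) ^ 2 / h := by
            simp only [x, div_pow, Real.sq_sqrt h0.le]
          have e2 : y i ^ 2 = h * (us i + v i) ^ 2 := by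
            simp only [y, mul_pow, Real.sq_sqrt h0.le]
          linear_combination 2 * e1 + 2 * e2
      _ ≤ ∑ i, (2 * ((us i - v i) ^ 2 / h) + 2 * (h * (2 * us i ^ 2 + 2 * v i ^ 2))) :=
          sum_le_sum fun i _ => by
            gcongr
            nlinarith [sq_nonneg (us i - v i)]
      _ ≤ 10 * h := by
          simp only [sum_add_distrib, ← mul_sum, ← sum_div]
          rw [hunit v hv, hus]
          have : (∑ i, (us i - v i) ^ 2) / h ≤ h := by rw [div_le_iff₀ h0]; nlinarith
          linarith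
  have hMv : M ≤ a + 5 / 2 * h * M := by
    have h1' := (abs_sub _ _).trans (add_le_add (hall fun i => x i + y i) (hall fun i => x i - y i))
    rw [← hdiff, abs_mul, abs_of_pos (by norm_num : (0 : ℝ) < 4), ← mul_add] at h1'
    have h2 := mul_le_mul_of_nonneg_left hxy (abs_nonneg (goeForm g us))
    have h3 := abs_sub_abs_le_abs_sub (goeForm g us) (goeForm g v)
    linarith [hN v hv]
  intro u
  by_cases hneg : 1 - 5 / 2 * h ≤ 0
  · have ha : 0 ≤ a := (abs_nonneg _).trans (hN v hv)
    exact (mul_nonpos_of_nonpos_of_nonneg hneg (abs_nonneg _)).trans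
      (mul_nonneg ha (sum_nonneg fun _ _ => sq_nonneg _))
  calc (1 - 5 / 2 * h) * |goeForm g u| ≤ (1 - 5 / 2 * h) * (M * ∑ i, u i ^ 2) :=
        mul_le_mul_of_nonneg_left (hall u) (le_of_not_ge hneg)
    _ ≤ a * ∑ i, u i ^ 2 := by
        rw [← mul_assoc]
        exact mul_le_mul_of_nonneg_right (by linarith) (sum_nonneg fun _ _ => sq_nonneg _)

lemma row_tail (hn : 0 < n) {x : ℝ} (hx0 : 0 < x) (hx1 : x ≤ 1) (i : Fin n) :
    (gauss (Sym2 (Fin n))).real
        {g | (1 + x) * n < ∑ j, if i = j then 0 else g s(i, j) ^ 2} ≤ exp (-(x ^ 2 / 24) * n) := by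
  classical
  set s := x / 8 with hs
  set T := (univ.filter fun j => ¬i = j).image fun j => s(i, j) with hT
  have hinj : Set.InjOn (fun j => s(i, j)) ↑(univ.filter fun j => ¬i = j : Finset (Fin n)) :=
    fun a _ b _ hab => by
      simp only [Sym2.eq_iff, true_and] at hab
      rcases hab with h | ⟨h1, h2⟩
      · exact h
      · rw [h2, h1]
  obtain ⟨hi, hle⟩ := integral_exp_quad_le (fun p => if p ∈ T then s else 0)
    (show s < 1 / 2 by rw [hs]; linarith) fun p => by split_ifs <;> simp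
  have hsum : ∀ f : Sym2 (Fin n) → ℝ, ∑ p, (if p ∈ T then s else 0) * f p =
      s * ∑ j, if i = j then 0 else f s(i, j) := fun f => by
    simp only [ite_mul, zero_mul, sum_ite_mem, univ_inter, ← mul_sum, hT, sum_image hinj,
      sum_filter, ite_not]
  refine (measureReal_le_of_exp (a := s * ((1 + x) * n)) hi hle fun g hg => ?_).trans
    (exp_le_exp.2 ?_)
  · rw [hsum fun p => g p ^ 2]
    exact mul_le_mul_of_nonneg_left (le_of_lt hg) (by positivity)
  · have hc : ∑ p, (if p ∈ T then s else 0) ≤ s * n := by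
      have hsT := hsum fun _ => 1
      simp only [mul_one] at hsT
      rw [hsT]
      refine mul_le_mul_of_nonneg_left ?_ (by positivity)
      calc (∑ j, if i = j then (0 : ℝ) else 1) ≤ ∑ _j : Fin n, (1 : ℝ) :=
            sum_le_sum fun j _ => by split_ifs <;> norm_num
        _ = n := by simp
    have hn' : (0 : ℝ) < n := by exact_mod_cast hn
    have hden : 0 < 1 - 2 * s := by rw [hs]; linarith
    have hinv : (∑ p, (if p ∈ T then s else 0)) / (1 - 2 * s) ≤ s * n * (1 + 4 * s) := by
      rw [div_le_iff₀ hden]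
      refine hc.trans (le_mul_of_one_le_right (by positivity) ?_ |>.trans_eq (mul_assoc _ _ _).symm)
      rw [hs]; nlinarith
    rw [hs] at hinv ⊢
    nlinarith [mul_pos (mul_pos hx0 hx0) hn']

lemma entry_tail (x : ℝ) (p : Sym2 (Fin n)) :
    (gauss (Sym2 (Fin n))).real {g | x * √n < |g p|} ≤
      exp (1 / 2) * exp (-(x ^ 2 / 4) * n) ∨ x ≤ 0 := by
  classical
  rcases le_or_gt x 0 with hx | hx
  · exact Or.inr hx
  left
  obtain ⟨hi, hle⟩ := integral_exp_quad_le (fun q => if q = p then (1 / 4 : ℝ) else 0)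
    (show (1 / 4 : ℝ) < 1 / 2 by norm_num) fun q => by split_ifs <;> simp
  refine (measureReal_le_of_exp (a := 1 / 4 * (x * √n) ^ 2) hi hle fun g hg => ?_).trans_eq ?_
  · simp only [ite_mul, zero_mul, sum_ite_eq', Finset.mem_univ, if_true]
    rw [← sq_abs (g p)]
    exact mul_le_mul_of_nonneg_left (pow_le_pow_left₀ (by positivity) (le_of_lt hg) 2)
      (by norm_num)
  · rw [sum_ite_eq', if_pos (Finset.mem_univ p), ← exp_add, mul_pow,
      Real.sq_sqrt (Nat.cast_nonneg n)]
    ring_nf

/-- Typical disorders have norm at most `2 + ε`, rows of square sum at most `1 + ε` and no large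
entry, all at the natural scale. -/
theorem tendsto_typical {ε : ℝ} (hε : 0 < ε) :
    Tendsto (fun n : ℕ => (disorderLaw n).real
      {g | (∀ u : Fin n → ℝ, |∑ i, ∑ j, (if i = j then 0 else g s(i, j)) * u i * u j| ≤
            (2 + ε) * Real.sqrt n * ∑ i, u i ^ 2) ∧
          (∀ i, ∑ j, (if i = j then 0 else g s(i, j) ^ 2) ≤ (1 + ε) * n) ∧
          ∀ i j, i ≠ j → |g s(i, j)| ≤ ε * Real.sqrt n}) atTop (𝓝 1) := by
  classical
  set x := min (ε / 10) (1 / 20) with hx
  have hx0 : 0 < x := lt_min (by linarith) (by norm_num)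
  have hx1 : x ≤ 1 / 20 := min_le_right _ _
  have hxε : 10 * x ≤ ε := by have := min_le_left (ε / 10) (1 / 20 : ℝ); linarith
  obtain ⟨Cn, hCn, hnet⟩ := exists_net hx0 (hx1.trans (by norm_num))
  set d := x / 8 with hd
  have hd0 : 0 < d := by positivity
  set θ := min 1 (d * x / (4 * (Cn + 1))) with hθ
  have hθ0 : 0 < θ := lt_min one_pos (by positivity)
  have hθC : θ * Cn ≤ d * x / 4 := by
    calc θ * Cn ≤ d * x / (4 * (Cn + 1)) * (Cn + 1) :=
          mul_le_mul (min_le_right _ _) (by linarith) hCn (by positivity)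
      _ = d * x / 4 := by field_simp
  set rate := min (d * x / 4) (min (x ^ 2 / 24) (x ^ 2 / 4))
  have hrate : 0 < rate := lt_min (by positivity) (lt_min (by positivity) (by positivity))
  set bd : ℕ → ℝ := fun n => (2 + n + 2 * n ^ 2) * exp (-rate * n)
  have hbound : ∀ n : ℕ, 0 < n → 1 - bd n ≤ (disorderLaw n).real
      {g | (∀ u : Fin n → ℝ, |∑ i, ∑ j, (if i = j then 0 else g s(i, j)) * u i * u j| ≤
            (2 + ε) * Real.sqrt n * ∑ i, u i ^ 2) ∧
          (∀ i, ∑ j, (if i = j then 0 else g s(i, j) ^ 2) ≤ (1 + ε) * n) ∧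
          ∀ i j, i ≠ j → |g s(i, j)| ≤ ε * Real.sqrt n} := by
    intro n hn
    obtain ⟨N, hNne, hcard, hunit, hcov⟩ := hnet n hn
    have hlaw : disorderLaw n = gauss (Sym2 (Fin n)) := rfl
    rw [hlaw]
    set A : ℝ → Set (Disorder n) := fun sg => {g | ∃ v ∈ N, (2 + x) * √n < sg * goeForm g v}
    set Bi : Fin n → Set (Disorder n) :=
      fun i => {g | (1 + x) * n < ∑ j, if i = j then 0 else g s(i, j) ^ 2}
    set Dp : Fin n × Fin n → Set (Disorder n) := fun q => {g | x * √n < |g s(q.1, q.2)|}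
    set bad := A 1 ∪ A (-1) ∪ (⋃ i, Bi i) ∪ ⋃ q, Dp q
    set good := {g : Disorder n |
          (∀ u : Fin n → ℝ, |∑ i, ∑ j, (if i = j then 0 else g s(i, j)) * u i * u j| ≤
            (2 + ε) * Real.sqrt n * ∑ i, u i ^ 2) ∧
          (∀ i, ∑ j, (if i = j then 0 else g s(i, j) ^ 2) ≤ (1 + ε) * n) ∧
          ∀ i j, i ≠ j → |g s(i, j)| ≤ ε * Real.sqrt n}
    have hsn : 0 ≤ √(n : ℝ) := Real.sqrt_nonneg _
    have hsub : badᶜ ⊆ good := by
      intro g hg
      simp only [bad, A, Bi, Dp, Set.mem_compl_iff, Set.mem_union, Set.mem_iUnion,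
        Set.mem_ofPred_eq, not_or, not_exists, not_and, not_lt] at hg
      obtain ⟨⟨⟨hp, hm⟩, hrow⟩, hent⟩ := hg
      refine ⟨fun u => ?_, fun i => (hrow i).trans (by gcongr; linarith),
        fun i j _ => (hent (i, j)).trans (by gcongr; linarith)⟩
      have hform := form_le_of_net hn g N hx0 hunit hcov
        (a := (2 + x) * √n) (fun v hv => abs_le.2 ⟨by linarith [hm v hv], by linarith [hp v hv]⟩) u
      have hsplit : ∑ i, ∑ j, (if i = j then 0 else g s(i, j)) * u i * u j =
          goeForm g u - ∑ i, √2 * g s(i, i) * u i ^ 2 := by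
        simp only [goeForm, ← sum_sub_distrib]
        refine sum_congr rfl fun i _ => ?_
        rw [eq_sub_iff_add_eq, show √2 * g s(i, i) * u i ^ 2 =
            (∑ j, if i = j then √2 * g s(i, j) * u i * u j else 0) by simp; ring,
          ← sum_add_distrib]
        refine sum_congr rfl fun j _ => ?_
        unfold cw
        split_ifs <;> ring
      have hdiag : |∑ i, √2 * g s(i, i) * u i ^ 2| ≤ 2 * (x * √n) * ∑ i, u i ^ 2 := by
        rw [mul_sum]
        refine (abs_sum_le_sum_abs _ _).trans (sum_le_sum fun i _ => ?_)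
        rw [abs_mul, abs_mul, abs_of_nonneg (Real.sqrt_nonneg _), abs_of_nonneg (sq_nonneg (u i))]
        refine mul_le_mul_of_nonneg_right (mul_le_mul ?_ (hent (i, i)) (abs_nonneg _) (by norm_num))
          (sq_nonneg _)
        rw [Real.sqrt_le_left] <;> norm_num
      set S := ∑ i, u i ^ 2
      have hS : 0 ≤ S := sum_nonneg fun _ _ => sq_nonneg _
      have hk : (2 + x) * √n * S ≤ (1 - 5 / 2 * x) * ((2 + 8 * x) * √n * S) := by
        rw [← mul_assoc, ← mul_assoc]
        refine mul_le_mul_of_nonneg_right (mul_le_mul_of_nonneg_right ?_ hsn) hS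
        nlinarith
      have hgoe : |goeForm g u| ≤ (2 + 8 * x) * √n * S :=
        le_of_mul_le_mul_left (hform.trans hk) (by linarith)
      rw [hsplit]
      refine (abs_sub _ _).trans ((add_le_add hgoe hdiag).trans ?_)
      have := mul_le_mul_of_nonneg_right hxε (mul_nonneg hsn hS)
      linarith
    have hn0 : (0 : ℝ) ≤ n := Nat.cast_nonneg n
    have hexp : ∀ c, rate ≤ c → exp (-c * n) ≤ exp (-rate * n) := fun c hc => by
      rw [exp_le_exp]
      exact mul_le_mul_of_nonneg_right (by linarith) hn0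
    have hA : ∀ sg : ℝ, sg ^ 2 = 1 → (gauss (Sym2 (Fin n))).real (A sg) ≤ exp (-rate * n) := by
      intro sg hsg
      refine (net_tail hn N hNne hunit hθ0 (min_le_left _ _) hd0 (by rw [hd]; linarith) hcard
        (2 + x) sg hsg).trans (le_trans (le_of_eq ?_) (hexp
          (-(θ * Cn + d + d / (1 - 2 * d) - d * (2 + x))) ((min_le_left _ _).trans ?_)))
      · ring_nf
      · have h2 : d / (1 - 2 * d) ≤ d * (1 + 4 * d) := by
          rw [div_le_iff₀ (by rw [hd]; linarith), mul_assoc]
          refine le_mul_of_one_le_right hd0.le ?_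
          rw [hd]; nlinarith
        have h3 : 4 * d ^ 2 = d * x / 2 := by rw [hd]; ring
        linarith
    have hB : ∀ i, (gauss (Sym2 (Fin n))).real (Bi i) ≤ exp (-rate * n) := fun i =>
      (row_tail hn hx0 (hx1.trans (by norm_num)) i).trans
        (hexp _ ((min_le_right _ _).trans (min_le_left _ _)))
    have hD : ∀ q, (gauss (Sym2 (Fin n))).real (Dp q) ≤ 2 * exp (-rate * n) := fun q => by
      refine ((entry_tail x s(q.1, q.2)).resolve_right (not_le.2 hx0)).trans
        (mul_le_mul ?_ (hexp _ ((min_le_right _ _).trans (min_le_right _ _))) (exp_pos _).le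
          (by norm_num))
      exact (exp_le_exp.2 (show (1 / 2 : ℝ) ≤ log 2 by linarith [Real.log_two_gt_d9])).trans_eq
        (exp_log two_pos)
    have hbad : (gauss (Sym2 (Fin n))).real bad ≤ bd n := by
      refine (measureReal_union_le _ _).trans (le_trans (add_le_add
        ((measureReal_union_le _ _).trans (add_le_add ((measureReal_union_le _ _).trans
          (add_le_add (hA 1 (by norm_num)) (hA (-1) (by norm_num))))
          ((measureReal_iUnion_fintype_le _).trans (sum_le_sum fun i _ => hB i))))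
        ((measureReal_iUnion_fintype_le _).trans (sum_le_sum fun q _ => hD q))) (le_of_eq ?_))
      simp only [bd, sum_const, card_univ, Fintype.card_fin, Fintype.card_prod, nsmul_eq_mul]
      push_cast
      ring
    have hun : 1 ≤ (gauss (Sym2 (Fin n))).real good + (gauss (Sym2 (Fin n))).real bad := by
      calc (1 : ℝ) = (gauss (Sym2 (Fin n))).real Set.univ := by simp
        _ ≤ (gauss (Sym2 (Fin n))).real (good ∪ bad) := measureReal_mono fun g _ => by
            by_cases hb : g ∈ bad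
            · exact Or.inr hb
            · exact Or.inl (hsub hb)
        _ ≤ _ := measureReal_union_le _ _
    linarith
  have hlim : Tendsto bd atTop (𝓝 0) := by
    have hr1 : ‖exp (-rate)‖ < 1 := by
      rw [Real.norm_eq_abs, abs_exp, exp_lt_one_iff]; linarith
    have e : bd = fun n : ℕ => 2 * ((n : ℝ) ^ 0 * exp (-rate) ^ n) +
        (n : ℝ) ^ 1 * exp (-rate) ^ n + 2 * ((n : ℝ) ^ 2 * exp (-rate) ^ n) := by
      funext n
      simp only [bd, ← exp_nat_mul]
      ring_nf
    have h := fun k => tendsto_pow_const_mul_const_pow_of_abs_lt_one k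
      (by rwa [← Real.norm_eq_abs] : |exp (-rate)| < 1)
    rw [e]
    simpa using (((h 0).const_mul 2).add (h 1)).add ((h 2).const_mul 2)
  have hle1 : ∀ n (A : Set (Disorder n)), (disorderLaw n).real A ≤ 1 := fun n A => by
    have : IsProbabilityMeasure (disorderLaw n) := by unfold disorderLaw; infer_instance
    exact measureReal_le_one
  refine tendsto_of_tendsto_of_tendsto_of_le_of_le' (by simpa using tendsto_const_nhds.sub hlim
    : Tendsto (fun n => 1 - bd n) atTop (𝓝 1)) tendsto_const_nhds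
    ((eventually_gt_atTop 0).mono fun n hn => hbound n hn) (.of_forall fun n => hle1 n _)

end

end Vale.Agent.P150.High
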