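import Vale.Agent.P150.High.Semigroup
import Vale.Agent.P150.High.Bochner

/-!
A gradient bound for the semigroup, and the local Poincaré inequality it gives.
-/

namespace Vale.Agent.P150.High

open Finset Matrix

noncomputable section

variable {n : ℕ} {J : Fin n → Fin n → ℝ} {b : Fin n → ℝ}

/-- `D_i m_j`. -/
def dmean (J : Fin n → Fin n → ℝ) (b : Fin n → ℝ) (i j : Fin n) (x : Cube n) : ℝ :=
  if i = j then 0 else deriv' (mean J b j) i x

theorem deriv_generator (hJ : IsCoupling J) (G : Cube n → ℝ) (i : Fin n) (x : Cube n) :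
    deriv' (generator (ising J b) *ᵥ G) i x =
      (generator (ising J b) *ᵥ deriv' G i) x - deriv' G i x +
        ∑ j, dmean J b i j x * (deriv' G j x - 2 * spin (x i) * deriv' (deriv' G i) j x) := by
  simp only [deriv', generator_eq hJ, ← sum_neg_distrib, ← sum_sub_distrib, sum_div]
  have hi : deriv' G i x = ∑ j, if j = i then deriv' G i x else 0 := by simp
  rw [show (G (Function.update x i true) - G (Function.update x i false)) / 2 = deriv' G i x from rfl,
    hi, ← sum_sub_distrib, ← sum_add_distrib]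
  refine sum_congr rfl fun j _ => ?_
  by_cases h : j = i
  · subst h
    simp only [deriv', dmean, if_true, mean, field_update_self hJ, Function.update_self,
      Function.update_idem, spin]
    norm_num
    ring
  · have h' : ¬i = j := fun e => h e.symm
    simp only [deriv', dmean, if_neg h, if_neg h', Function.update_of_ne h,
      Function.update_comm h, mean]
    have he := Function.update_eq_self i x
    have hcomm : ∀ c d, Function.update (Function.update x i c) j d =
        Function.update (Function.update x j d) i c := fun c d => (Function.update_comm h d c x).symm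
    cases hc : x i
    · rw [hc] at he
      simp only [hcomm, he, spin, Bool.false_eq_true, if_false]
      ring
    · rw [hc] at he
      simp only [hcomm, he, spin, if_true]
      ring

theorem dmean_bound (hJ : IsCoupling J) (i j : Fin n) (hsmall : |J i j| ≤ 1 / 80) (x : Cube n) :
    |dmean J b i j x - J i j * cvar J b j x| ≤ 4 * J i j ^ 2 * cvar J b j x ∧
      |dmean J b i j x| ≤ 2 * |J i j| * cvar J b j x := by
  obtain ⟨v0, -⟩ := cvar_nonneg J b j x
  by_cases h : i = j
  · subst h; simp [dmean, hJ.diag]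
  set w := J i j with hw
  set a := spin (x i) with ha
  set hj := field J b j x with hhj
  set m := Real.tanh hj with hm
  set T := Real.tanh (-(2 * a) * w) with hT
  have ha2 : a ^ 2 = 1 := spin_sq _
  have habs : |a| = 1 := by
    rw [← sq_eq_sq₀ (abs_nonneg _) zero_le_one, sq_abs, one_pow, ha2]
  have hw2 : |-(2 * a) * w| = 2 * |w| := by simp [abs_mul, habs]
  have hT1 : |T - -(2 * a) * w| ≤ w ^ 2 := by
    refine (Pair.tanh_bound (by rw [hw2]; linarith)).trans ?_
    rw [hw2, mul_pow, ← sq_abs w]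
    nlinarith [mul_le_mul_of_nonneg_left hsmall (sq_nonneg |w|), abs_nonneg w]
  have hT2 : |T| ≤ 3 * |w| := by
    have h1 := abs_sub_abs_le_abs_sub T (-(2 * a) * w)
    rw [hw2] at h1
    have : w ^ 2 ≤ |w| := by rw [← sq_abs]; nlinarith [abs_nonneg w]
    linarith
  have hmT : |m * T| ≤ 3 * |w| := by
    rw [abs_mul]
    exact (mul_le_of_le_one_left (abs_nonneg _) (Real.abs_tanh_lt_one hj).le).trans hT2
  have hD : (9 : ℝ) / 10 ≤ 1 + m * T := by linarith [(abs_le.1 hmT).1]
  have e : dmean J b i j x = -(a * T) / (2 * (1 + m * T)) * cvar J b j x := by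
    have h1 := Real.cosh_pos hj
    have key : Real.tanh (hj + -(2 * a) * w) = (m + T) / (1 + m * T) := by
      have h2 := Real.cosh_pos (-(2 * a) * w)
      have h3 := Real.cosh_pos (hj + -(2 * a) * w)
      rw [hm, hT]
      simp only [Real.tanh_eq_sinh_div_cosh]
      rw [Real.sinh_add, Real.cosh_add]
      rw [Real.cosh_add] at h3
      have := h1.ne'; have := h2.ne'; have := h3.ne'
      field_simp
    have hf : ∀ c, field J b j (Function.update x i c) = hj + w * (spin c - a) := fun c => by
      rw [field_update, hJ.symm j i]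
    rw [dmean, if_neg h]
    simp only [deriv', mean, hf, cvar, ← hhj]
    cases hc : x i
    · have hav : a = -1 := by rw [ha, hc]; rfl
      rw [hav] at key ⊢
      simp only [spin, Bool.false_eq_true, if_false, if_true]
      rw [show hj + w * (1 - -1) = hj + -(2 * -1) * w by ring, key,
        show hj + w * (-1 - -1) = hj by ring, ← hm]
      field_simp
      ring
    · have hav : a = 1 := by rw [ha, hc]; rfl
      rw [hav] at key ⊢
      simp only [spin, Bool.false_eq_true, if_false, if_true]
      rw [show hj + w * (-1 - 1) = hj + -(2 * 1) * w by ring, key,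
        show hj + w * (1 - 1) = hj by ring, ← hm]
      field_simp
      ring
  have hc : |-(a * T) / (2 * (1 + m * T)) - w| ≤ 4 * w ^ 2 := by
    rw [div_sub' (by linarith : 2 * (1 + m * T) ≠ 0), abs_div,
      abs_of_pos (by linarith : 0 < 2 * (1 + m * T)), div_le_iff₀ (by linarith)]
    rw [show -(a * T) - 2 * (1 + m * T) * w = -a * (T - -(2 * a) * w) + -(2 * w * (m * T)) by
      linear_combination (2 * w) * ha2]
    refine (abs_add_le _ _).trans ?_
    rw [abs_mul, abs_neg, habs, one_mul, abs_neg, abs_mul, abs_mul, abs_two]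
    have i1 := mul_le_mul_of_nonneg_left hmT (by positivity : 0 ≤ 2 * |w|)
    have i2 := mul_le_mul_of_nonneg_left hD (sq_nonneg w)
    have i3 : |w| * |w| = w ^ 2 := by rw [← sq, sq_abs]
    nlinarith [sq_nonneg w]
  rw [e, ← sub_mul, abs_mul, abs_mul, abs_of_nonneg v0]
  refine ⟨mul_le_mul_of_nonneg_right hc v0, mul_le_mul_of_nonneg_right ?_ v0⟩
  have h1 := abs_sub_abs_le_abs_sub (-(a * T) / (2 * (1 + m * T))) w
  have : 4 * w ^ 2 ≤ |w| := by rw [← sq_abs]; nlinarith [abs_nonneg w]
  linarith

theorem bilinear_le (hJ : IsCoupling J) {lam : ℝ} (hlam : NormLe J lam) (u w : Fin n → ℝ) :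
    2 * ∑ i, ∑ j, J i j * u i * w j ≤ lam * (∑ i, u i ^ 2 + ∑ i, w i ^ 2) := by
  have h1 := le_of_abs_le (hlam fun i => u i + w i)
  have h2 := neg_le_of_abs_le (hlam fun i => u i - w i)
  have e : ∑ i, ∑ j, J i j * w i * u j = ∑ i, ∑ j, J i j * u i * w j := by
    rw [sum_comm]
    exact sum_congr rfl fun i _ => sum_congr rfl fun j _ => by rw [hJ.symm j i]; ring
  simp only [mul_add, add_mul, mul_sub, sub_mul, sum_add_distrib, sum_sub_distrib] at h1 h2
  simp only [add_sq, sub_sq, mul_add, mul_sub, sum_add_distrib, sum_sub_distrib] at h1 h2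
  rw [mul_add]
  linarith

/-- `Γ` of the gradient absorbs the commutator. -/
theorem grad_deriv_le (hJ : IsCoupling J) {lam s : ℝ} (hlam : NormLe J lam)
    (hrow : ∀ i, ∑ j, J i j ^ 2 ≤ s) (hsmall : ∀ i j, |J i j| ≤ 1 / 80) (G : Cube n → ℝ)
    (x : Cube n) :
    ∑ i, 2 * deriv' G i x * deriv' (generator (ising J b) *ᵥ G) i x ≤
      (generator (ising J b) *ᵥ fun y => ∑ i, deriv' G i y ^ 2) x +
        (2 * lam + 24 * s) * ∑ i, deriv' G i x ^ 2 := by
  set μ := ising J b with hμ
  set g := fun i => deriv' G i x with hg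
  set d := fun i j => deriv' (deriv' G i) j x with hd
  set v := fun j => cvar J b j x with hv
  have hlin : (generator μ *ᵥ fun y => ∑ i, deriv' G i y ^ 2) x =
      ∑ i, (generator μ *ᵥ fun y => deriv' G i y ^ 2) x := by
    simp only [Matrix.mulVec, dotProduct, mul_sum]
    exact sum_comm
  have hq : ∀ i j, v j * d i j ^ 2 ≤
      flipProb μ j x * (deriv' G i (flipAt j x) - deriv' G i x) ^ 2 := by
    intro i j
    have hm := Real.abs_tanh_lt_one (field J b j x)
    have hq0 : v j ≤ 2 * (1 - spin (x j) * mean J b j x) := by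
      simp only [hv, cvar]
      nlinarith [sq_nonneg (spin (x j) * mean J b j x - 1), spin_sq (x j)]
    rw [hμ, flipProb_ising hJ, sub_flip_eq, mul_pow, neg_sq, mul_pow, spin_sq]
    have := mul_le_mul_of_nonneg_right hq0 (sq_nonneg (d i j))
    simp only [hd] at this ⊢
    linarith
  have hterm : ∀ i j, 2 * g i * (dmean J b i j x * (g j - 2 * spin (x i) * d i j)) ≤
      2 * (J i j * g i * (v j * g j)) + 20 * J i j ^ 2 * g i ^ 2 + 4 * J i j ^ 2 * g j ^ 2 +
        v j * d i j ^ 2 := by
    intro i j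
    obtain ⟨h1, h2⟩ := dmean_bound (b := b) hJ i j (hsmall i j) x
    obtain ⟨v0, v1⟩ := cvar_nonneg J b j x
    change |_ - J i j * v j| ≤ 4 * J i j ^ 2 * v j at h1
    change |_| ≤ 2 * |J i j| * v j at h2
    have a1 : 2 * g i * ((dmean J b i j x - J i j * v j) * g j) ≤
        4 * J i j ^ 2 * (g i ^ 2 + g j ^ 2) := by
      refine (le_abs_self _).trans ?_
      rw [abs_mul, abs_mul, abs_mul, abs_two]
      calc 2 * |g i| * (|dmean J b i j x - J i j * v j| * |g j|)
          ≤ 2 * |g i| * (4 * J i j ^ 2 * |g j|) := by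
            refine mul_le_mul_of_nonneg_left (mul_le_mul_of_nonneg_right (h1.trans ?_) (abs_nonneg _))
              (by positivity)
            exact mul_le_of_le_one_right (by positivity) v1
        _ ≤ _ := by
            have := mul_le_mul_of_nonneg_left (two_mul_le_add_sq |g i| |g j|)
              (by positivity : 0 ≤ 4 * J i j ^ 2)
            simp only [sq_abs] at this
            linarith
    have a2 : -(4 * g i * (dmean J b i j x * spin (x i) * d i j)) ≤
        16 * J i j ^ 2 * g i ^ 2 + v j * d i j ^ 2 := by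
      refine (neg_le_abs _).trans ?_
      have hs : |spin (x i)| = 1 := by cases x i <;> simp [spin]
      rw [abs_mul, abs_mul, abs_mul, abs_mul, hs, mul_one,
        abs_of_pos (by norm_num : (0 : ℝ) < 4)]
      calc 4 * |g i| * (|dmean J b i j x| * |d i j|)
          ≤ 4 * |g i| * (2 * |J i j| * v j * |d i j|) := by gcongr
        _ ≤ v j * (16 * J i j ^ 2 * g i ^ 2 + d i j ^ 2) := by
            have := mul_le_mul_of_nonneg_left
              (two_mul_le_add_sq (4 * |J i j| * |g i|) |d i j|) v0
            simp only [mul_pow, sq_abs] at this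
            norm_num at this
            linarith
        _ ≤ _ := by
            rw [mul_add]
            have : v j * (16 * J i j ^ 2 * g i ^ 2) ≤ 16 * J i j ^ 2 * g i ^ 2 :=
              mul_le_of_le_one_left (by positivity) v1
            linarith
    linarith
  have hsum := sum_le_sum fun i (_ : i ∈ (univ : Finset (Fin n))) =>
    sum_le_sum fun j (_ : j ∈ (univ : Finset (Fin n))) => hterm i j
  have hG := sum_le_sum fun i (_ : i ∈ (univ : Finset (Fin n))) =>
    sum_le_sum fun j (_ : j ∈ (univ : Finset (Fin n))) => hq i j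
  have hbil : 2 * ∑ i, ∑ j, J i j * g i * (v j * g j) ≤ 2 * lam * ∑ i, g i ^ 2 := by
    have h := bilinear_le hJ hlam g (fun j => v j * g j)
    have hl : lam * ∑ i, (v i * g i) ^ 2 ≤ lam * ∑ i, g i ^ 2 := by
      rcases isEmpty_or_nonempty (Fin n) with hn | ⟨⟨i₀⟩⟩
      · simp
      have hl0 : 0 ≤ lam := by
        have := hlam fun l => if l = i₀ then 1 else 0
        simp at this
        linarith [abs_nonneg (J i₀ i₀)]
      refine mul_le_mul_of_nonneg_left (sum_le_sum fun i _ => ?_) hl0
      rw [mul_pow]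
      exact mul_le_of_le_one_left (sq_nonneg _)
        (pow_le_one₀ (cvar_nonneg J b i x).1 (cvar_nonneg J b i x).2)
    rw [mul_add] at h
    linarith
  have hr1 : ∑ i, ∑ j, J i j ^ 2 * g i ^ 2 ≤ s * ∑ i, g i ^ 2 := by
    rw [mul_sum]
    refine sum_le_sum fun i _ => ?_
    rw [← sum_mul]
    exact mul_le_mul_of_nonneg_right (hrow i) (sq_nonneg _)
  have hr2 : ∑ i, ∑ j, J i j ^ 2 * g j ^ 2 ≤ s * ∑ i, g i ^ 2 := by
    rw [sum_comm, mul_sum]
    refine sum_le_sum fun i _ => ?_
    rw [← sum_mul]
    refine mul_le_mul_of_nonneg_right ?_ (sq_nonneg _)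
    exact le_of_eq_of_le (sum_congr rfl fun j _ => by rw [hJ.symm j i]) (hrow i)
  have hlhs : ∀ i, 2 * g i * deriv' (generator μ *ᵥ G) i x =
      2 * g i * (generator μ *ᵥ deriv' G i) x - 2 * g i ^ 2 +
        ∑ j, 2 * g i * (dmean J b i j x * (g j - 2 * spin (x i) * d i j)) := by
    intro i
    rw [hμ, deriv_generator hJ, mul_add, mul_sum]
    simp only [hg, hd]
    ring
  have hrhs : ∀ i, (generator μ *ᵥ fun y => deriv' G i y ^ 2) x =
      2 * g i * (generator μ *ᵥ deriv' G i) x +
        ∑ j, flipProb μ j x * (deriv' G i (flipAt j x) - deriv' G i x) ^ 2 :=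
    fun i => generator_sq μ _ x
  change ∑ i, 2 * g i * deriv' (generator μ *ᵥ G) i x ≤
    _ + (2 * lam + 24 * s) * ∑ i, g i ^ 2
  rw [hlin, sum_congr rfl fun i _ => hlhs i, sum_congr rfl fun i _ => hrhs i]
  simp only [sum_add_distrib, sum_sub_distrib, ← mul_sum, mul_assoc] at hsum hG hbil hr1 hr2 ⊢
  have h0 : 0 ≤ ∑ i, g i ^ 2 := sum_nonneg fun i _ => sq_nonneg _
  linarith

theorem deriv_linear (u : Fin n → ℝ) (i : Fin n) (x : Cube n) :
    deriv' (fun y => ∑ l, u l * spin (y l)) i x = u i := by
  simp only [deriv', ← sum_sub_distrib, sum_div]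
  rw [sum_eq_single i (fun l _ hl => by simp [Function.update_of_ne hl]) (by simp)]
  simp [spin]

/-- Local Poincaré inequality for linear statistics, with an exponential rate. -/
theorem local_variance (hJ : IsCoupling J) {lam s : ℝ} (hlam : NormLe J lam)
    (hrow : ∀ i, ∑ j, J i j ^ 2 ≤ s) (hsmall : ∀ i j, |J i j| ≤ 1 / 80) (hs : 0 ≤ lam) (hs' : 0 ≤ s)
    {t : ℝ} (ht : 0 ≤ t) (u : Fin n → ℝ) (x : Cube n) :
    semi (ising J b) t (fun y => (∑ i, u i * spin (y i)) ^ 2) x -
        semi (ising J b) t (fun y => ∑ i, u i * spin (y i)) x ^ 2 ≤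
      Real.exp ((2 * lam + 24 * s + 4) * t) * ∑ i, u i ^ 2 := by
  set μ := ising J b with hμ
  have hpos : ∀ y, 0 < μ y := ising_pos J b
  set F := fun y : Cube n => ∑ i, u i * spin (y i) with hF
  set S := fun r => semi μ r (fun y => F y ^ 2) with hS
  set G := fun r => semi μ r F with hG
  set H := fun r y => ∑ i, deriv' (G r) i y ^ 2 with hH
  set Φ := fun r y => S r y - G r y ^ 2 + H r y with hΦ
  have hd : ∀ r y, HasDerivAt (fun q => Φ q y)
      ((generator μ *ᵥ S r) y - 2 * G r y * (generator μ *ᵥ G r) y +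
        ∑ i, 2 * deriv' (G r) i y * deriv' (generator μ *ᵥ G r) i y) r := by
    intro r y
    refine (((hasDerivAt_semi μ _ r y).fun_sub ((hasDerivAt_semi μ F r y).fun_pow 2)).fun_add
      (HasDerivAt.fun_sum fun i _ => ?_)).congr_deriv (by push_cast; ring)
    refine ((((hasDerivAt_semi μ F r _).fun_sub (hasDerivAt_semi μ F r _)).div_const 2).fun_pow
      2).congr_deriv ?_
    simp only [deriv', hG]
    push_cast
    ring
  have hle : ∀ r ∈ Set.Icc 0 t, ∀ y,
      (generator μ *ᵥ S r) y - 2 * G r y * (generator μ *ᵥ G r) y +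
        ∑ i, 2 * deriv' (G r) i y * deriv' (generator μ *ᵥ G r) i y ≤
      (generator μ *ᵥ Φ r) y + (2 * lam + 24 * s + 4) * Φ r y := by
    intro r hr y
    have h1 := grad_deriv_le (b := b) hJ hlam hrow hsmall (G r) y
    have h2 : 0 ≤ S r y - G r y ^ 2 := sub_nonneg.2 (sq_semi_le hpos hr.1 F y)
    have h3 : ∑ j, flipProb μ j y * (G r (flipAt j y) - G r y) ^ 2 ≤ 4 * H r y := by
      rw [hH, mul_sum]
      refine sum_le_sum fun j _ => ?_
      rw [sub_flip_eq, mul_pow, neg_sq, mul_pow, spin_sq]
      calc flipProb μ j y * (2 ^ 2 * 1 * deriv' (G r) j y ^ 2)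
          ≤ 1 * (2 ^ 2 * 1 * deriv' (G r) j y ^ 2) :=
            mul_le_mul_of_nonneg_right (flipProb_mem hpos j y).2 (by positivity)
        _ = _ := by ring
    have h4 : (generator μ *ᵥ Φ r) y = (generator μ *ᵥ S r) y -
        (generator μ *ᵥ fun z => G r z ^ 2) y + (generator μ *ᵥ H r) y := by
      have : Φ r = (S r - fun z => G r z ^ 2) + H r := rfl
      rw [this, Matrix.mulVec_add, Matrix.mulVec_sub]
      rfl
    have h5 := generator_sq μ (G r) y
    have h6 : 0 ≤ H r y := sum_nonneg fun i _ => sq_nonneg _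
    have h7 : 0 ≤ (2 * lam + 24 * s + 4) * (S r y - G r y ^ 2) :=
      mul_nonneg (by linarith) h2
    change ∑ i, _ ≤ (generator μ *ᵥ H r) y + (2 * lam + 24 * s) * H r y at h1
    simp only [hΦ] at h4 ⊢
    linarith
  have h := semi_comparison hpos ht Φ _ hd hle x
  have h0 : Φ 0 = fun _ => ∑ i, u i ^ 2 := by
    funext y
    simp [hΦ, hS, hG, hH, hF, semi_zero, deriv_linear]
  rw [h0] at h
  have h8 : semi μ t (fun _ => ∑ i, u i ^ 2) x = ∑ i, u i ^ 2 := by
    have h1 := congrFun (semi_one μ t) x
    simp only [semi, Matrix.mulVec, dotProduct, mul_one] at h1 ⊢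
    rw [← sum_mul, h1, one_mul]
  rw [h8] at h
  have h6 : 0 ≤ H t x := sum_nonneg fun i _ => sq_nonneg _
  simp only [hΦ, hS, hG] at h
  linarith

end

end Vale.Agent.P150.High
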