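import Mathlib
import Vale.Agent.P150.Spectral
import Vale.Agent.P150.High.Defs

/-!
# P150: from a modified log-Sobolev inequality to mixing

The entropy of the halved-lazy density decays exponentially; Pinsker's inequality ends the proof.
-/

namespace Vale.Agent.P150.High

open Finset Matrix

noncomputable section

variable {n : ℕ}

/-- A rational lower bound for the logarithm. -/
theorem pade_le_log {h : ℝ} (hh : 0 < h) :
    (5 * h ^ 2 - 4 * h - 1) / (2 * h ^ 2 + 4 * h) ≤ Real.log h := by
  set g : ℝ → ℝ := fun y => Real.log y - (5 * y ^ 2 - 4 * y - 1) / (2 * y ^ 2 + 4 * y) with hg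
  have hd : ∀ y : ℝ, 0 < y →
      HasDerivAt g (4 * (y - 1) ^ 3 / (2 * y ^ 2 + 4 * y) ^ 2) y := by
    intro y hy
    have h1 := ((((hasDerivAt_pow 2 y).const_mul 5).sub ((hasDerivAt_id y).const_mul 4)).sub_const
      (1 : ℝ)).div (((hasDerivAt_pow 2 y).const_mul 2).add ((hasDerivAt_id y).const_mul 4))
      (show 2 * y ^ 2 + 4 * y ≠ 0 by positivity)
    refine ((Real.hasDerivAt_log hy.ne').sub h1).congr_deriv ?_
    simp only [Nat.cast_ofNat, Nat.add_one_sub_one, pow_one, mul_one, id_eq, Pi.sub_apply,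
      Pi.add_apply]
    field_simp
    ring
  have hg1 : g 1 = 0 := by simp [hg]; norm_num
  have hmain : 0 ≤ g h := by
    rcases le_total h 1 with hle | hge
    · have hanti : AntitoneOn g (Set.Icc h 1) := by
        refine antitoneOn_of_hasDerivWithinAt_nonpos
          (f' := fun y => 4 * (y - 1) ^ 3 / (2 * y ^ 2 + 4 * y) ^ 2) (convex_Icc _ _) ?_ ?_ ?_
        · exact fun y hy => (hd y (hh.trans_le hy.1)).continuousAt.continuousWithinAt
        · intro y hy
          rw [interior_Icc] at hy
          exact (hd y (hh.trans hy.1)).hasDerivWithinAt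
        · intro y hy
          rw [interior_Icc] at hy
          have : (y - 1) ^ 3 ≤ 0 := Odd.pow_nonpos (by decide) (by linarith [hy.2])
          exact div_nonpos_of_nonpos_of_nonneg (by linarith) (sq_nonneg _)
      have := hanti ⟨le_rfl, hle⟩ ⟨hle, le_rfl⟩ hle
      linarith
    · have hmono : MonotoneOn g (Set.Icc 1 h) := by
        refine monotoneOn_of_hasDerivWithinAt_nonneg
          (f' := fun y => 4 * (y - 1) ^ 3 / (2 * y ^ 2 + 4 * y) ^ 2) (convex_Icc _ _) ?_ ?_ ?_
        · exact fun y hy => (hd y (one_pos.trans_le hy.1)).continuousAt.continuousWithinAt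
        · intro y hy
          rw [interior_Icc] at hy
          exact (hd y (one_pos.trans hy.1)).hasDerivWithinAt
        · intro y hy
          rw [interior_Icc] at hy
          exact div_nonneg (mul_nonneg (by norm_num) (pow_nonneg (by linarith [hy.1]) 3))
            (sq_nonneg _)
      have := hmono ⟨le_rfl, hge⟩ ⟨hge, le_rfl⟩ hge
      linarith
  simp only [hg] at hmain
  linarith

theorem pinsker_pointwise {h : ℝ} (hh : 0 < h) :
    (h - 1) ^ 2 * (3 / (2 * (h + 2))) ≤ h * Real.log h - h + 1 := by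
  have := mul_le_mul_of_nonneg_left (pade_le_log hh) hh.le
  have he : h * ((5 * h ^ 2 - 4 * h - 1) / (2 * h ^ 2 + 4 * h))
      = (h - 1) ^ 2 * (3 / (2 * (h + 2))) + (h - 1) := by
    field_simp
    ring
  rw [he] at this
  linarith

/-- Pinsker's inequality for a density. -/
theorem pinsker {μ : Cube n → ℝ} (hpos : ∀ x, 0 < μ x) (hsum : ∑ x, μ x = 1) {h : Cube n → ℝ}
    (hh : ∀ x, 0 < h x) (hmean : ∑ x, μ x * h x = 1) :
    (∑ x, μ x * |h x - 1|) ^ 2 ≤ 2 * ∑ x, μ x * (h x * Real.log (h x)) := by
  have hcs : (∑ x, μ x * |h x - 1|) ^ 2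
      ≤ (∑ x, μ x * ((h x - 1) ^ 2 * (3 / (2 * (h x + 2))))) *
        ∑ x, μ x * (2 * (h x + 2) / 3) := by
    refine sum_sq_le_sum_mul_sum_of_sq_le_mul univ (fun x _ => ?_) (fun x _ => ?_) fun x _ => ?_
    · have := hh x; have := hpos x; positivity
    · have := hh x; have := hpos x; positivity
    · have := hh x
      refine le_of_eq ?_
      rw [mul_pow, sq_abs]
      field_simp
  have h2 : ∑ x, μ x * (2 * (h x + 2) / 3) = 2 := by
    calc ∑ x, μ x * (2 * (h x + 2) / 3) = ∑ x, (2 / 3 * (μ x * h x) + 4 / 3 * μ x) :=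
          sum_congr rfl fun x _ => by ring
      _ = 2 := by rw [sum_add_distrib, ← mul_sum, ← mul_sum, hmean, hsum]; norm_num
  rw [h2] at hcs
  refine hcs.trans ?_
  rw [mul_comm _ (2 : ℝ)]
  refine mul_le_mul_of_nonneg_left ?_ zero_le_two
  calc ∑ x, μ x * ((h x - 1) ^ 2 * (3 / (2 * (h x + 2))))
      ≤ ∑ x, μ x * (h x * Real.log (h x) - h x + 1) :=
        sum_le_sum fun x _ => mul_le_mul_of_nonneg_left (pinsker_pointwise (hh x)) (hpos x).le
    _ = _ := by simp only [mul_add, mul_sub, sum_add_distrib, sum_sub_distrib, hmean, mul_one,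
                  hsum]; ring

/-- Summation by parts for the generator. -/
theorem generator_form (μ : Cube n → ℝ) (f g : Cube n → ℝ) :
    ∑ x, μ x * g x * (generator μ *ᵥ f) x
      = -((1 / 2) * ∑ x, ∑ i, μ x * flipProb μ i x *
          ((f (flipAt i x) - f x) * (g (flipAt i x) - g x))) := by
  simp only [generator_mulVec μ f (fun _ => true), Finset.mul_sum, ← Finset.sum_neg_distrib]
  rw [Finset.sum_comm]
  conv_rhs => rw [Finset.sum_comm]
  refine Finset.sum_congr rfl fun i _ => ?_
  let e : Cube n ≃ Cube n := Function.Involutive.toPerm (flipAt i)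
    (fun z => by simp [flipAt, Function.update_idem])
  set F := fun x => μ x * g x * (flipProb μ i x * (f (flipAt i x) - f x)) with hFdef
  have hF : ∀ x, F (flipAt i x)
      = -(μ x * flipProb μ i x * g (flipAt i x) * (f (flipAt i x) - f x)) := by
    intro x
    have h : flipAt i (flipAt i x) = x := by simp [flipAt, Function.update_idem]
    simp only [F, h]
    linear_combination (g (flipAt i x) * (f x - f (flipAt i x))) * flux_eq μ i x
  have hsum : ∑ x, F x = ∑ x, F (flipAt i x) := (e.sum_comp F).symm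
  calc ∑ x, μ x * g x * (flipProb μ i x * (f (flipAt i x) - f x))
      = 1 / 2 * (∑ x, F x + ∑ x, F (flipAt i x)) := by rw [← hsum, hFdef]; ring
    _ = _ := by
        rw [← Finset.sum_add_distrib, Finset.mul_sum]
        refine Finset.sum_congr rfl fun x _ => ?_
        rw [hF x]
        simp only [F]
        ring

theorem flipProb_mem {μ : Cube n → ℝ} (hpos : ∀ x, 0 < μ x) (i : Fin n) (x : Cube n) :
    0 ≤ flipProb μ i x ∧ flipProb μ i x ≤ 1 := by
  have h1 := hpos x
  have h2 := hpos (flipAt i x)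
  refine ⟨div_nonneg h2.le (by linarith), ?_⟩
  rw [flipProb, div_le_one (by linarith)]
  linarith

theorem flipAt_ne (i : Fin n) (x : Cube n) : flipAt i x ≠ x := fun h => by
  have := congrFun h i
  simp [flipAt] at this

open scoped Matrix.Norms.Operator in
/-- The semigroup has nonnegative entries. -/
theorem exp_generator_nonneg {μ : Cube n → ℝ} (hpos : ∀ x, 0 < μ x) {t : ℝ} (ht : 0 ≤ t)
    (x y : Cube n) : 0 ≤ NormedSpace.exp (t • generator μ) x y := by
  set A : Matrix (Cube n) (Cube n) ℝ := generator μ + (n : ℝ) • (1 : Matrix _ _ ℝ) with hA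
  have hA0 : ∀ a b, 0 ≤ A a b := by
    intro a b
    simp only [hA, Matrix.add_apply, Matrix.smul_apply, Matrix.one_apply, smul_eq_mul, generator]
    by_cases hab : b = a
    · subst hab
      simp only [if_true, if_neg (flipAt_ne _ b).symm, mul_one, zero_sub, mul_neg, sum_neg_distrib]
      have : ∑ i, flipProb μ i b ≤ (n : ℝ) := by
        calc ∑ i, flipProb μ i b ≤ ∑ _i : Fin n, (1 : ℝ) :=
              sum_le_sum fun i _ => (flipProb_mem hpos i b).2
          _ = n := by simp
      linarith
    · simp only [if_neg hab, if_neg (Ne.symm hab), sub_zero, mul_zero, add_zero]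
      exact sum_nonneg fun i _ => mul_nonneg (flipProb_mem hpos i a).1 (by split_ifs <;> norm_num)
  have hpow : ∀ k a b, 0 ≤ ((t • A) ^ k) a b := by
    intro k
    induction k with
    | zero => intro a b; simp [Matrix.one_apply]; split_ifs <;> norm_num
    | succ k ih =>
      intro a b
      rw [pow_succ, Matrix.mul_apply]
      exact sum_nonneg fun c _ => mul_nonneg (ih a c) (mul_nonneg ht (hA0 c b))
  have hexpA : 0 ≤ NormedSpace.exp (t • A) x y := by
    have h1 := NormedSpace.exp_series_hasSum_exp' (𝕂 := ℝ) (t • A)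
    let Lxy : Matrix (Cube n) (Cube n) ℝ →+ ℝ :=
      { toFun := fun B => B x y, map_zero' := rfl, map_add' := fun B C => rfl }
    have h2 := h1.map Lxy (Continuous.matrix_elem continuous_id x y)
    refine h2.nonneg fun k => ?_
    simp only [Lxy, AddMonoidHom.coe_mk, ZeroHom.coe_mk, Function.comp_apply, Matrix.smul_apply,
      smul_eq_mul]
    exact mul_nonneg (by positivity) (hpow k x y)
  have hsplit : t • generator μ = t • A + (-(t * n)) • (1 : Matrix (Cube n) (Cube n) ℝ) := by
    rw [hA, smul_add, smul_smul, neg_smul, add_neg_cancel_right]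
  have hscal : NormedSpace.exp ((-(t * n)) • (1 : Matrix (Cube n) (Cube n) ℝ))
      = Real.exp (-(t * n)) • (1 : Matrix (Cube n) (Cube n) ℝ) := by
    rw [← Algebra.algebraMap_eq_smul_one, ← Algebra.algebraMap_eq_smul_one, Real.exp_eq_exp_ℝ]
    exact (NormedSpace.algebraMap_exp_comm _).symm
  rw [hsplit, Matrix.exp_add_of_commute _ _ ((Commute.one_right _).smul_right _), hscal,
    Matrix.mul_smul, mul_one, Matrix.smul_apply, smul_eq_mul]
  exact mul_nonneg (Real.exp_pos _).le hexpA

open scoped Matrix.Norms.Operator in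
theorem hasDerivAt_exp_entry (A : Matrix (Cube n) (Cube n) ℝ) (t : ℝ) (x y : Cube n) :
    HasDerivAt (fun u : ℝ => NormedSpace.exp (u • A) x y)
      (∑ z, NormedSpace.exp (t • A) x z * A z y) t := by
  have h := hasDerivAt_exp_smul_const (𝕂 := ℝ) A t
  let Lxy : Matrix (Cube n) (Cube n) ℝ →ₗ[ℝ] ℝ :=
    { toFun := fun B => B x y, map_add' := fun B C => rfl, map_smul' := fun c B => rfl }
  let Lc : Matrix (Cube n) (Cube n) ℝ →L[ℝ] ℝ := ⟨Lxy, Continuous.matrix_elem continuous_id x y⟩
  have h2 := Lc.hasFDerivAt.comp_hasDerivAt t h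
  exact h2.congr_deriv (Matrix.mul_apply (M := NormedSpace.exp (t • A)) (N := A) (i := x) (k := y))

/-- Frozen: a modified log-Sobolev inequality gives fast mixing. -/
theorem mixedAt_of_mlsi {μ : Cube n → ℝ} (hpos : ∀ x, 0 < μ x) (hsum : ∑ x, μ x = 1)
    {C L t : ℝ} (hC : 0 < C) (hmlsi : HasMLSI μ C) (hmin : ∀ x, Real.exp (-L) ≤ μ x)
    (hL : 0 < L) (ht : 0 ≤ t) (htL : C * Real.log (32 * L) ≤ t) : MixedAt μ t := by
  intro x₀
  set ν : ℝ → Cube n → ℝ := fun s y => NormedSpace.exp (s • generator μ) x₀ y with hν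
  set h : ℝ → Cube n → ℝ := fun s y => (ν s y / μ y + 1) / 2 with hh
  set Φ : ℝ → ℝ := fun s => ∑ y, μ y * (h s y * Real.log (h s y)) with hΦ
  have hone : generator μ *ᵥ (fun _ => (1 : ℝ)) = 0 := by
    rw [generator_mulVec μ _ (fun _ => true)]; funext z; simp
  have hν0 : ∀ s, 0 ≤ s → ∀ y, 0 ≤ ν s y := fun s hs y => exp_generator_nonneg hpos hs x₀ y
  have hν1 : ∀ s, ∑ y, ν s y = 1 := by
    intro s
    have h1 := congrFun (exp_mulVec_eigen (s • generator μ) (e := fun _ => (1 : ℝ)) (l := 0)
      (by rw [Matrix.smul_mulVec, hone]; simp)) x₀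
    simpa [Matrix.mulVec, dotProduct] using h1
  have hμh : ∀ s, ∑ y, μ y * h s y = 1 := by
    intro s
    calc ∑ y, μ y * h s y = ∑ y, (ν s y + μ y) / 2 :=
          sum_congr rfl fun y _ => by have := (hpos y).ne'; simp only [hh]; field_simp
      _ = 1 := by rw [← sum_div, sum_add_distrib, hν1, hsum]; norm_num
  have hhpos : ∀ s, 0 ≤ s → ∀ y, 0 < h s y := fun s hs y => by
    have := div_nonneg (hν0 s hs y) (hpos y).le
    simp only [hh]; linarith
  have hder : ∀ s y, HasDerivAt (fun u => h u y) ((generator μ *ᵥ h s) y) s := by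
    intro s y
    refine ((((hasDerivAt_exp_entry (generator μ) s x₀ y).div_const (μ y)).add_const
      (1 : ℝ)).div_const 2).congr_deriv ?_
    have e1 : (generator μ *ᵥ h s) y = ∑ z, generator μ y z * (ν s z / μ z) / 2 := by
      have : h s = (fun z => ν s z / μ z / 2) + ((1 / 2 : ℝ) • fun _ : Cube n => (1 : ℝ)) := by
        funext z; simp only [hh, Pi.add_apply, Pi.smul_apply, smul_eq_mul]; ring
      rw [this, Matrix.mulVec_add, Matrix.mulVec_smul, hone, smul_zero, add_zero]
      simp only [Matrix.mulVec, dotProduct, mul_div_assoc]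
    rw [e1, ← sum_div, sum_div]
    congr 1
    refine sum_congr rfl fun z _ => ?_
    have h1 := (hpos y).ne'
    have h2 := (hpos z).ne'
    field_simp
    linear_combination (ν s z) * generator_balance μ z y
  have hΦd : ∀ s, 0 ≤ s → HasDerivAt Φ (-dirLog μ (h s)) s := by
    intro s hs
    have hy : ∀ y, HasDerivAt (fun u => μ y * (h u y * Real.log (h u y)))
        (μ y * (Real.log (h s y) + 1) * (generator μ *ᵥ h s) y) s := fun y => by
      refine (((hder s y).mul ((hder s y).log (hhpos s hs y).ne')).const_mul (μ y)).congr_deriv ?_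
      have := (hhpos s hs y).ne'
      field_simp
    refine (HasDerivAt.fun_sum fun y _ => hy y).congr_deriv ?_
    rw [generator_form μ (h s) fun y => Real.log (h s y) + 1, dirLog]
    simp only [add_sub_add_right_eq_sub]
  have hent : ∀ s, 0 ≤ s → Φ s ≤ C * dirLog μ (h s) := fun s hs => by
    have := hmlsi (h s) (hhpos s hs)
    simpa [ent, hμh s, hΦ] using this
  have hdec : Φ t * Real.exp (t / C) ≤ Φ 0 * Real.exp (0 / C) := by
    have hanti : AntitoneOn (fun s => Φ s * Real.exp (s / C)) (Set.Icc 0 t) := by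
      have hd : ∀ s ∈ Set.Icc (0 : ℝ) t, HasDerivAt (fun s => Φ s * Real.exp (s / C))
          ((Φ s / C - dirLog μ (h s)) * Real.exp (s / C)) s := fun s hs => by
        refine ((hΦd s hs.1).mul (((hasDerivAt_id s).div_const C).exp)).congr_deriv ?_
        simp only [id_eq]
        ring
      refine antitoneOn_of_hasDerivWithinAt_nonpos
        (f' := fun s => (Φ s / C - dirLog μ (h s)) * Real.exp (s / C)) (convex_Icc _ _) ?_ ?_ ?_
      · exact fun s hs => (hd s hs).continuousAt.continuousWithinAt
      · intro s hs; exact (hd s (interior_subset hs)).hasDerivWithinAt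
      · intro s hs
        have hs' : s ∈ Set.Icc 0 t := interior_subset hs
        refine mul_nonpos_of_nonpos_of_nonneg ?_ (Real.exp_pos _).le
        rw [sub_nonpos, div_le_iff₀ hC, mul_comm]
        exact hent s hs'.1
    exact hanti ⟨le_rfl, ht⟩ ⟨ht, le_rfl⟩ ht
  have hΦ0 : Φ 0 ≤ L := by
    calc Φ 0 ≤ ∑ y, μ y * h 0 y * L := by
          refine sum_le_sum fun y _ => ?_
          rw [← mul_assoc]
          refine mul_le_mul_of_nonneg_left ?_ (mul_nonneg (hpos y).le (hhpos 0 le_rfl y).le)
          rw [Real.log_le_iff_le_exp (hhpos 0 le_rfl y)]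
          have h1 : ν 0 y ≤ 1 := (single_le_sum (f := ν 0) (fun z _ => hν0 0 le_rfl z)
            (mem_univ y)).trans_eq (hν1 0)
          have h2 : ν 0 y / μ y ≤ Real.exp L := by
            rw [div_le_iff₀ (hpos y)]
            refine h1.trans ?_
            have := mul_le_mul_of_nonneg_left (hmin y) (Real.exp_pos L).le
            rwa [← Real.exp_add, add_neg_cancel, Real.exp_zero] at this
          have h3 : 1 ≤ Real.exp L := Real.one_le_exp hL.le
          simp only [hh]
          linarith
      _ = L := by rw [← sum_mul, hμh, one_mul]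
  have hΦt : Φ t ≤ 1 / 32 := by
    have h1 : 32 * L ≤ Real.exp (t / C) := by
      rw [← Real.log_le_iff_le_exp (by linarith), le_div_iff₀ hC, mul_comm]
      exact htL
    rw [zero_div, Real.exp_zero, mul_one] at hdec
    by_contra hc
    push Not at hc
    have h2 := mul_lt_mul_of_pos_right hc (show 0 < 32 * L by linarith)
    have h3 := mul_le_mul_of_nonneg_left h1 (by linarith : (0 : ℝ) ≤ Φ t)
    linarith
  have hpin := pinsker hpos hsum (hhpos t ht) (hμh t)
  have htv : (1 / 2) * ∑ y, |NormedSpace.exp (t • generator μ) x₀ y - μ y|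
      = ∑ y, μ y * |h t y - 1| := by
    rw [mul_sum]
    refine sum_congr rfl fun y _ => ?_
    have hy := hpos y
    simp only [hh, hν]
    rw [show (NormedSpace.exp (t • generator μ) x₀ y / μ y + 1) / 2 - 1
        = (NormedSpace.exp (t • generator μ) x₀ y - μ y) / (2 * μ y) by field_simp; ring,
      abs_div, abs_of_pos (by positivity : (0:ℝ) < 2 * μ y)]
    field_simp
  rw [htv]
  have hnn : 0 ≤ ∑ y, μ y * |h t y - 1| :=
    sum_nonneg fun y _ => mul_nonneg (hpos y).le (abs_nonneg _)
  nlinarith

end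

end Vale.Agent.P150.High
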