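import Vale.Agent.P150.High.Bochner
import Vale.Agent.P150.High.Anneal
import Vale.Agent.P150.High.Mixing
import Vale.Agent.P150.High.Goe

/-!
Fast mixing of heat-bath dynamics for the SK model at every `β < 1/2`.
-/

namespace Vale.Agent.P150.High

open Finset Filter MeasureTheory ProbabilityTheory
open scoped Topology

noncomputable section

variable {n : ℕ}

theorem skJ_coupling (β : ℝ) (g : Disorder n) : IsCoupling (skJ β g) := by
  refine ⟨fun i j => ?_, fun i => by simp [skJ]⟩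
  by_cases h : i = j
  · subst h; rfl
  · simp [skJ, h, Ne.symm h, Sym2.eq_swap]

theorem ham_skJ (β : ℝ) (g : Disorder n) (x : Cube n) :
    ham (skJ β g) 0 x = β / Real.sqrt n * energy g x := by
  set F := fun i j : Fin n => g s(i, j) * spin (x i) * spin (x j) with hF
  have hsymm : ∀ i j, F i j = F j i := fun i j => by simp [hF, Sym2.eq_swap]; ring
  have hlt : ∀ i j : Fin n, skJ β g i j * spin (x i) * spin (x j) =
      β / Real.sqrt n * ((if i < j then F i j else 0) + (if j < i then F j i else 0)) := by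
    intro i j
    rcases lt_trichotomy i j with h | h | h
    · simp [skJ, h.ne, h, h.not_gt, hF]; ring
    · simp [skJ, h]
    · rw [← hsymm i j]; simp [skJ, h.ne', h, h.not_gt, hF]; ring
  have he : energy g x = ∑ i, ∑ j, if i < j then F i j else 0 := by
    rw [energy, sum_filter, ← univ_product_univ, sum_product]
  simp only [ham, hlt, ← mul_sum, sum_add_distrib, Pi.zero_apply, zero_mul, sum_const_zero,
    add_zero]
  rw [sum_comm (f := fun i j => if j < i then F j i else 0), ← he]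
  ring

/-- The SK Gibbs measure is the Ising measure of the SK couplings in zero field. -/
theorem ising_skJ (β : ℝ) (g : Disorder n) : ising (skJ β g) 0 = gibbs β g := by
  funext x
  simp only [ising, gibbs, gibbsWith, ham_skJ]

theorem skJ_eq (β : ℝ) (g : Disorder n) (i j : Fin n) :
    skJ β g i j = β / Real.sqrt n * (if i = j then 0 else g s(i, j)) := by
  by_cases h : i = j <;> simp [skJ, h]

/-- The three properties used, on the typical event. -/
theorem typical_props {β η : ℝ} (hβ : 0 ≤ β) (hn : 0 < n) {g : Disorder n}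
    (hg : (∀ u : Fin n → ℝ, |∑ i, ∑ j, (if i = j then 0 else g s(i, j)) * u i * u j| ≤
          (2 + η) * Real.sqrt n * ∑ i, u i ^ 2) ∧
        (∀ i, ∑ j, (if i = j then 0 else g s(i, j) ^ 2) ≤ (1 + η) * n) ∧
        ∀ i j, i ≠ j → |g s(i, j)| ≤ η * Real.sqrt n) (hη : 0 ≤ η) :
    NormLe (skJ β g) (β * (2 + η)) ∧ (∀ i, ∑ j, skJ β g i j ^ 2 ≤ β ^ 2 * (1 + η)) ∧
      ∀ i j, |skJ β g i j| ≤ β * η := by
  obtain ⟨h1, h2, h3⟩ := hg
  set r := Real.sqrt n with hr
  have hr0 : 0 < r := Real.sqrt_pos.2 (Nat.cast_pos.2 hn)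
  have hr2 : r ^ 2 = n := Real.sq_sqrt (Nat.cast_nonneg n)
  have hc : 0 ≤ β / r := div_nonneg hβ hr0.le
  refine ⟨fun u => ?_, fun i => ?_, fun i j => ?_⟩
  · calc |∑ i, ∑ j, skJ β g i j * u i * u j|
        = β / r * |∑ i, ∑ j, (if i = j then 0 else g s(i, j)) * u i * u j| := by
          simp only [skJ_eq, ← hr, mul_assoc, ← mul_sum, abs_mul, abs_of_nonneg hc]
      _ ≤ β / r * ((2 + η) * r * ∑ i, u i ^ 2) := mul_le_mul_of_nonneg_left (h1 u) hc
      _ = _ := by field_simp
  · calc ∑ j, skJ β g i j ^ 2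
        = (β / r) ^ 2 * ∑ j, (if i = j then 0 else g s(i, j) ^ 2) := by
          rw [mul_sum]
          exact sum_congr rfl fun j _ => by by_cases h : i = j <;> simp [skJ, h, hr, mul_pow]
      _ ≤ (β / r) ^ 2 * ((1 + η) * n) := mul_le_mul_of_nonneg_left (h2 i) (sq_nonneg _)
      _ = _ := by rw [← hr2]; field_simp
  · by_cases h : i = j
    · simp [skJ, h]; positivity
    · calc |skJ β g i j| = β / r * |g s(i, j)| := by
            simp [skJ, h, ← hr, abs_mul, abs_of_nonneg hc]
        _ ≤ β / r * (η * r) := mul_le_mul_of_nonneg_left (h3 i j h) hc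
        _ = _ := by field_simp

/-- On the typical event the gap is `1 - 2β - ε` along the whole path `s J`, in any field. -/
theorem path_gap {β ε : ℝ} (hβ : 0 ≤ β) (hβ' : β < 1 / 2) (hε : 0 < ε) :
    ∃ η > (0 : ℝ), η ≤ 1 ∧ ∀ (n : ℕ), 0 < n → ∀ g : Disorder n,
      ((∀ u : Fin n → ℝ, |∑ i, ∑ j, (if i = j then 0 else g s(i, j)) * u i * u j| ≤
            (2 + η) * Real.sqrt n * ∑ i, u i ^ 2) ∧
          (∀ i, ∑ j, (if i = j then 0 else g s(i, j) ^ 2) ≤ (1 + η) * n) ∧
          ∀ i j, i ≠ j → |g s(i, j)| ≤ η * Real.sqrt n) →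
      NormLe (skJ β g) (β * (2 + η)) ∧ ∀ s ∈ Set.Icc (0 : ℝ) 1, ∀ b,
        HasGap (ising (fun i j => s * skJ β g i j) b) (1 - 2 * β - ε) := by
  refine ⟨min (1 / 40) (ε / 60), lt_min (by norm_num) (by positivity),
    (min_le_left _ _).trans (by norm_num), fun n hn g hg => ?_⟩
  set η := min (1 / 40) (ε / 60) with hη
  have hη0 : 0 ≤ η := le_min (by norm_num) (by positivity)
  obtain ⟨hnorm, hrow, hδ⟩ := typical_props hβ hn hg hη0
  refine ⟨hnorm, fun s ⟨hs0, hs1⟩ b => ?_⟩
  have hs2 : s ^ 2 ≤ 1 := pow_le_one₀ hs0 hs1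
  have hJ : IsCoupling (fun i j => s * skJ β g i j) :=
    ⟨fun i j => by rw [(skJ_coupling β g).symm i j], fun i => by simp [skJ]⟩
  have h1 : NormLe (fun i j => s * skJ β g i j) (β * (2 + η)) := fun u => by
    simp only [mul_assoc s, ← mul_sum, abs_mul, abs_of_nonneg hs0]
    refine le_trans ?_ (hnorm u)
    exact mul_le_of_le_one_left (abs_nonneg _) hs1
  have h2 : ∀ i, ∑ j, (s * skJ β g i j) ^ 2 ≤ β ^ 2 * (1 + η) := fun i => by
    simp only [mul_pow, ← mul_sum]
    exact le_trans (mul_le_of_le_one_left (sum_nonneg fun j _ => sq_nonneg _) hs2) (hrow i)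
  have h3 : ∀ i j, |s * skJ β g i j| ≤ β * η := fun i j => by
    rw [abs_mul, abs_of_nonneg hs0]
    exact le_trans (mul_le_of_le_one_left (abs_nonneg _) hs1) (hδ i j)
  have b0 : β * η ≤ 1 / 2 * η := mul_le_mul_of_nonneg_right hβ'.le hη0
  have b1 : η ≤ 1 / 40 := min_le_left _ _
  have b2 : η ≤ ε / 60 := min_le_right _ _
  have hgap := hasGap_of_bochner (b := b) hJ h1 h2 h3 (by linarith) (by
    have : β ^ 2 * (1 + η) ≤ 1 / 2 * β * (1 + η) := by
      rw [sq]
      exact mul_le_mul_of_nonneg_right (mul_le_mul_of_nonneg_right hβ'.le hβ) (by linarith)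
    nlinarith [mul_nonneg hβ hη0])
  intro f
  refine le_trans (mul_le_mul_of_nonneg_right ?_ (sum_nonneg fun x _ =>
    mul_nonneg (ising_pos _ b x).le (sq_nonneg _))) (hgap f)
  have c1 : β ^ 2 * (1 + η) ≤ 1 / 2 := by
    have : β ^ 2 ≤ 1 / 4 := (pow_le_pow_left₀ hβ hβ'.le 2).trans_eq (by norm_num)
    nlinarith
  have c2 : β * η * (β ^ 2 * (1 + η)) ≤ 1 / 2 * η * (1 / 2) :=
    mul_le_mul b0 c1 (mul_nonneg (sq_nonneg β) (by linarith)) (by linarith)
  linarith

/-- An event containing the typical one has probability tending to one. -/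
theorem tendsto_of_typical {η : ℝ} (hη : 0 < η) (E : ∀ n : ℕ, Set (Disorder n))
    (hE : ∀ᶠ n : ℕ in atTop, ∀ g : Disorder n,
      ((∀ u : Fin n → ℝ, |∑ i, ∑ j, (if i = j then 0 else g s(i, j)) * u i * u j| ≤
            (2 + η) * Real.sqrt n * ∑ i, u i ^ 2) ∧
          (∀ i, ∑ j, (if i = j then 0 else g s(i, j) ^ 2) ≤ (1 + η) * n) ∧
          ∀ i j, i ≠ j → |g s(i, j)| ≤ η * Real.sqrt n) → g ∈ E n) :
    Tendsto (fun n : ℕ => (disorderLaw n).real (E n)) atTop (𝓝 1) := by
  have : ∀ n, IsProbabilityMeasure (disorderLaw n) := fun n => by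
    unfold disorderLaw; infer_instance
  refine tendsto_of_tendsto_of_tendsto_of_le_of_le' (tendsto_typical hη) tendsto_const_nhds ?_ ?_
  · filter_upwards [hE] with n hn
    exact measureReal_mono (fun g hg => hn g hg)
  · exact Eventually.of_forall fun n => measureReal_le_one

theorem gap_tendsto {β ε : ℝ} (hβ : 0 ≤ β) (hβ' : β < 1 / 2) (hε : 0 < ε) :
    Tendsto (fun n : ℕ => (disorderLaw n).real
      {g | ∀ b, HasGap (ising (skJ β g) b) (1 - 2 * β - ε)}) atTop (𝓝 1) := by
  obtain ⟨η, hη, -, h⟩ := path_gap hβ hβ' hε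
  refine tendsto_of_typical hη _ ?_
  filter_upwards [eventually_gt_atTop 0] with n hn g hg b
  simpa using (h n hn g hg).2 1 ⟨zero_le_one, le_rfl⟩ b

/-- The modified log-Sobolev constant at `β < 1/2`. -/
def mlsiConst (β : ℝ) : ℝ := Real.exp (8 * (3 * β) / ((1 - 2 * β) / 2) + 1)

theorem mlsi_typical {β : ℝ} (hβ : 0 ≤ β) (hβ' : β < 1 / 2) :
    ∃ η > (0 : ℝ), ∀ (n : ℕ), 0 < n → ∀ g : Disorder n,
      ((∀ u : Fin n → ℝ, |∑ i, ∑ j, (if i = j then 0 else g s(i, j)) * u i * u j| ≤
            (2 + η) * Real.sqrt n * ∑ i, u i ^ 2) ∧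
          (∀ i, ∑ j, (if i = j then 0 else g s(i, j) ^ 2) ≤ (1 + η) * n) ∧
          ∀ i j, i ≠ j → |g s(i, j)| ≤ η * Real.sqrt n) →
      NormLe (skJ β g) (3 * β) ∧ ∀ b, HasMLSI (ising (skJ β g) b) (mlsiConst β) := by
  obtain ⟨η, hη, hη1, h⟩ := path_gap (ε := (1 - 2 * β) / 2) hβ hβ' (by linarith)
  refine ⟨η, hη, fun n hn g hg => ?_⟩
  obtain ⟨hnorm, hgap⟩ := h n hn g hg
  have h3 : NormLe (skJ β g) (3 * β) := fun u => (hnorm u).trans
    (mul_le_mul_of_nonneg_right (by linarith [mul_le_mul_of_nonneg_left hη1 hβ])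
      (sum_nonneg fun i _ => sq_nonneg _))
  exact ⟨h3, hasMLSI_of_gap _ (skJ_coupling β g) (by linarith) (by linarith) h3
    fun s hs b => by convert hgap s hs b using 1; ring⟩

theorem mlsi_tendsto {β : ℝ} (hβ : 0 ≤ β) (hβ' : β < 1 / 2) :
    Tendsto (fun n : ℕ => (disorderLaw n).real
      {g | ∀ b, HasMLSI (ising (skJ β g) b) (mlsiConst β)}) atTop (𝓝 1) := by
  obtain ⟨η, hη, h⟩ := mlsi_typical hβ hβ'
  refine tendsto_of_typical hη _ ?_
  filter_upwards [eventually_gt_atTop 0] with n hn g hg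
  exact (h n hn g hg).2

theorem ising_lower {J : Fin n → Fin n → ℝ} {lam : ℝ} (hJ : NormLe J lam) (x : Cube n) :
    Real.exp (-((lam + Real.log 2) * n)) ≤ ising J 0 x := by
  have hb : ∀ y : Cube n, |ham J 0 y| ≤ lam * n / 2 := by
    intro y
    have h := hJ fun i => spin (y i)
    have : ∑ i, spin (y i) ^ 2 = (n : ℝ) := by simp [spin_sq]
    rw [this] at h
    simp only [ham, Pi.zero_apply, zero_mul, sum_const_zero, add_zero, abs_mul]
    norm_num
    linarith
  have hZ : ∑ y, Real.exp (ham J 0 y) ≤ Real.exp (lam * n / 2 + Real.log 2 * n) := by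
    refine (sum_le_card_nsmul univ _ (Real.exp (lam * n / 2))
      fun y _ => Real.exp_le_exp.2 (le_of_abs_le (hb y))).trans_eq ?_
    rw [card_univ, Fintype.card_fun, Fintype.card_bool, Fintype.card_fin, nsmul_eq_mul,
      Real.exp_add, mul_comm (Real.log 2), Real.exp_nat_mul, Real.exp_log two_pos]
    push_cast
    ring
  rw [ising, le_div_iff₀ (sum_pos (fun _ _ => Real.exp_pos _) univ_nonempty)]
  calc Real.exp (-((lam + Real.log 2) * n)) * ∑ y, Real.exp (ham J 0 y)
      ≤ Real.exp (-((lam + Real.log 2) * n)) * Real.exp (lam * n / 2 + Real.log 2 * n) :=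
        mul_le_mul_of_nonneg_left hZ (Real.exp_pos _).le
    _ = Real.exp (-(lam * n / 2)) := by rw [← Real.exp_add]; congr 1; ring
    _ ≤ _ := Real.exp_le_exp.2 (abs_le.1 (hb x)).1

theorem mixing_tendsto {β : ℝ} (hβ : 0 ≤ β) (hβ' : β < 1 / 2) :
    Tendsto (fun n : ℕ => (disorderLaw n).real
      {g | MixedAt (gibbs β g) (2 * mlsiConst β * Real.log n)}) atTop (𝓝 1) := by
  obtain ⟨η, hη, h⟩ := mlsi_typical hβ hβ'
  refine tendsto_of_typical hη _ ?_
  filter_upwards [eventually_ge_atTop 96] with n hn g hg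
  have hn0 : 0 < n := by omega
  have hnR : (96 : ℝ) ≤ n := by exact_mod_cast hn
  obtain ⟨hnorm, hm⟩ := h n hn0 g hg
  have hl2 : Real.log 2 ≤ 1 := by
    have := Real.log_le_sub_one_of_pos (two_pos : (0 : ℝ) < 2); linarith
  have hC : 0 < mlsiConst β := Real.exp_pos _
  show MixedAt (gibbs β g) _
  rw [← ising_skJ]
  refine mixedAt_of_mlsi (ising_pos _ 0) (sum_ising _ 0) hC (hm 0) (L := 3 * n) (fun x => ?_)
    (by positivity) (mul_nonneg (by positivity) (Real.log_nonneg (by linarith))) ?_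
  · refine le_trans (Real.exp_le_exp.2 (neg_le_neg ?_)) (ising_lower hnorm x)
    exact mul_le_mul_of_nonneg_right (by linarith) (Nat.cast_nonneg n)
  · rw [show 2 * mlsiConst β * Real.log n = mlsiConst β * Real.log ((n : ℝ) ^ 2) by
      rw [Real.log_pow]; push_cast; ring]
    refine mul_le_mul_of_nonneg_left (Real.log_le_log (by positivity) ?_) hC.le
    nlinarith

theorem gap_le_one (J : Fin n → Fin n → ℝ) (hn : 0 < n) {c : ℝ}
    (h : HasGap (ising J 0) c) : c ≤ 1 := by
  let i₀ : Fin n := ⟨0, hn⟩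
  set μ := ising J 0 with hμ
  set f : Cube n → ℝ := fun x => spin (x i₀) with hf
  let e : Cube n ≃ Cube n := Function.Involutive.toPerm (fun x i => !x i) (fun x => by simp)
  have hsym : ∀ x, μ (fun i => !x i) = μ x := by
    intro x
    have : ∀ y, ham J 0 (fun i => !y i) = ham J 0 y := fun y => by simp [ham, spin_not]
    simp [hμ, ising, this]
  have hmean : ∑ x, μ x * f x = 0 := by
    have h1 : ∑ x : Cube n, μ (fun i => !x i) * f (fun i => !x i) = ∑ x, μ x * f x :=
      Equiv.sum_comp e (fun x => μ x * f x)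
    simp only [hsym, hf, spin_not, mul_neg, sum_neg_distrib] at h1 ⊢
    linarith
  have hvar : variance μ f = 1 := by
    unfold variance
    rw [hmean]
    simp [hf, spin_sq, hμ, sum_ising]
  have hdir : dirichlet μ f ≤ 1 := by
    have hterm : ∀ x i, μ x * flipProb μ i x * (f (flipAt i x) - f x) ^ 2 =
        if i = i₀ then μ x * flipProb μ i x * 4 else 0 := by
      intro x i
      by_cases hi : i = i₀
      · subst hi
        simp [hf, flipAt, spin_not]
        left
        linear_combination 4 * spin_sq (x i₀)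
      · simp [hf, flipAt, Function.update_of_ne (Ne.symm hi), hi]
    simp only [dirichlet, hterm, sum_ite_eq', mem_univ, if_true]
    have hq : ∀ x, μ x * flipProb μ i₀ x + μ (flipAt i₀ x) * flipProb μ i₀ (flipAt i₀ x) ≤
        (μ x + μ (flipAt i₀ x)) / 2 := by
      intro x
      have a0 : 0 < μ x := ising_pos J 0 x
      have b0 : 0 < μ (flipAt i₀ x) := ising_pos J 0 _
      simp only [flipProb, flipAt_flipAt]
      rw [mul_div_assoc', mul_div_assoc', add_comm (μ (flipAt i₀ x)) (μ x), ← add_div,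
        div_le_div_iff₀ (by positivity) two_pos]
      nlinarith [sq_nonneg (μ x - μ (flipAt i₀ x))]
    have h2 := sum_le_sum fun x (_ : x ∈ (univ : Finset (Cube n))) => hq x
    rw [sum_add_distrib, sum_flipAt i₀ (fun x => μ x * flipProb μ i₀ x), ← sum_div,
      sum_add_distrib, sum_flipAt i₀ μ, hμ, sum_ising] at h2
    rw [← sum_mul, hμ]
    linarith
  have := h f
  rw [hvar, mul_one] at this
  exact this.trans hdir

end

end Vale.Agent.P150.High
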