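import Vale.Agent.P150.High.Gradient
import Vale.Agent.P150.High.Main

/-!
Mixing takes time of order at least `log n` at every inverse temperature.
-/

namespace Vale.Agent.P150.High

open Finset Matrix Filter MeasureTheory
open scoped Topology

noncomputable section

variable {n : ℕ} {J : Fin n → Fin n → ℝ}

theorem semi_flip (hJ : IsCoupling J) {t : ℝ} (ht : 0 ≤ t) (i : Fin n) (x : Cube n) :
    semi (ising J 0) t (fun y => spin (y i)) (fun l => !x l) =
      -semi (ising J 0) t (fun y => spin (y i)) x := by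
  set μ := ising J 0 with hμ
  set R : Cube n → Cube n := fun y l => !y l with hR
  set f : Cube n → ℝ := fun y => spin (y i) with hf
  set y₁ := fun r z => semi μ r f z + semi μ r f (R z) with hy
  have hRR : ∀ z, R (R z) = z := fun z => by funext l; simp [hR]
  have hfl : ∀ j z, flipAt j (R z) = R (flipAt j z) := by
    intro j z
    funext l
    by_cases h : l = j
    · subst h; simp [hR, flipAt]
    · simp [hR, flipAt, Function.update_of_ne h]
  have hcomm : ∀ (g : Cube n → ℝ) z,
      (generator μ *ᵥ g) (R z) = (generator μ *ᵥ fun w => g (R w)) z := by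
    intro g z
    rw [generator_mulVec μ g z, generator_mulVec μ _ z]
    refine sum_congr rfl fun j _ => ?_
    rw [hfl, hμ, flipProb_ising hJ, flipProb_ising hJ]
    have : spin (R z j) * mean J 0 j (R z) = spin (z j) * mean J 0 j z := by
      simp [hR, mean, field, spin_not, Real.tanh_neg]
    rw [this]
  have hd : ∀ (c : ℝ) r z, HasDerivAt (fun q => c * y₁ q z)
      ((generator μ *ᵥ fun w => c * y₁ r w) z) r := by
    intro c r z
    refine (((hasDerivAt_semi μ f r z).fun_add (hasDerivAt_semi μ f r (R z))).const_mul c).congr_deriv ?_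
    rw [hcomm]
    simp only [hy, Matrix.mulVec, dotProduct, mul_sum, ← sum_add_distrib]
    exact sum_congr rfl fun w _ => by ring
  have h : ∀ c : ℝ, c * y₁ t x ≤ 0 := by
    intro c
    have h := semi_comparison (ising_pos J 0) ht (C := 0) (fun r z => c * y₁ r z) _ (hd c)
      (fun r _ z => by rw [zero_mul, add_zero]) x
    have h0 : (fun z => c * y₁ 0 z) = fun _ => (0 : ℝ) := by
      funext z; simp [hy, semi_zero, hf, hR, spin_not]
    rw [h0] at h
    simpa [semi, Matrix.mulVec, dotProduct] using h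
  have h1 := h 1
  have h2 := h (-1)
  simp only [hy] at h1 h2
  linarith

/-- A test separating the starts `x₀` and `-x₀`. -/
theorem two_starts {μ : Cube n → ℝ} (hpos : ∀ x, 0 < μ x) {t M V : ℝ} (ht : 0 ≤ t) (hM : 0 < M)
    (hmix : MixedAt μ t) (F : Cube n → ℝ) (a b : Cube n) (ha : semi μ t F a = M)
    (hb : semi μ t F b = -M) (hVa : semi μ t (fun y => F y ^ 2) a - M ^ 2 ≤ V)
    (hVb : semi μ t (fun y => F y ^ 2) b - M ^ 2 ≤ V) : M ^ 2 ≤ 4 * V := by
  set p := fun y => NormedSpace.exp (t • generator μ) a y with hp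
  set q := fun y => NormedSpace.exp (t • generator μ) b y with hq
  have hp1 := congrFun (semi_one μ t) a
  have hq1 := congrFun (semi_one μ t) b
  simp only [semi, Matrix.mulVec, dotProduct, mul_one] at ha hb hVa hVb hp1 hq1
  set σ := fun y => if 0 < F y then (1 : ℝ) else -1 with hσ
  have habs : ∀ y, |σ y| ≤ 1 := fun y => by simp only [hσ]; split_ifs <;> simp
  have hpσ : ∀ y, p y * (M ^ 2 - 2 * (F y - M) ^ 2) ≤ p y * (M ^ 2 * σ y) := by
    intro y
    refine mul_le_mul_of_nonneg_left ?_ (exp_generator_nonneg hpos ht a y)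
    simp only [hσ]
    split_ifs with h
    · nlinarith [sq_nonneg (F y - M)]
    · nlinarith [mul_nonneg hM.le (neg_nonneg.2 (not_lt.1 h)), sq_nonneg (F y)]
  have hqσ : ∀ y, q y * (M ^ 2 * σ y) ≤ q y * (-M ^ 2 + 2 * (F y + M) ^ 2) := by
    intro y
    refine mul_le_mul_of_nonneg_left ?_ (exp_generator_nonneg hpos ht b y)
    simp only [hσ]
    split_ifs with h
    · nlinarith [mul_nonneg hM.le h.le, sq_nonneg (F y)]
    · nlinarith [sq_nonneg (F y + M)]
  have hdist : ∑ y, (p y - q y) * σ y ≤ 1 := by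
    calc ∑ y, (p y - q y) * σ y ≤ ∑ y, (|p y - μ y| + |q y - μ y|) := by
          refine sum_le_sum fun y _ => (le_abs_self _).trans ?_
          rw [abs_mul]
          refine (mul_le_of_le_one_right (abs_nonneg _) (habs y)).trans ?_
          calc |p y - q y| = |(p y - μ y) - (q y - μ y)| := by ring_nf
            _ ≤ _ := abs_sub _ _
      _ ≤ _ := by
          rw [sum_add_distrib]
          have h1 := hmix a
          have h2 := hmix b
          simp only [hp, hq]
          linarith
  have h1 := sum_le_sum fun y (_ : y ∈ (univ : Finset (Cube n))) => hpσ y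
  have h2 := sum_le_sum fun y (_ : y ∈ (univ : Finset (Cube n))) => hqσ y
  have h3 := mul_le_mul_of_nonneg_left hdist (sq_nonneg M)
  simp only [hp, hq, sub_sq, add_sq, mul_add, mul_sub, sub_mul, sum_add_distrib, sum_sub_distrib,
    mul_neg, sum_neg_distrib, ← sum_mul, mul_sum, ← mul_assoc, mul_comm _ (M ^ 2)] at h1 h2 h3
  simp only [mul_assoc, ← mul_sum, hp1, hq1] at h1 h2 h3
  have e : ∀ (w : Cube n → ℝ), ∑ y, w y * (2 * (2 * F y)) = 4 * ∑ y, w y * F y :=
    fun w => by rw [mul_sum]; exact sum_congr rfl fun y _ => by ring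
  have e' : ∀ (w : Cube n → ℝ), ∑ y, w y * (2 * F y ^ 2) = 2 * ∑ y, w y * F y ^ 2 :=
    fun w => by rw [mul_sum]; exact sum_congr rfl fun y _ => by ring
  simp only [e, e', ha, hb] at h1 h2
  linarith

/-- Mixing needs time `log (n / 4)` over a rate depending only on norms of the couplings. -/
theorem log_le_of_mixed (hJ : IsCoupling J) {lam s : ℝ} (hlam : NormLe J lam)
    (hrow : ∀ i, ∑ j, J i j ^ 2 ≤ s) (hsmall : ∀ i j, |J i j| ≤ 1 / 80) (hl : 0 ≤ lam) (hs : 0 ≤ s)
    (hn : 0 < n) {t : ℝ} (ht : 0 ≤ t) (hmix : MixedAt (ising J 0) t) :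
    Real.log (n / 4) ≤ (2 * lam + 24 * s + 6) * t := by
  set μ := ising J 0 with hμ
  have hpos : ∀ y, 0 < μ y := ising_pos J 0
  set m := fun x i => semi μ t (fun y => spin (y i)) x with hm
  have hav : ∑ _x : Cube n, (0 : ℝ) ≤
      ∑ x, μ x * (∑ i, m x i ^ 2 - Real.exp (-(2 * t)) * n) := by
    have h1 : ∀ i, Real.exp (-(2 * t)) ≤ ∑ x, μ x * m x i ^ 2 := by
      intro i
      have hvar : ∑ x, μ x * spin (x i) ^ 2 = 1 := by simp [spin_sq, hμ, sum_ising]
      have hdir : dirichlet μ (fun y => spin (y i)) ≤ 1 := by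
        rw [hμ, dirichlet_ising hJ]
        have : ∀ l x, deriv' (fun y : Cube n => spin (y i)) l x = if l = i then 1 else 0 := by
          intro l x
          by_cases h : l = i
          · subst h; simp [deriv', spin]
          · simp [deriv', h, Function.update_of_ne (Ne.symm h)]
        simp only [this, ite_pow, one_pow, zero_pow (two_ne_zero), mul_ite, mul_one, mul_zero]
        rw [sum_eq_single i (fun l _ hli => sum_eq_zero fun x _ => by rw [if_neg hli]) (by simp)]
        simp only [if_true]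
        calc ∑ x, ising J 0 x * cvar J 0 i x ≤ ∑ x, ising J 0 x * 1 :=
              sum_le_sum fun x _ =>
                mul_le_mul_of_nonneg_left (cvar_nonneg J 0 i x).2 (ising_pos J 0 x).le
          _ = 1 := by simp [sum_ising]
      have h := sq_semi_ge hpos (fun y => spin (y i)) ht (by rw [hvar]; exact hdir)
      rwa [hvar, mul_one] at h
    have h2 := sum_le_sum fun i (_ : i ∈ (univ : Finset (Fin n))) => h1 i
    rw [sum_comm] at h2
    simp only [sum_const, card_univ, Fintype.card_fin, nsmul_eq_mul] at h2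
    simp only [sum_const_zero, mul_sub, sum_sub_distrib, ← sum_mul, hμ, sum_ising, one_mul,
      mul_sum]
    linarith
  obtain ⟨x₀, -, hx⟩ := exists_le_of_sum_le univ_nonempty hav
  have hx' := nonneg_of_mul_nonneg_right hx (hpos x₀)
  set u := m x₀ with hu
  set M := ∑ i, u i ^ 2 with hM
  have hM0 : 0 < M := by
    have : 0 < Real.exp (-(2 * t)) * n := mul_pos (Real.exp_pos _) (Nat.cast_pos.2 hn)
    linarith
  set F := fun y : Cube n => ∑ i, u i * spin (y i) with hF
  have hlin : ∀ z, semi μ t F z = ∑ i, u i * semi μ t (fun y => spin (y i)) z := by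
    intro z
    simp only [semi, Matrix.mulVec, dotProduct, hF, mul_sum]
    rw [sum_comm]
    exact sum_congr rfl fun i _ => sum_congr rfl fun y _ => by ring
  have ha : semi μ t F x₀ = M := by
    rw [hlin, hM]; exact sum_congr rfl fun i _ => by simp only [hu, hm]; ring
  have hb : semi μ t F (fun l => !x₀ l) = -M := by
    rw [hlin, hM, ← sum_neg_distrib]
    exact sum_congr rfl fun i _ => by rw [semi_flip hJ ht]; simp only [hu, hm]; ring
  have hVa := local_variance (b := 0) hJ hlam hrow hsmall hl hs ht u x₀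
  have hVb := local_variance (b := 0) hJ hlam hrow hsmall hl hs ht u (fun l => !x₀ l)
  change semi μ t (fun y => F y ^ 2) x₀ - semi μ t F x₀ ^ 2 ≤ _ at hVa
  change semi μ t (fun y => F y ^ 2) _ - semi μ t F _ ^ 2 ≤ _ at hVb
  rw [ha] at hVa
  rw [hb, neg_sq] at hVb
  have h := two_starts hpos ht hM0 hmix F x₀ _ ha hb hVa hVb
  have h' : M ≤ 4 * Real.exp ((2 * lam + 24 * s + 4) * t) := by
    rw [sq, ← mul_assoc] at h
    exact le_of_mul_le_mul_right h hM0
  have h'' : (n : ℝ) / 4 ≤ Real.exp ((2 * lam + 24 * s + 6) * t) := by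
    rw [show (2 * lam + 24 * s + 6) * t = 2 * t + (2 * lam + 24 * s + 4) * t by ring, Real.exp_add]
    have h3 := mul_le_mul_of_nonneg_left (le_trans (sub_nonneg.1 hx') h') (Real.exp_pos (2 * t)).le
    rw [← mul_assoc, ← Real.exp_add, add_neg_cancel, Real.exp_zero, one_mul] at h3
    linarith
  rw [← Real.log_exp ((2 * lam + 24 * s + 6) * t)]
  exact Real.log_le_log (by positivity) h''

theorem lower_tendsto {β : ℝ} (hβ : 0 ≤ β) :
    ∃ c > (0 : ℝ), Tendsto (fun n : ℕ => (disorderLaw n).real
      {g | ∀ t : ℝ, 0 ≤ t → MixedAt (gibbs β g) t → c * Real.log n ≤ t}) atTop (𝓝 1) := by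
  set η := 1 / (80 * (β + 1)) with hη
  have hη0 : 0 < η := by positivity
  set lam := β * (2 + η) with hlam
  set s := β ^ 2 * (1 + η) with hs
  set K := 2 * lam + 24 * s + 6 with hK
  have hlam0 : 0 ≤ lam := by positivity
  have hs0 : 0 ≤ s := by positivity
  refine ⟨1 / (2 * K), by positivity, tendsto_of_typical hη0 _ ?_⟩
  filter_upwards [eventually_ge_atTop 16] with n hn g hg t ht hmix
  have hn0 : 0 < n := by omega
  obtain ⟨h1, h2, h3⟩ := typical_props hβ hn0 hg hη0.le
  have h4 : ∀ i j, |skJ β g i j| ≤ 1 / 80 := fun i j => (h3 i j).trans (by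
    rw [hη, mul_one_div, div_le_div_iff₀ (by positivity) (by norm_num)]
    linarith)
  rw [← ising_skJ] at hmix
  have h := log_le_of_mixed (skJ_coupling β g) h1 h2 h4 hlam0 hs0 hn0 ht hmix
  have hnR : (16 : ℝ) ≤ n := by exact_mod_cast hn
  have h5 : Real.log n ≤ 2 * Real.log ((n : ℝ) / 4) := by
    rw [show 2 * Real.log ((n : ℝ) / 4) = Real.log (((n : ℝ) / 4) ^ 2) by
      rw [Real.log_pow]; push_cast; rfl]
    exact Real.log_le_log (by positivity) (by nlinarith)
  rw [div_mul_eq_mul_div, one_mul, div_le_iff₀ (by positivity)]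
  linarith

end

end Vale.Agent.P150.High
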