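import Vale.Agent.P150.High.PairExpand

/-!
Bounds for the coefficients of the two-site expansion.
-/

namespace Vale.Agent.P150.High.Pair

open Real

noncomputable section

variable {t m k a b d : ℝ}

theorem horner {t r S A B : ℝ} (ht : |t| ≤ 1 / 20) (hr : |r| ≤ A) (hS : |S| ≤ B) :
    |r + t * S| ≤ A + B / 20 := by
  calc |r + t * S| ≤ |r| + |t| * |S| := (abs_add_le _ _).trans (by rw [abs_mul])
    _ ≤ A + 1 / 20 * B := by
      gcongr
    _ = _ := by ring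

theorem abs_pow_le_one {x : ℝ} (hx : |x| ≤ 1) (i : ℕ) : |x ^ i| ≤ 1 := by
  rw [abs_pow]; exact pow_le_one₀ (abs_nonneg _) hx

theorem mon (hm : |m| ≤ 1) (hk : |k| ≤ 1) (i j : ℕ) :
    -1 ≤ m ^ i * k ^ j ∧ m ^ i * k ^ j ≤ 1 :=
  abs_le.1 (abs_mul_le_one (abs_pow_le_one hm i) (abs_pow_le_one hk j))

theorem cab_le (ht : |t| ≤ 1 / 20) (hm : |m| ≤ 1) (hk : |k| ≤ 1) :
    |cab t m k + 8 * m * k * t ^ 2| ≤ 30 * |t| ^ 3 := by
  have hM := mon hm hk
  have q0 := hM 1 1; have q1 := hM 2 2; have q2 := hM 1 3; have q3 := hM 3 1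
  have q4 := hM 0 2; have q5 := hM 2 0; have q6 := hM 3 3
  simp only [pow_one, pow_zero, one_mul, mul_one] at q0 q1 q2 q3 q4 q5 q6
  unfold cab
  set r3 := -4 + 16 * m ^ 2 * k ^ 2 with e3
  set r4 := 28 * m * k - 8 * m * k ^ 3 - 8 * m ^ 3 * k with e4
  set r5 := 4 * k ^ 2 + 4 * m ^ 2 - 32 * m ^ 2 * k ^ 2 with e5
  set r6 := -16 * m * k + 4 * m * k ^ 3 + 4 * m ^ 3 * k + 8 * m ^ 3 * k ^ 3 with e6
  set r7 := 12 * m ^ 2 * k ^ 2 with e7
  set r8 := -4 * m ^ 3 * k ^ 3 with e8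
  have b3 : |r3| ≤ 20 := abs_le.2 ⟨by linarith, by linarith⟩
  have b4 : |r4| ≤ 44 := abs_le.2 ⟨by linarith, by linarith⟩
  have b5 : |r5| ≤ 40 := abs_le.2 ⟨by linarith, by linarith⟩
  have b6 : |r6| ≤ 32 := abs_le.2 ⟨by linarith, by linarith⟩
  have b7 : |r7| ≤ 12 := abs_le.2 ⟨by linarith, by linarith⟩
  have b8 : |r8| ≤ 4 := abs_le.2 ⟨by linarith, by linarith⟩
  set R := r3 + t * (r4 + t * (r5 + t * (r6 + t * (r7 + t * r8)))) with eR
  have hR : |R| ≤ 30 :=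
    (horner ht b3 (horner ht b4 (horner ht b5 (horner ht b6 (horner ht b7 b8))))).trans (by norm_num)
  rw [show t ^ 2 * (-8 * m * k + t * R) + 8 * m * k * t ^ 2 = t ^ 3 * R by ring, abs_mul, abs_pow,
    mul_comm]
  gcongr

theorem cad_le (ht : |t| ≤ 1 / 20) (hm : |m| ≤ 1) (hk : |k| ≤ 1) :
    |cad t m k| ≤ 11 * t ^ 2 := by
  have hM := mon hm hk
  have q0 := hM 2 1; have q1 := hM 1 0; have q2 := hM 1 2; have q3 := hM 3 0
  have q4 := hM 0 1; have q5 := hM 2 3; have q6 := hM 3 2; have q7 := hM 0 3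
  simp only [pow_one, pow_zero, one_mul, mul_one] at q0 q1 q2 q3 q4 q5 q6 q7
  unfold cad
  set r2 := -8 * m ^ 2 * k with e2
  set r3 := -12 * m + 16 * m * k ^ 2 + 8 * m ^ 3 with e3
  set r4 := 4 * k + 16 * m ^ 2 * k - 8 * m ^ 2 * k ^ 3 with e4
  set r5 := 8 * m - 20 * m * k ^ 2 - 4 * m ^ 3 - 8 * m ^ 3 * k ^ 2 with e5
  set r6 := -4 * k ^ 3 - 12 * m ^ 2 * k + 16 * m ^ 2 * k ^ 3 with e6
  set r7 := 8 * m * k ^ 2 + 4 * m ^ 3 * k ^ 2 with e7
  set r8 := -4 * m ^ 2 * k ^ 3 with e8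
  have b2 : |r2| ≤ 8 := abs_le.2 ⟨by linarith, by linarith⟩
  have b3 : |r3| ≤ 36 := abs_le.2 ⟨by linarith, by linarith⟩
  have b4 : |r4| ≤ 28 := abs_le.2 ⟨by linarith, by linarith⟩
  have b5 : |r5| ≤ 40 := abs_le.2 ⟨by linarith, by linarith⟩
  have b6 : |r6| ≤ 32 := abs_le.2 ⟨by linarith, by linarith⟩
  have b7 : |r7| ≤ 12 := abs_le.2 ⟨by linarith, by linarith⟩
  have b8 : |r8| ≤ 4 := abs_le.2 ⟨by linarith, by linarith⟩
  have hR : |r2 + t * (r3 + t * (r4 + t * (r5 + t * (r6 + t * (r7 + t * r8)))))| ≤ 11 :=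
    (horner ht b2 (horner ht b3 (horner ht b4 (horner ht b5 (horner ht b6
      (horner ht b7 b8)))))).trans (by norm_num)
  rw [abs_mul, abs_of_nonneg (sq_nonneg t), mul_comm]
  gcongr

theorem cdd_ge (ht : |t| ≤ 1 / 20) (hm : |m| ≤ 1) (hk : |k| ≤ 1) : 3 ≤ cdd t m k := by
  have hM := mon hm hk
  have q0 := hM 1 1; have q1 := hM 0 2; have q2 := hM 2 0; have q3 := hM 1 3
  have q4 := hM 3 1; have q5 := hM 2 2; have q6 := hM 3 3
  simp only [pow_one, pow_zero, one_mul, mul_one] at q0 q1 q2 q3 q4 q5 q6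
  unfold cdd
  set r1 := 4 * m * k with e1
  set r2 := 4 - 12 * k ^ 2 - 12 * m ^ 2 with e2
  set r3 := -8 * m * k + 4 * m * k ^ 3 + 4 * m ^ 3 * k with e3
  set r4 := -4 + 12 * k ^ 2 + 12 * m ^ 2 + 4 * m ^ 2 * k ^ 2 with e4
  set r5 := -8 * m * k ^ 3 - 8 * m ^ 3 * k + 4 * m ^ 3 * k ^ 3 with e5
  set r6 := -4 * k ^ 2 - 4 * m ^ 2 + 4 * m ^ 2 * k ^ 2 with e6
  set r7 := 8 * m * k ^ 3 + 8 * m ^ 3 * k - 8 * m ^ 3 * k ^ 3 with e7
  set r8 := -4 * m ^ 2 * k ^ 2 with e8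
  have b0 : |(0 : ℝ)| ≤ 0 := by simp
  have b1 : |r1| ≤ 4 := abs_le.2 ⟨by linarith, by linarith⟩
  have b2 : |r2| ≤ 28 := abs_le.2 ⟨by linarith, by linarith⟩
  have b3 : |r3| ≤ 16 := abs_le.2 ⟨by linarith, by linarith⟩
  have b4 : |r4| ≤ 32 := abs_le.2 ⟨by linarith, by linarith⟩
  have b5 : |r5| ≤ 20 := abs_le.2 ⟨by linarith, by linarith⟩
  have b6 : |r6| ≤ 12 := abs_le.2 ⟨by linarith, by linarith⟩
  have b7 : |r7| ≤ 24 := abs_le.2 ⟨by linarith, by linarith⟩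
  have b8 : |r8| ≤ 4 := abs_le.2 ⟨by linarith, by linarith⟩
  have h := (horner ht b0 (horner ht b1 (horner ht b2 (horner ht b3 (horner ht b4 (horner ht b5
    (horner ht b6 (horner ht b7 b8))))))))
  rw [zero_add] at h
  have h' := (abs_le.1 (h.trans (by norm_num : _ ≤ (1 : ℝ)))).1
  linarith

/-- The quadratic form after absorbing the mixed terms by `d²`. -/
theorem form_ge {A B C D X Y n₁ n₂ : ℝ} (ht : |t| ≤ 1 / 20) (hm : |m| ≤ 1) (hk : |k| ≤ 1)
    (hA : |A + 8 * m * k * t ^ 2| ≤ 30 * |t| ^ 3) (hB : |B| ≤ 11 * t ^ 2) (hC : |C| ≤ 11 * t ^ 2)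
    (hD : 3 ≤ D) (hn1 : |n₁| ≤ 1) (hn2 : |n₂| ≤ 1) :
    -(8 * t ^ 2 * |m * k * (X * Y)|) - 100 * |t| ^ 3 * (X ^ 2 + Y ^ 2) ≤
      A * ((X - d * n₁) * (Y - d * n₂)) + B * ((X - d * n₁) * d) + C * ((Y - d * n₂) * d) +
        D * d ^ 2 := by
  set s := |t| with hs
  have hs0 : 0 ≤ s := abs_nonneg t
  have hts : t ^ 2 = s ^ 2 := (sq_abs t).symm
  rw [hts] at hA hB hC ⊢
  set x := |X| with hx
  set y := |Y| with hy
  set e := |d| with he
  have hX : X ^ 2 = x ^ 2 := (sq_abs X).symm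
  have hY : Y ^ 2 = y ^ 2 := (sq_abs Y).symm
  have hd : d ^ 2 = e ^ 2 := (sq_abs d).symm
  have hx0 : 0 ≤ x := abs_nonneg X
  have hy0 : 0 ≤ y := abs_nonneg Y
  have he0 : 0 ≤ e := abs_nonneg d
  have f1 : |X - d * n₁| ≤ x + e := (abs_sub _ _).trans (by
    rw [abs_mul]; nlinarith [abs_nonneg n₁])
  have f2 : |Y - d * n₂| ≤ y + e := (abs_sub _ _).trans (by
    rw [abs_mul]; nlinarith [abs_nonneg n₂])
  have f3 : |(X - d * n₁) * (Y - d * n₂) - X * Y| ≤ e * y + x * e + e * e := by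
    rw [show (X - d * n₁) * (Y - d * n₂) - X * Y
        = -(d * n₁ * Y) + (-(X * (d * n₂))) + d * n₁ * (d * n₂) by ring]
    refine (abs_add_three _ _ _).trans ?_
    simp only [abs_neg, abs_mul]
    have g1 : e * |n₁| ≤ e := mul_le_of_le_one_right he0 hn1
    have g2 : e * |n₂| ≤ e := mul_le_of_le_one_right he0 hn2
    gcongr
  have p0 : |m * k| ≤ 1 := abs_mul_le_one hm hk
  have p1 : -(8 * s ^ 2 * |m * k * (X * Y)|) - 8 * s ^ 2 * (e * y + x * e + e * e) ≤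
      -8 * m * k * s ^ 2 * ((X - d * n₁) * (Y - d * n₂)) := by
    have i1 : |m * k * ((X - d * n₁) * (Y - d * n₂) - X * Y)| ≤ 1 * (e * y + x * e + e * e) := by
      rw [abs_mul]; exact mul_le_mul p0 f3 (abs_nonneg _) zero_le_one
    have i2 := (abs_le.1 i1).2
    have i3 := le_abs_self (m * k * (X * Y))
    have hs2 : 0 ≤ 8 * s ^ 2 := by positivity
    nlinarith [mul_le_mul_of_nonneg_left i2 hs2, mul_le_mul_of_nonneg_left i3 hs2]
  have p2 : -(30 * s ^ 3 * ((x + e) * (y + e))) ≤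
      (A + 8 * m * k * s ^ 2) * ((X - d * n₁) * (Y - d * n₂)) := by
    refine le_trans (neg_le_neg ?_) (neg_abs_le _)
    rw [abs_mul, abs_mul]
    exact mul_le_mul hA (mul_le_mul f1 f2 (abs_nonneg _) (by positivity))
      (by positivity) (by positivity)
  have p3 : -(11 * s ^ 2 * ((x + e) * e)) ≤ B * ((X - d * n₁) * d) := by
    refine le_trans (neg_le_neg ?_) (neg_abs_le _)
    rw [abs_mul, abs_mul]
    exact mul_le_mul hB (mul_le_mul_of_nonneg_right f1 he0) (by positivity) (by positivity)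
  have p4 : -(11 * s ^ 2 * ((y + e) * e)) ≤ C * ((Y - d * n₂) * d) := by
    refine le_trans (neg_le_neg ?_) (neg_abs_le _)
    rw [abs_mul, abs_mul]
    exact mul_le_mul hC (mul_le_mul_of_nonneg_right f2 he0) (by positivity) (by positivity)
  have p5 : 3 * e ^ 2 ≤ D * d ^ 2 := by rw [hd]; exact mul_le_mul_of_nonneg_right hD (sq_nonneg e)
  have k1 : 30 * s ^ 3 * ((x + e) * (y + e)) ≤ 30 * s ^ 3 * (x ^ 2 + y ^ 2 + 2 * e ^ 2) := by
    refine mul_le_mul_of_nonneg_left ?_ (by positivity)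
    linarith only [sq_nonneg (x - y), sq_nonneg (x - e), sq_nonneg (y - e)]
  have k2 : 19 * s ^ 2 * (x * e) ≤ e ^ 2 + 5 * s ^ 3 * x ^ 2 := by
    have : 0 ≤ (1 - 20 * s) * (s ^ 3 * x ^ 2) := mul_nonneg (by linarith) (by positivity)
    linarith only [sq_nonneg (e - 19 / 2 * s ^ 2 * x), this,
      (mul_nonneg (pow_nonneg hs0 3) (sq_nonneg x) : 0 ≤ s ^ 3 * x ^ 2)]
  have k3 : 19 * s ^ 2 * (y * e) ≤ e ^ 2 + 5 * s ^ 3 * y ^ 2 := by
    have : 0 ≤ (1 - 20 * s) * (s ^ 3 * y ^ 2) := mul_nonneg (by linarith) (by positivity)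
    linarith only [sq_nonneg (e - 19 / 2 * s ^ 2 * y), this,
      (mul_nonneg (pow_nonneg hs0 3) (sq_nonneg y) : 0 ≤ s ^ 3 * y ^ 2)]
  have k4 : (60 * s ^ 3 + 30 * s ^ 2) * e ^ 2 ≤ 1 * e ^ 2 := by
    refine mul_le_mul_of_nonneg_right ?_ (sq_nonneg e)
    have w3 := pow_le_pow_left₀ hs0 ht 3
    have w2 := pow_le_pow_left₀ hs0 ht 2
    norm_num at w3 w2
    linarith
  rw [hX, hY]
  have z1 : 0 ≤ s ^ 3 * x ^ 2 := by positivity
  have z2 : 0 ≤ s ^ 3 * y ^ 2 := by positivity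
  rw [hd] at p5
  rw [hd]
  linarith

theorem law_nonneg {σ τ : ℝ} (ht : |t| ≤ 1 / 20) (hm : |m| ≤ 1) (hk : |k| ≤ 1) (hσ : |σ| ≤ 1)
    (hτ : |τ| ≤ 1) : 0 ≤ law t m k σ τ := by
  have h1 := (abs_le.1 (abs_mul_le_one hσ hm)).1
  have h2 := (abs_le.1 (abs_mul_le_one hτ hk)).1
  have h3 := den_pos ht (abs_mul_le_one hσ hτ)
  have h4 := den_pos ht (abs_mul_le_one hm hk)
  rw [← mul_assoc] at h3 h4
  unfold law
  exact div_nonneg (mul_nonneg (mul_nonneg (by linarith) (by linarith)) (by linarith)) (by linarith)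

theorem cm_bounds {τ : ℝ} (ht : |t| ≤ 1 / 20) (hm : |m| ≤ 1) (hτ : τ ^ 2 = 1) :
    0 ≤ 1 - cm t m τ ^ 2 ∧ 1 - cm t m τ ^ 2 ≤ 1 ∧ 4 / 5 * (1 - m ^ 2) ≤ 1 - cm t m τ ^ 2 ∧
      m ^ 2 * (1 - m ^ 2) ^ 2 ≤
        cm t m τ ^ 2 * (1 - cm t m τ ^ 2) ^ 2 + 6 * |t| * (1 - cm t m τ ^ 2) := by
  have aτ : |τ| ≤ 1 := (abs_le_one_iff_mul_self_le_one).2 (by rw [← sq, hτ])
  have hD : 19 / 20 ≤ 1 + t * m * τ := by
    have := den_pos ht (abs_mul_le_one hm aτ); rwa [← mul_assoc] at this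
  have hD' : 1 + t * m * τ ≤ 21 / 20 := by
    have := den_pos ht (x := -(m * τ)) (by rw [abs_neg]; exact abs_mul_le_one hm aτ); linarith
  have hv : 0 ≤ 1 - m ^ 2 := by nlinarith [(abs_le.1 hm).1, (abs_le.1 hm).2]
  have ht2 : t ^ 2 ≤ 1 / 400 := by rw [← sq_abs]; nlinarith [abs_nonneg t]
  set D := 1 + t * m * τ with hDdef
  set c := cm t m τ with hc
  have e : 1 - c ^ 2 = (1 - m ^ 2) * (1 - t ^ 2) / D ^ 2 := one_sub_cm_sq hτ (by linarith)
  have g1 : 0 ≤ 1 - c ^ 2 := by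
    rw [e]; exact div_nonneg (mul_nonneg hv (by linarith)) (sq_nonneg _)
  have g2 : 1 - c ^ 2 ≤ 1 := by nlinarith [sq_nonneg c]
  have g3 : 4 / 5 * (1 - m ^ 2) ≤ 1 - c ^ 2 := by
    rw [e, le_div_iff₀ (by positivity)]
    have : 4 / 5 * D ^ 2 ≤ 1 - t ^ 2 := by nlinarith
    nlinarith [mul_le_mul_of_nonneg_left this hv]
  refine ⟨g1, g2, g3, ?_⟩
  have hdiff : c - m = t * τ * (1 - m ^ 2) / D := by
    rw [hc, cm, ← hDdef, div_sub' (by linarith : D ≠ 0)]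
    congr 1
    rw [hDdef]; ring
  have hΔ : |c - m| ≤ 3 / 2 * |t| * (1 - c ^ 2) := by
    rw [hdiff, abs_div, abs_mul, abs_mul, abs_of_nonneg hv, abs_of_pos (by linarith : 0 < D),
      div_le_iff₀ (by linarith)]
    have i1 : 0 ≤ |t| * (1 - c ^ 2) := mul_nonneg (abs_nonneg t) g1
    have i2 : |t| * |τ| * (1 - m ^ 2) ≤ |t| * (1 - m ^ 2) :=
      mul_le_mul_of_nonneg_right (mul_le_of_le_one_right (abs_nonneg t) aτ) hv
    nlinarith [mul_le_mul_of_nonneg_left g3 (abs_nonneg t), mul_le_mul_of_nonneg_left hD i1]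
  set F := m * (1 - m ^ 2) with hF
  set G := c * (1 - c ^ 2) with hG
  have hm2 : m ^ 2 ≤ 1 := by linarith
  have hc2 : c ^ 2 ≤ 1 := by linarith
  have hFG : |F - G| ≤ 2 * |c - m| := by
    rw [hF, hG, show m * (1 - m ^ 2) - c * (1 - c ^ 2) = (c - m) * (c ^ 2 + c * m + m ^ 2 - 1) by
      ring, abs_mul, mul_comm 2]
    refine mul_le_mul_of_nonneg_left (abs_le.2 ⟨?_, ?_⟩) (abs_nonneg _)
    · nlinarith [sq_nonneg (c + m)]
    · nlinarith [sq_nonneg (c - m)]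
  have hF1 : |F| ≤ 1 := abs_mul_le_one hm (by rw [abs_of_nonneg hv]; nlinarith [sq_nonneg m])
  have hc1 : |c| ≤ 1 := abs_le_one_iff_mul_self_le_one.2 (by nlinarith)
  have hG1 : |G| ≤ 1 := abs_mul_le_one hc1 (by rw [abs_of_nonneg g1]; exact g2)
  have hmain : F ^ 2 - G ^ 2 ≤ 6 * |t| * (1 - c ^ 2) := by
    calc F ^ 2 - G ^ 2 ≤ |(F - G) * (F + G)| := by
          rw [show (F - G) * (F + G) = F ^ 2 - G ^ 2 by ring]; exact le_abs_self _
      _ ≤ (2 * |c - m|) * 2 := by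
          rw [abs_mul]
          exact mul_le_mul hFG ((abs_add_le _ _).trans (by linarith)) (abs_nonneg _) (by positivity)
      _ ≤ _ := by linarith
  rw [hF, hG, mul_pow, mul_pow] at hmain
  linarith

/-- The weight of the value `τ` of the second spin. -/
def marg (t m k τ : ℝ) : ℝ := law t m k 1 τ + law t m k (-1) τ

theorem marg_facts (ht : |t| ≤ 1 / 20) (hm : |m| ≤ 1) (hk : |k| ≤ 1) :
    0 ≤ marg t m k 1 ∧ 0 ≤ marg t m k (-1) ∧ marg t m k 1 + marg t m k (-1) = 1 := by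
  have h : ∀ σ τ : ℝ, |σ| ≤ 1 → |τ| ≤ 1 → 0 ≤ law t m k σ τ := fun σ τ => law_nonneg ht hm hk
  refine ⟨add_nonneg (h _ _ (by simp) (by simp)) (h _ _ (by simp) (by simp)),
    add_nonneg (h _ _ (by simp) (by simp)) (h _ _ (by simp) (by simp)), ?_⟩
  have h4 := den_pos ht (abs_mul_le_one hm hk)
  rw [← mul_assoc] at h4
  simp only [marg, law]
  rw [← add_div, ← add_div, ← add_div, div_eq_one_iff_eq (by linarith)]
  ring

/-- The two sums over one site control the squared mean of its derivative. -/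
theorem mean_bounds (ht : |t| ≤ 1 / 20) (hm : |m| ≤ 1) (hk : |k| ≤ 1) (X : ℝ)
    (hX : X = marg t m k 1 * (a + d) + marg t m k (-1) * (a - d)) :
    4 / 5 * ((1 - m ^ 2) * X ^ 2) ≤ enI t m k a d ∧
      m ^ 2 * (1 - m ^ 2) ^ 2 * X ^ 2 ≤ phI t m k a d + 6 * |t| * enI t m k a d ∧
      phI t m k a d ≤ enI t m k a d := by
  obtain ⟨q1, q2, q3⟩ := marg_facts ht hm hk
  obtain ⟨a1, b1, c1, d1⟩ := cm_bounds (τ := 1) ht hm (one_pow 2)
  obtain ⟨a2, b2, c2, d2⟩ := cm_bounds (τ := -1) ht hm (by norm_num)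
  have hv : 0 ≤ 1 - m ^ 2 := by nlinarith [(abs_le.1 hm).1, (abs_le.1 hm).2]
  set p := marg t m k 1
  set q := marg t m k (-1)
  have eE : enI t m k a d = p * ((1 - cm t m 1 ^ 2) * (a + d) ^ 2) +
      q * ((1 - cm t m (-1) ^ 2) * (a - d) ^ 2) := by
    simp only [enI, S4, p, q, marg]; ring
  have eP : phI t m k a d = p * (cm t m 1 ^ 2 * (1 - cm t m 1 ^ 2) ^ 2 * (a + d) ^ 2) +
      q * (cm t m (-1) ^ 2 * (1 - cm t m (-1) ^ 2) ^ 2 * (a - d) ^ 2) := by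
    simp only [phI, S4, p, q, marg]; ring
  have hsq : X ^ 2 ≤ p * (a + d) ^ 2 + q * (a - d) ^ 2 := by
    rw [hX, show q = 1 - p by linarith]
    nlinarith [mul_nonneg (mul_nonneg q1 (by linarith : 0 ≤ 1 - p)) (sq_nonneg (2 * d))]
  set u := (a + d) ^ 2 with hu
  set w := (a - d) ^ 2 with hw
  have u0 : 0 ≤ p * u := mul_nonneg q1 (sq_nonneg _)
  have w0 : 0 ≤ q * w := mul_nonneg q2 (sq_nonneg _)
  refine ⟨?_, ?_, ?_⟩
  · rw [eE]
    linarith only [mul_le_mul_of_nonneg_left hsq hv, mul_le_mul_of_nonneg_left c1 u0,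
      mul_le_mul_of_nonneg_left c2 w0]
  · rw [eE, eP]
    have hφ : 0 ≤ m ^ 2 * (1 - m ^ 2) ^ 2 := by positivity
    linarith only [mul_le_mul_of_nonneg_left hsq hφ, mul_le_mul_of_nonneg_left d1 u0,
      mul_le_mul_of_nonneg_left d2 w0]
  · rw [eE, eP]
    have k : ∀ c : ℝ, 0 ≤ 1 - c ^ 2 → c ^ 2 * (1 - c ^ 2) ^ 2 ≤ 1 - c ^ 2 := by
      intro c h
      nlinarith [mul_nonneg h h, mul_nonneg (mul_nonneg h h) h, sq_nonneg c]
    linarith only [mul_le_mul_of_nonneg_left (k _ a1) u0, mul_le_mul_of_nonneg_left (k _ a2) w0]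

theorem law_swap (σ τ : ℝ) : law t m k σ τ = law t k m τ σ := by
  unfold law; ring

theorem enJ_eq : enJ t m k b d = enI t k m b d := by
  simp only [enJ, enI, S4, law_swap (t := t) (m := m) (k := k)]; ring

theorem phJ_eq : phJ t m k b d = phI t k m b d := by
  simp only [phJ, phI, S4, law_swap (t := t) (m := m) (k := k)]; ring

theorem abs_corr_le (ht : |t| ≤ 1 / 20) (hm : |m| ≤ 1) (hk : |k| ≤ 1) :
    |corr t m k a b d| ≤ (enI t m k a d + enJ t m k b d) / 2 := by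
  have key : ∀ σ τ : ℝ, σ ^ 2 = 1 → τ ^ 2 = 1 →
      |law t m k σ τ * (1 - cm t m τ ^ 2) * (1 - cm t k σ ^ 2) * (a + d * τ) * (b + d * σ)| ≤
      (law t m k σ τ * (1 - cm t m τ ^ 2) * (a + d * τ) ^ 2 +
        law t m k σ τ * (1 - cm t k σ ^ 2) * (b + d * σ) ^ 2) / 2 := by
    intro σ τ hσ hτ
    obtain ⟨a1, b1, -, -⟩ := cm_bounds ht hm hτ
    obtain ⟨a2, b2, -, -⟩ := cm_bounds ht hk hσ
    have hp : 0 ≤ law t m k σ τ := law_nonneg ht hm hk
      ((abs_le_one_iff_mul_self_le_one).2 (by rw [← sq, hσ]))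
      ((abs_le_one_iff_mul_self_le_one).2 (by rw [← sq, hτ]))
    set p := law t m k σ τ
    set v := 1 - cm t m τ ^ 2
    set z := 1 - cm t k σ ^ 2
    set u := a + d * τ
    set w := b + d * σ
    rw [abs_mul, abs_mul, abs_mul, abs_mul, abs_of_nonneg hp, abs_of_nonneg a1, abs_of_nonneg a2]
    have i1 : v * z * (2 * (|u| * |w|)) ≤ v * u ^ 2 + z * w ^ 2 := by
      have j1 := mul_le_mul_of_nonneg_left b2 (mul_nonneg a1 (sq_nonneg |u|))
      have j2 := mul_le_mul_of_nonneg_left b1 (mul_nonneg a2 (sq_nonneg |w|))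
      have j3 := mul_nonneg (mul_nonneg a1 a2) (sq_nonneg (|u| - |w|))
      rw [← sq_abs u, ← sq_abs w]
      linarith
    have i2 := mul_le_mul_of_nonneg_left i1 hp
    linarith
  have e1 := key 1 1 (one_pow 2) (one_pow 2)
  have e2 := key 1 (-1) (one_pow 2) (by norm_num)
  have e3 := key (-1) 1 (by norm_num) (one_pow 2)
  have e4 := key (-1) (-1) (by norm_num) (by norm_num)
  simp only [corr, enI, enJ, S4]
  refine (abs_add_le _ _).trans ?_
  grw [abs_add_three]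
  linarith

theorem tanh_bound {J : ℝ} (hJ : |J| ≤ 1 / 40) : |tanh J - J| ≤ 5 * |J| ^ 3 := by
  have h := Real.exp_bound (x := 2 * J) (by rw [abs_mul, abs_two]; linarith)
    (n := 3) (by norm_num)
  simp only [Finset.sum_range_succ, Finset.sum_range_zero] at h
  norm_num [Nat.factorial] at h
  set r := exp (2 * J) - (1 + 2 * J + (2 * J) ^ 2 / 2) with hr
  have hr' : |r| ≤ 2 * |J| ^ 3 := by
    refine h.trans ?_
    rw [mul_pow]
    nlinarith [pow_nonneg (abs_nonneg J) 3]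
  have he : exp (2 * J) = 1 + 2 * J + 2 * J ^ 2 + r := by rw [hr]; ring
  have htanh : tanh J = (exp (2 * J) - 1) / (exp (2 * J) + 1) := by
    rw [tanh_eq, show 2 * J = J + J by ring, exp_add, exp_neg]
    have := exp_pos J
    field_simp
  have hj := abs_le.1 hJ
  have hd : (3 : ℝ) / 2 ≤ exp (2 * J) + 1 := by
    have := (abs_le.1 hr').1
    have : |J| ^ 3 ≤ 1 / 40 := (pow_le_of_le_one (abs_nonneg J) (by linarith) (by norm_num)).trans hJ
    nlinarith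
  rw [htanh, div_sub' (by linarith : exp (2 * J) + 1 ≠ 0), abs_div,
    abs_of_pos (by linarith : (0 : ℝ) < exp (2 * J) + 1), div_le_iff₀ (by linarith)]
  have e : exp (2 * J) - 1 - (exp (2 * J) + 1) * J = r * (1 - J) - 2 * J ^ 3 := by rw [he]; ring
  rw [e]
  calc |r * (1 - J) - 2 * J ^ 3| ≤ |r| * |1 - J| + 2 * |J| ^ 3 := by
        refine (abs_sub _ _).trans ?_
        rw [abs_mul, abs_mul, abs_pow, abs_two]
    _ ≤ 2 * |J| ^ 3 * 2 + 2 * |J| ^ 3 :=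
        add_le_add (mul_le_mul hr' (abs_le.2 ⟨by linarith, by linarith⟩) (abs_nonneg _)
          (by positivity)) le_rfl
    _ ≤ _ := by
        have := mul_le_mul_of_nonneg_left hd (pow_nonneg (abs_nonneg J) 3)
        nlinarith [pow_nonneg (abs_nonneg J) 3]

/-- The bound for one pair of sites. -/
theorem pair_bound {J : ℝ} (hJ : |J| ≤ 1 / 40) (hm : |m| ≤ 1) (hk : |k| ≤ 1) :
    -(J ^ 2 * (phI (tanh J) m k a d + phJ (tanh J) m k b d)) -
        100 * |J| ^ 3 * (enI (tanh J) m k a d + enJ (tanh J) m k b d) ≤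
      cross (tanh J) m k a b d + J * corr (tanh J) m k a b d := by
  have hdt := tanh_bound hJ
  set t := tanh J
  set s := |t| with hs
  set r := |J| with hrr
  have r0 : 0 ≤ r := abs_nonneg J
  have hr3 : r ^ 3 ≤ r * (1 / 1600) := by
    have := mul_le_mul_of_nonneg_left (pow_le_pow_left₀ r0 hJ 2) r0
    norm_num at this; linarith
  have hsr : s ≤ r + 5 * r ^ 3 := by
    calc s = |(t - J) + J| := by rw [hs]; ring_nf
      _ ≤ _ := (abs_add_le _ _).trans (by linarith)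
  have ht : |t| ≤ 1 / 20 := by rw [← hs]; linarith
  have s0 : 0 ≤ s := abs_nonneg t
  set p := marg t m k 1
  set q := marg t m k (-1)
  set p' := marg t k m 1
  set q' := marg t k m (-1)
  obtain ⟨q1, q2, q3⟩ := marg_facts ht hm hk
  obtain ⟨r1, r2, r3⟩ := marg_facts ht hk hm
  set X := p * (a + d) + q * (a - d) with hX
  set Y := p' * (b + d) + q' * (b - d) with hY
  obtain ⟨I1, I2, I3⟩ := mean_bounds (a := a) (d := d) ht hm hk X hX
  obtain ⟨J1, J2, J3⟩ := mean_bounds (a := b) (d := d) ht hk hm Y hY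
  rw [← enJ_eq (m := m)] at J1 J2 J3
  rw [← phJ_eq (m := m)] at J2 J3
  have hexp := expansion (a := a) (b := b) (d := d) ht hm hk
  have hform := form_ge (t := t) (m := m) (k := k) (d := d) (X := X) (Y := Y) (n₁ := p - q)
    (n₂ := p' - q') ht hm hk (cab_le ht hm hk) (cad_le ht hm hk) (cad_le ht hk hm)
    (cdd_ge ht hm hk) (abs_le.2 ⟨by linarith only [q1, q2, q3], by linarith only [q1, q2, q3]⟩)
    (abs_le.2 ⟨by linarith only [r1, r2, r3], by linarith only [r1, r2, r3]⟩)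
  have ea : X - d * (p - q) = a := by rw [hX, show q = 1 - p by linarith]; ring
  have eb : Y - d * (p' - q') = b := by rw [hY, show q' = 1 - p' by linarith]; ring
  rw [ea, eb] at hform
  set v := 1 - m ^ 2 with hv
  set z := 1 - k ^ 2 with hz
  have hm2 : m ^ 2 ≤ 1 := (sq_le_one_iff_abs_le_one m).2 hm
  have hk2 : k ^ 2 ≤ 1 := (sq_le_one_iff_abs_le_one k).2 hk
  have v0 : 0 ≤ v := by linarith only [hm2, hv]
  have z0 : 0 ≤ z := by linarith only [hk2, hz]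
  have v1 : v ≤ 1 := by linarith only [sq_nonneg m, hv]
  have z1 : z ≤ 1 := by linarith only [sq_nonneg k, hz]
  set E := enI t m k a d + enJ t m k b d with hE
  set P := phI t m k a d + phJ t m k b d with hP
  have hE0 : 0 ≤ E := by
    linarith only [mul_nonneg v0 (sq_nonneg X), mul_nonneg z0 (sq_nonneg Y), I1, J1, hE]
  set Q := cab t m k * (a * b) + cad t m k * (a * d) + cad t k m * (b * d) + cdd t m k * d ^ 2
  -- the prefactor is at most a quarter of `1 + 2 s`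
  set κ := (1 - t ^ 2) / (4 * (1 + t * m * k) * ((1 - (t * m) ^ 2) * (1 - (t * k) ^ 2)) ^ 2) with hκ
  have hκ0 : 0 ≤ κ ∧ κ ≤ (1 + 2 * s) / 4 := by
    have hN : 1 - s ≤ 1 + t * m * k := by
      have : |t * (m * k)| ≤ s := by
        rw [abs_mul]; exact mul_le_of_le_one_right s0 (abs_mul_le_one hm hk)
      linarith only [(abs_le.1 this).1]
    have hsm : ∀ x : ℝ, |x| ≤ 1 → 1 - s ^ 2 ≤ 1 - (t * x) ^ 2 := by
      intro x hx
      rw [mul_pow, hs, sq_abs]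
      nlinarith only [mul_le_mul_of_nonneg_left ((sq_le_one_iff_abs_le_one x).2 hx) (sq_nonneg t)]
    have hs2 : s ^ 2 ≤ s / 20 := by
      linarith only [mul_le_mul_of_nonneg_left (show s ≤ 1 / 20 from ht) s0]
    have t1 : t ^ 2 = s ^ 2 := (sq_abs t).symm
    have hP : (1 - s ^ 2) ^ 4 ≤ ((1 - (t * m) ^ 2) * (1 - (t * k) ^ 2)) ^ 2 := by
      rw [show (1 - s ^ 2) ^ 4 = ((1 - s ^ 2) * (1 - s ^ 2)) ^ 2 by ring]
      have : 0 ≤ 1 - s ^ 2 := by linarith only [hs2, ht, s0]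
      exact pow_le_pow_left₀ (mul_nonneg this this)
        (mul_le_mul (hsm m hm) (hsm k hk) this (this.trans (hsm m hm))) 2
    have hP' : 1 - 4 * s ^ 2 ≤ (1 - s ^ 2) ^ 4 := by
      have := one_add_mul_le_pow (a := -(s ^ 2)) (by linarith only [hs2, ht, s0]) 4
      push_cast at this
      calc 1 - 4 * s ^ 2 = 1 + 4 * -(s ^ 2) := by ring
        _ ≤ _ := this.trans_eq (by ring)
    have hden : 4 * (1 - s) * (1 - 4 * s ^ 2) ≤
        4 * (1 + t * m * k) * ((1 - (t * m) ^ 2) * (1 - (t * k) ^ 2)) ^ 2 :=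
      mul_le_mul (by linarith only [hN]) (hP'.trans hP) (by linarith only [hs2, ht, s0])
        (by linarith only [hN, ht])
    have hpos : 0 < 4 * (1 - s) * (1 - 4 * s ^ 2) := by
      exact mul_pos (by linarith only [ht]) (by linarith only [hs2, ht, s0])
    refine ⟨div_nonneg (by linarith only [t1, hs2, ht, s0]) (hpos.le.trans hden), ?_⟩
    calc κ ≤ 1 / (4 * (1 - s) * (1 - 4 * s ^ 2)) :=
          div_le_div₀ zero_le_one (by linarith only [sq_nonneg t]) hpos hden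
      _ ≤ _ := by
          rw [div_le_div_iff₀ hpos (by norm_num : (0 : ℝ) < 4)]
          nlinarith only [mul_nonneg s0 (mul_nonneg s0 s0), hs2, s0, ht]
  set L := 8 * t ^ 2 * |m * k * (X * Y)| + 100 * s ^ 3 * (X ^ 2 + Y ^ 2) with hL
  have hL0 : 0 ≤ L := by positivity
  have hQ : -L ≤ Q := by rw [hL]; linarith only [hform]
  have h1 : -((1 + 2 * s) / 4 * (v * z * L)) ≤ cross t m k a b d + t * corr t m k a b d := by
    rw [hexp, show v * z * (1 - t ^ 2) / (4 * (1 + t * m * k) *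
      ((1 - (t * m) ^ 2) * (1 - (t * k) ^ 2)) ^ 2) = v * z * κ by rw [hκ]; ring]
    have i1 := mul_le_mul_of_nonneg_left hQ (mul_nonneg (mul_nonneg v0 z0) hκ0.1)
    have i2 := mul_le_mul_of_nonneg_right hκ0.2 (mul_nonneg (mul_nonneg v0 z0) hL0)
    linarith only [i1, i2]
  have h2 : v * z * L ≤ 4 * s ^ 2 * P + 152 * s ^ 3 * E := by
    have i1 : v * z * |m * k * (X * Y)| ≤ (m ^ 2 * v ^ 2 * X ^ 2 + k ^ 2 * z ^ 2 * Y ^ 2) / 2 := by
      rw [abs_mul, abs_mul, abs_mul]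
      have h := two_mul_le_add_sq (v * |m| * |X|) (z * |k| * |Y|)
      simp only [mul_pow, sq_abs] at h
      linarith only [h]
    have i2 : v * z * (X ^ 2 + Y ^ 2) ≤ 5 / 4 * E := by
      have j1 := mul_le_mul_of_nonneg_left z1 (mul_nonneg v0 (sq_nonneg X))
      have j2 := mul_le_mul_of_nonneg_left v1 (mul_nonneg z0 (sq_nonneg Y))
      linarith only [j1, j2, I1, J1, hE]
    have t1 : t ^ 2 = s ^ 2 := (sq_abs t).symm
    have j1 := mul_le_mul_of_nonneg_left i1 (by positivity : (0 : ℝ) ≤ 8 * s ^ 2)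
    have j2 := mul_le_mul_of_nonneg_left i2 (by positivity : (0 : ℝ) ≤ 100 * s ^ 3)
    have j3 := mul_le_mul_of_nonneg_left (add_le_add I2 J2) (by positivity : (0 : ℝ) ≤ 4 * s ^ 2)
    rw [hL, t1]
    have h0 : 0 ≤ s ^ 3 * E := by positivity
    linarith only [j1, j2, j3, h0, hE, hP]
  have hPE : P ≤ E := by linarith only [I3, J3, hE, hP]
  have h3 : (1 + 2 * s) / 4 * (v * z * L) ≤ s ^ 2 * P + 45 * s ^ 3 * E := by
    have j1 := mul_le_mul_of_nonneg_left h2 (by positivity : (0 : ℝ) ≤ (1 + 2 * s) / 4)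
    have j2 := mul_le_mul_of_nonneg_left hPE (by positivity : (0 : ℝ) ≤ 2 * s ^ 3)
    have j3 := mul_le_mul_of_nonneg_left (show s ≤ 1 / 20 from ht)
      (by positivity : (0 : ℝ) ≤ 76 * (s ^ 3 * E))
    have h0 : 0 ≤ s ^ 3 * E := by positivity
    linarith only [j1, j2, j3, h0]
  -- pass from `t` to `J`
  have h4 : s ^ 2 * P + 45 * s ^ 3 * E ≤ J ^ 2 * P + 92 * r ^ 3 * E := by
    have hP0 : 0 ≤ P := by
      have key0 : ∀ (t m k a d : ℝ), |t| ≤ 1 / 20 → |m| ≤ 1 → |k| ≤ 1 → 0 ≤ phI t m k a d := by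
        intro t m k a d ht hm hk
        have hl := fun σ τ (h : |σ| ≤ 1) (h' : |τ| ≤ 1) => law_nonneg ht hm hk h h'
        have l1 := hl 1 1 (by simp) (by simp); have l2 := hl 1 (-1) (by simp) (by simp)
        have l3 := hl (-1) 1 (by simp) (by simp); have l4 := hl (-1) (-1) (by simp) (by simp)
        simp only [phI, S4]; positivity
      rw [hP, phJ_eq]
      exact add_nonneg (key0 t m k a d ht hm hk) (key0 t k m b d ht hk hm)
    have q0 : s ^ 2 ≤ r ^ 2 + 11 * r ^ 4 := by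
      refine (pow_le_pow_left₀ s0 hsr 2).trans ?_
      nlinarith only [pow_nonneg r0 4, mul_le_mul_of_nonneg_left hr3 (pow_nonneg r0 3)]
    have q3 : s ^ 3 ≤ 2 * r ^ 3 := by
      refine (pow_le_pow_left₀ s0 (hsr.trans (show r + 5 * r ^ 3 ≤ 5 / 4 * r by linarith only [hr3, r0])) 3).trans ?_
      linarith only [pow_nonneg r0 3]
    have q4 : 11 * r ^ 4 ≤ r ^ 3 := by
      linarith only [mul_le_mul_of_nonneg_left hJ (pow_nonneg r0 3), pow_nonneg r0 3]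
    have j1 := mul_le_mul_of_nonneg_right (q0.trans (add_le_add le_rfl q4)) hP0
    have j2 := mul_le_mul_of_nonneg_right q3 hE0
    have j3 := mul_le_mul_of_nonneg_left hPE (pow_nonneg r0 3)
    rw [show J ^ 2 = r ^ 2 from (sq_abs J).symm]
    linarith only [j1, j2, j3, mul_nonneg (pow_nonneg r0 3) hE0]
  have h5 : |(J - t) * corr t m k a b d| ≤ 5 * r ^ 3 * (E / 2) := by
    rw [abs_mul]
    exact mul_le_mul (by rw [abs_sub_comm]; exact hdt) (abs_corr_le ht hm hk) (abs_nonneg _)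
      (by positivity)
  have h6 := (abs_le.1 h5).1
  have h7 : 0 ≤ r ^ 3 * E := by positivity
  linarith only [h1, h3, h4, h6, h7]

end

end Vale.Agent.P150.High.Pair
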