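import Mathlib

/-!
The two-site term of the integrated `Γ₂` expansion.

Two spins `σ, τ` with conditional means `m, k` at vanishing coupling and coupling `J`, `t = tanh J`.
The functions `u = a + d τ`, `w = b + d σ` are the two discrete derivatives of a function.
-/

namespace Vale.Agent.P150.High.Pair

open Real

noncomputable section

/-- Sum over the four values of two spins. -/
def S4 (F : ℝ → ℝ → ℝ) : ℝ := F 1 1 + F 1 (-1) + F (-1) 1 + F (-1) (-1)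

/-- The law of the pair. -/
def law (t m k σ τ : ℝ) : ℝ := (1 + σ * m) * (1 + τ * k) * (1 + t * σ * τ) / (4 * (1 + t * m * k))

/-- The conditional mean of the first spin given the second. -/
def cm (t m τ : ℝ) : ℝ := (m + t * τ) / (1 + t * m * τ)

/-- The `⟨D_i f, D_j f⟩` term. -/
def cross (t m k a b d : ℝ) : ℝ :=
  S4 fun σ τ => law t m k σ τ * (σ - cm t m τ) * (τ - cm t k σ) * (a + d * τ) * (b + d * σ)

/-- The `⟨v_i g_i, v_j g_j⟩` term. -/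
def corr (t m k a b d : ℝ) : ℝ :=
  S4 fun σ τ => law t m k σ τ * (1 - cm t m τ ^ 2) * (1 - cm t k σ ^ 2) * (a + d * τ) * (b + d * σ)

/-- `E[v_i g_i²]`. -/
def enI (t m k a d : ℝ) : ℝ :=
  S4 fun σ τ => law t m k σ τ * (1 - cm t m τ ^ 2) * (a + d * τ) ^ 2

/-- `E[v_j g_j²]`. -/
def enJ (t m k b d : ℝ) : ℝ :=
  S4 fun σ τ => law t m k σ τ * (1 - cm t k σ ^ 2) * (b + d * σ) ^ 2

/-- `E[m_i² v_i² g_i²]`. -/
def phI (t m k a d : ℝ) : ℝ :=
  S4 fun σ τ => law t m k σ τ * (cm t m τ ^ 2 * (1 - cm t m τ ^ 2) ^ 2) * (a + d * τ) ^ 2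

/-- `E[m_j² v_j² g_j²]`. -/
def phJ (t m k b d : ℝ) : ℝ :=
  S4 fun σ τ => law t m k σ τ * (cm t k σ ^ 2 * (1 - cm t k σ ^ 2) ^ 2) * (b + d * σ) ^ 2

/-- The polynomial coefficients of the expansion. -/
def cab (t m k : ℝ) : ℝ :=
  t ^ 2 * (-8 * m * k + t * ((-4 + 16 * m ^ 2 * k ^ 2) +
    t * ((28 * m * k - 8 * m * k ^ 3 - 8 * m ^ 3 * k) +
    t * ((4 * k ^ 2 + 4 * m ^ 2 - 32 * m ^ 2 * k ^ 2) +
    t * ((-16 * m * k + 4 * m * k ^ 3 + 4 * m ^ 3 * k + 8 * m ^ 3 * k ^ 3) +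
    t * ((12 * m ^ 2 * k ^ 2) + t * (-4 * m ^ 3 * k ^ 3)))))))

/-- The coefficient of `a d`. -/
def cad (t m k : ℝ) : ℝ :=
  t ^ 2 * (-8 * m ^ 2 * k + t * ((-12 * m + 16 * m * k ^ 2 + 8 * m ^ 3) +
    t * ((4 * k + 16 * m ^ 2 * k - 8 * m ^ 2 * k ^ 3) +
    t * ((8 * m - 20 * m * k ^ 2 - 4 * m ^ 3 - 8 * m ^ 3 * k ^ 2) +
    t * ((-4 * k ^ 3 - 12 * m ^ 2 * k + 16 * m ^ 2 * k ^ 3) +
    t * ((8 * m * k ^ 2 + 4 * m ^ 3 * k ^ 2) + t * (-4 * m ^ 2 * k ^ 3)))))))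

/-- The coefficient of `d²`. -/
def cdd (t m k : ℝ) : ℝ :=
  4 + t * (4 * m * k +
    t * ((4 - 12 * k ^ 2 - 12 * m ^ 2) +
    t * ((-8 * m * k + 4 * m * k ^ 3 + 4 * m ^ 3 * k) +
    t * ((-4 + 12 * k ^ 2 + 12 * m ^ 2 + 4 * m ^ 2 * k ^ 2) +
    t * ((-8 * m * k ^ 3 - 8 * m ^ 3 * k + 4 * m ^ 3 * k ^ 3) +
    t * ((-4 * k ^ 2 - 4 * m ^ 2 + 4 * m ^ 2 * k ^ 2) +
    t * ((8 * m * k ^ 3 + 8 * m ^ 3 * k - 8 * m ^ 3 * k ^ 3) + t * (-4 * m ^ 2 * k ^ 2))))))))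

variable {t m k a b d : ℝ}

theorem den_pos {t x : ℝ} (ht : |t| ≤ 1 / 20) (hx : |x| ≤ 1) : 19 / 20 ≤ 1 + t * x := by
  have h : |t * x| ≤ 1 / 20 := by
    rw [abs_mul]
    calc |t| * |x| ≤ 1 / 20 * 1 := mul_le_mul ht hx (abs_nonneg _) (by norm_num)
      _ = _ := mul_one _
  linarith [(abs_le.1 h).1]

theorem abs_mul_le_one {x y : ℝ} (hx : |x| ≤ 1) (hy : |y| ≤ 1) : |x * y| ≤ 1 := by
  rw [abs_mul]
  calc |x| * |y| ≤ 1 * 1 := mul_le_mul hx hy (abs_nonneg _) zero_le_one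
    _ = 1 := mul_one _

theorem sub_cm {σ τ : ℝ} (hσ : σ ^ 2 = 1) (h : 1 + t * m * τ ≠ 0) :
    σ - cm t m τ = (σ - m) * (1 - t * σ * τ) / (1 + t * m * τ) := by
  rw [cm, eq_div_iff h, sub_mul, div_mul_cancel₀ _ h]
  linear_combination (t * τ) * hσ

theorem one_sub_cm_sq {τ : ℝ} (hτ : τ ^ 2 = 1) (h : 1 + t * m * τ ≠ 0) :
    1 - cm t m τ ^ 2 = (1 - m ^ 2) * (1 - t ^ 2) / (1 + t * m * τ) ^ 2 := by
  rw [cm, div_pow, eq_div_iff (pow_ne_zero 2 h), sub_mul, div_mul_cancel₀ _ (pow_ne_zero 2 h)]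
  linear_combination (t ^ 2 * (m ^ 2 - 1)) * hτ

/-- The numerator of one summand. -/
def num (t m k σ τ : ℝ) : ℝ :=
  (σ * τ * (1 - t * σ * τ) * (1 + t * m * τ) * (1 + t * k * σ) +
    t * (1 - t ^ 2) * (1 + σ * m) * (1 + τ * k) * (1 + t * σ * τ)) *
    ((1 - t * m * τ) * (1 - t * k * σ)) ^ 2

theorem inv_den_sq {x τ : ℝ} (ht : |t| ≤ 1 / 20) (hx : |x| ≤ 1) (hτ : τ ^ 2 = 1) :
    1 / (1 + t * x * τ) ^ 2 = (1 - t * x * τ) ^ 2 / (1 - (t * x) ^ 2) ^ 2 := by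
  have hxτ : |x * τ| ≤ 1 :=
    abs_mul_le_one hx ((abs_le_one_iff_mul_self_le_one).2 (by rw [← sq, hτ]))
  have h1 := den_pos ht hxτ
  have h2 := den_pos ht hx
  have h3 := den_pos ht (x := -x) (by rwa [abs_neg])
  have h4 : 0 < 1 - (t * x) ^ 2 := by nlinarith
  rw [div_eq_div_iff (pow_ne_zero 2 (by linarith)) (pow_ne_zero 2 h4.ne')]
  rw [show (1 - (t * x) ^ 2) = (1 - t * x * τ) * (1 + t * x * τ) by
    linear_combination (t * x) ^ 2 * hτ]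
  ring

theorem term_eq {σ τ : ℝ} (ht : |t| ≤ 1 / 20) (hm : |m| ≤ 1) (hk : |k| ≤ 1)
    (hσ : σ ^ 2 = 1) (hτ : τ ^ 2 = 1) :
    law t m k σ τ * (σ - cm t m τ) * (τ - cm t k σ) +
        t * (law t m k σ τ * (1 - cm t m τ ^ 2) * (1 - cm t k σ ^ 2)) =
      (1 - m ^ 2) * (1 - k ^ 2) * (1 - t ^ 2) /
          (4 * (1 + t * m * k) * ((1 - (t * m) ^ 2) * (1 - (t * k) ^ 2)) ^ 2) *
        num t m k σ τ := by
  have aτ : |τ| ≤ 1 := (abs_le_one_iff_mul_self_le_one).2 (by rw [← sq, hτ])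
  have aσ : |σ| ≤ 1 := (abs_le_one_iff_mul_self_le_one).2 (by rw [← sq, hσ])
  have h1 : 1 + t * m * τ ≠ 0 := by
    have := den_pos ht (abs_mul_le_one hm aτ); linarith
  have h2 : 1 + t * k * σ ≠ 0 := by
    have := den_pos ht (abs_mul_le_one hk aσ); linarith
  have h3 : 1 + t * m * k ≠ 0 := by
    have := den_pos ht (abs_mul_le_one hm hk); linarith
  have key : law t m k σ τ * (σ - cm t m τ) * (τ - cm t k σ) +
        t * (law t m k σ τ * (1 - cm t m τ ^ 2) * (1 - cm t k σ ^ 2)) =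
      (1 - m ^ 2) * (1 - k ^ 2) * (1 - t ^ 2) / (4 * (1 + t * m * k)) *
        ((σ * τ * (1 - t * σ * τ) * (1 + t * m * τ) * (1 + t * k * σ) +
          t * (1 - t ^ 2) * (1 + σ * m) * (1 + τ * k) * (1 + t * σ * τ)) *
          (1 / (1 + t * m * τ) ^ 2 * (1 / (1 + t * k * σ) ^ 2))) := by
    rw [sub_cm hσ h1, sub_cm hτ h2, one_sub_cm_sq hτ h1, one_sub_cm_sq hσ h2, law]
    have i1 : (1 + σ * m) * (σ - m) = σ * (1 - m ^ 2) := by linear_combination m * hσ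
    have i2 : (1 + τ * k) * (τ - k) = τ * (1 - k ^ 2) := by linear_combination k * hτ
    have i3 : (1 + t * σ * τ) * (1 - t * σ * τ) = 1 - t ^ 2 := by
      linear_combination (-(t ^ 2 * τ ^ 2)) * hσ - t ^ 2 * hτ
    calc (1 + σ * m) * (1 + τ * k) * (1 + t * σ * τ) / (4 * (1 + t * m * k)) *
            ((σ - m) * (1 - t * σ * τ) / (1 + t * m * τ)) *
            ((τ - k) * (1 - t * τ * σ) / (1 + t * k * σ)) +
          t * ((1 + σ * m) * (1 + τ * k) * (1 + t * σ * τ) / (4 * (1 + t * m * k)) *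
            ((1 - m ^ 2) * (1 - t ^ 2) / (1 + t * m * τ) ^ 2) *
            ((1 - k ^ 2) * (1 - t ^ 2) / (1 + t * k * σ) ^ 2))
        = ((1 + σ * m) * (σ - m)) * ((1 + τ * k) * (τ - k)) *
            (((1 + t * σ * τ) * (1 - t * σ * τ)) * (1 - t * σ * τ)) / (4 * (1 + t * m * k)) *
            ((1 + t * m * τ) / (1 + t * m * τ) ^ 2 * ((1 + t * k * σ) / (1 + t * k * σ) ^ 2)) +
          t * ((1 + σ * m) * (1 + τ * k) * (1 + t * σ * τ) / (4 * (1 + t * m * k)) *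
            ((1 - m ^ 2) * (1 - t ^ 2) / (1 + t * m * τ) ^ 2) *
            ((1 - k ^ 2) * (1 - t ^ 2) / (1 + t * k * σ) ^ 2)) := by
          field_simp
      _ = _ := by rw [i1, i2, i3]; ring
  rw [key, inv_den_sq ht hm hτ, inv_den_sq ht hk hσ, num]
  generalize (1 - (t * m) ^ 2) = p, (1 - (t * k) ^ 2) = q
  simp only [div_eq_mul_inv, mul_inv, mul_pow]
  ring

theorem expansion (ht : |t| ≤ 1 / 20) (hm : |m| ≤ 1) (hk : |k| ≤ 1) :
    cross t m k a b d + t * corr t m k a b d =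
      (1 - m ^ 2) * (1 - k ^ 2) * (1 - t ^ 2) /
          (4 * (1 + t * m * k) * ((1 - (t * m) ^ 2) * (1 - (t * k) ^ 2)) ^ 2) *
        (cab t m k * (a * b) + cad t m k * (a * d) + cad t k m * (b * d) +
          cdd t m k * d ^ 2) := by
  set K := (1 - m ^ 2) * (1 - k ^ 2) * (1 - t ^ 2) /
          (4 * (1 + t * m * k) * ((1 - (t * m) ^ 2) * (1 - (t * k) ^ 2)) ^ 2) with hK
  have e := fun {σ τ : ℝ} => term_eq (σ := σ) (τ := τ) ht hm hk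
  have e1 := e (σ := 1) (τ := 1) (one_pow 2) (one_pow 2)
  have e2 := e (σ := 1) (τ := -1) (one_pow 2) (by norm_num)
  have e3 := e (σ := -1) (τ := 1) (by norm_num) (one_pow 2)
  have e4 := e (σ := -1) (τ := -1) (by norm_num) (by norm_num)
  rw [← hK] at e1 e2 e3 e4
  have hsum : cab t m k * (a * b) + cad t m k * (a * d) + cad t k m * (b * d) +
      cdd t m k * d ^ 2 = num t m k 1 1 * ((a + d * 1) * (b + d * 1)) +
        num t m k 1 (-1) * ((a + d * -1) * (b + d * 1)) +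
        num t m k (-1) 1 * ((a + d * 1) * (b + d * -1)) +
        num t m k (-1) (-1) * ((a + d * -1) * (b + d * -1)) := by
    unfold cab cad cdd num
    ring
  rw [hsum, cross, corr, S4, S4]
  linear_combination ((a + d * 1) * (b + d * 1)) * e1 + ((a + d * -1) * (b + d * 1)) * e2 +
    ((a + d * 1) * (b + d * -1)) * e3 + ((a + d * -1) * (b + d * -1)) * e4

end

end Vale.Agent.P150.High.Pair
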