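import Vale.Agent.P150.High.Sites
import Vale.Agent.P150.High.Mixing

/-!
The semigroup of heat-bath dynamics: positivity, comparison, and decay of correlations in time.
-/

namespace Vale.Agent.P150.High

open Finset Matrix

noncomputable section

variable {n : ℕ} {μ : Cube n → ℝ}

/-- `P_t f`. -/
def semi (μ : Cube n → ℝ) (t : ℝ) (f : Cube n → ℝ) : Cube n → ℝ :=
  NormedSpace.exp (t • generator μ) *ᵥ f

theorem semi_zero (μ : Cube n → ℝ) (f : Cube n → ℝ) : semi μ 0 f = f := by
  simp [semi, NormedSpace.exp_zero]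

theorem semi_one (μ : Cube n → ℝ) (t : ℝ) : semi μ t (fun _ => (1 : ℝ)) = fun _ => 1 := by
  have hone : generator μ *ᵥ (fun _ => (1 : ℝ)) = 0 := by
    rw [generator_mulVec μ _ (fun _ => true)]; funext z; simp
  have h := exp_mulVec_eigen (t • generator μ) (e := fun _ => (1 : ℝ)) (l := 0)
    (by rw [Matrix.smul_mulVec, hone]; simp)
  simpa [semi] using h

theorem semi_mono (hpos : ∀ x, 0 < μ x) {t : ℝ} (ht : 0 ≤ t) {f g : Cube n → ℝ}
    (hfg : ∀ x, f x ≤ g x) (x : Cube n) : semi μ t f x ≤ semi μ t g x :=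
  sum_le_sum fun y _ => mul_le_mul_of_nonneg_left (hfg y) (exp_generator_nonneg hpos ht x y)

open scoped Matrix.Norms.Operator in
theorem semi_comm (μ : Cube n → ℝ) (t : ℝ) (f : Cube n → ℝ) :
    semi μ t (generator μ *ᵥ f) = generator μ *ᵥ semi μ t f := by
  have hc : Commute (generator μ) (NormedSpace.exp (t • generator μ)) :=
    ((Commute.refl _).smul_right t).exp_right
  simp only [semi, Matrix.mulVec_mulVec, hc.eq]

theorem hasDerivAt_semi (μ : Cube n → ℝ) (f : Cube n → ℝ) (t : ℝ) (x : Cube n) :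
    HasDerivAt (fun s => semi μ s f x) ((generator μ *ᵥ semi μ t f) x) t := by
  rw [← semi_comm]
  simp only [semi, Matrix.mulVec, dotProduct]
  refine (HasDerivAt.fun_sum fun y _ =>
    (hasDerivAt_exp_entry (generator μ) t x y).mul_const (f y)).congr_deriv ?_
  simp only [sum_mul, mul_sum, mul_assoc]
  rw [sum_comm]

/-- Grönwall's inequality for the semigroup. -/
theorem semi_comparison (hpos : ∀ x, 0 < μ x) {t C : ℝ} (ht : 0 ≤ t) (y y' : ℝ → Cube n → ℝ)
    (hd : ∀ s x, HasDerivAt (fun u => y u x) (y' s x) s)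
    (hle : ∀ s ∈ Set.Icc 0 t, ∀ x, y' s x ≤ (generator μ *ᵥ y s) x + C * y s x) (x : Cube n) :
    y t x ≤ Real.exp (C * t) * semi μ t (y 0) x := by
  set z := fun s => Real.exp (C * (t - s)) * semi μ (t - s) (y s) x with hz
  have hzd : ∀ s, HasDerivAt z (Real.exp (C * (t - s)) *
      (semi μ (t - s) (y' s) x - semi μ (t - s) (generator μ *ᵥ y s) x -
        C * semi μ (t - s) (y s) x)) s := by
    intro s
    have h1 : HasDerivAt (fun u => Real.exp (C * (t - u))) (Real.exp (C * (t - s)) * -C) s := by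
      simpa using (((hasDerivAt_id s).const_sub t).const_mul C).exp
    have h2 : HasDerivAt (fun u => semi μ (t - u) (y u) x)
        (semi μ (t - s) (y' s) x - semi μ (t - s) (generator μ *ᵥ y s) x) s := by
      simp only [semi, Matrix.mulVec, dotProduct]
      refine (HasDerivAt.fun_sum fun w _ =>
        ((hasDerivAt_exp_entry (generator μ) (t - s) x w).comp_const_sub t s).mul (hd s w)).congr_deriv ?_
      simp only [sum_mul, mul_sum, neg_mul, sum_add_distrib, sum_neg_distrib, mul_assoc]
      rw [sum_comm]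
      ring
    exact (h1.mul h2).congr_deriv (by ring)
  have hanti : AntitoneOn z (Set.Icc 0 t) := by
    refine antitoneOn_of_hasDerivWithinAt_nonpos (convex_Icc 0 t)
      (fun s _ => (hzd s).continuousAt.continuousWithinAt)
      (fun s _ => (hzd s).hasDerivWithinAt) fun s hs => ?_
    rw [interior_Icc] at hs
    refine mul_nonpos_of_nonneg_of_nonpos (Real.exp_pos _).le ?_
    have h := semi_mono hpos (sub_nonneg.2 hs.2.le) (hle s (Set.Ioo_subset_Icc_self hs)) x
    simp only [semi, Matrix.mulVec, dotProduct, mul_add, sum_add_distrib] at h ⊢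
    rw [mul_sum]
    simp only [mul_left_comm C] at h ⊢
    linarith
  have h := hanti (Set.left_mem_Icc.2 ht) (Set.right_mem_Icc.2 ht) ht
  simpa [hz, semi_zero] using h

/-- The square of the mean is at most the mean of the square. -/
theorem sq_semi_le (hpos : ∀ x, 0 < μ x) {t : ℝ} (ht : 0 ≤ t) (f : Cube n → ℝ) (x : Cube n) :
    semi μ t f x ^ 2 ≤ semi μ t (fun y => f y ^ 2) x := by
  set c := semi μ t f x with hc
  have h := semi_mono hpos ht (f := fun y => 2 * c * f y + -(c ^ 2) * 1) (g := fun y => f y ^ 2)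
    (fun y => by nlinarith [sq_nonneg (f y - c)]) x
  have h1 := congrFun (semi_one μ t) x
  simp only [semi, Matrix.mulVec, dotProduct, mul_one] at h h1 hc ⊢
  simp only [mul_add, sum_add_distrib, ← sum_mul, h1, mul_left_comm _ (2 * c), ← mul_sum,
    ← hc] at h
  linarith

/-- `L (G²) - 2 G L G` is the carré du champ. -/
theorem generator_sq (μ : Cube n → ℝ) (G : Cube n → ℝ) (x : Cube n) :
    (generator μ *ᵥ fun y => G y ^ 2) x = 2 * G x * (generator μ *ᵥ G) x +
      ∑ j, flipProb μ j x * (G (flipAt j x) - G x) ^ 2 := by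
  rw [generator_mulVec μ _ x, generator_mulVec μ _ x, mul_sum, ← sum_add_distrib]
  exact sum_congr rfl fun j _ => by ring

/-- Correlations in time decay no faster than `exp (-2 t)` when the Dirichlet form is small. -/
theorem sq_semi_ge (hpos : ∀ x, 0 < μ x) (f : Cube n → ℝ) {t : ℝ} (ht : 0 ≤ t)
    (hd : dirichlet μ f ≤ ∑ x, μ x * f x ^ 2) :
    Real.exp (-(2 * t)) * ∑ x, μ x * f x ^ 2 ≤ ∑ x, μ x * semi μ t f x ^ 2 := by
  set L := generator μ with hL
  set g := fun s x => Real.exp s * semi μ s f x with hg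
  set k := fun s x => Real.exp s * (semi μ s f x + (L *ᵥ semi μ s f) x) with hk
  have hgd : ∀ s x, HasDerivAt (fun u => g u x) (k s x) s := fun s x =>
    ((Real.hasDerivAt_exp s).mul (hasDerivAt_semi μ f s x)).congr_deriv (by simp only [hk, hL]; ring)
  have hkd : ∀ s x, HasDerivAt (fun u => k u x) (k s x + (L *ᵥ k s) x) s := by
    intro s x
    have h2 : HasDerivAt (fun u => (L *ᵥ semi μ u f) x) ((L *ᵥ (L *ᵥ semi μ s f)) x) s := by
      simp only [Matrix.mulVec, dotProduct]
      exact HasDerivAt.fun_sum fun y _ => (hasDerivAt_semi μ f s y).const_mul (L x y)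
    refine ((Real.hasDerivAt_exp s).mul ((hasDerivAt_semi μ f s x).add h2)).congr_deriv ?_
    have e : k s = Real.exp s • (semi μ s f + L *ᵥ semi μ s f) := rfl
    simp only [Pi.add_apply, e, Matrix.mulVec_smul, Matrix.mulVec_add, Pi.smul_apply, smul_eq_mul,
      ← hL]
  set a := fun s => 2 * ∑ x, μ x * (g s x * k s x) with ha
  have hh : ∀ s, HasDerivAt (fun u => ∑ x, μ x * g u x ^ 2) (a s) s := by
    intro s
    refine (HasDerivAt.fun_sum fun x _ => ((hgd s x).fun_pow 2).const_mul (μ x)).congr_deriv ?_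
    simp only [ha, mul_sum]
    exact sum_congr rfl fun x _ => by push_cast; ring
  have hsymm : ∀ u v : Cube n → ℝ,
      ∑ x, μ x * u x * (L *ᵥ v) x = ∑ x, μ x * v x * (L *ᵥ u) x := by
    intro u v
    rw [hL, generator_form, generator_form]
    congr 2
    exact sum_congr rfl fun x _ => sum_congr rfl fun i _ => by ring
  have had : ∀ s, HasDerivAt a (4 * ∑ x, μ x * k s x ^ 2) s := by
    intro s
    refine ((HasDerivAt.fun_sum fun x _ =>
      ((hgd s x).fun_mul (hkd s x)).const_mul (μ x)).const_mul 2).congr_deriv ?_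
    have e1 : ∑ x, μ x * g s x * (L *ᵥ k s) x = ∑ x, μ x * k s x * (k s x - g s x) := by
      rw [hsymm]
      refine sum_congr rfl fun x _ => ?_
      have e : g s = Real.exp s • semi μ s f := rfl
      simp only [e, Matrix.mulVec_smul, Pi.smul_apply, smul_eq_mul, hk]
      ring
    simp only [mul_add, mul_sub, sum_add_distrib, sum_sub_distrib, ← mul_assoc] at e1 ⊢
    simp only [sq, ← mul_assoc]
    have e2 : ∑ x, μ x * k s x * g s x = ∑ x, μ x * g s x * k s x :=
      sum_congr rfl fun x _ => by ring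
    linarith
  have ha0 : 0 ≤ a 0 := by
    have e : a 0 = 2 * (∑ x, μ x * f x ^ 2 - dirichlet μ f) := by
      simp only [ha, hg, hk, Real.exp_zero, one_mul, semi_zero, hL]
      rw [dirichlet_eq, sub_neg_eq_add, ← sum_add_distrib]
      exact congrArg _ (sum_congr rfl fun x _ => by ring)
    rw [e]; linarith
  have hamono : Monotone a :=
    monotone_of_hasDerivAt_nonneg had fun s => mul_nonneg (by norm_num)
      (sum_nonneg fun x _ => mul_nonneg (hpos x).le (sq_nonneg _))
  have hmono : MonotoneOn (fun s => ∑ x, μ x * g s x ^ 2) (Set.Icc 0 t) :=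
    monotoneOn_of_hasDerivWithinAt_nonneg (convex_Icc 0 t)
      (fun s _ => (hh s).continuousAt.continuousWithinAt)
      (fun s _ => (hh s).hasDerivWithinAt) fun s hs => by
        rw [interior_Icc] at hs
        exact ha0.trans (hamono hs.1.le)
  have h := hmono (Set.left_mem_Icc.2 ht) (Set.right_mem_Icc.2 ht) ht
  simp only [hg, Real.exp_zero, one_mul, semi_zero, mul_pow, ← Real.exp_nat_mul, Nat.cast_ofNat,
    mul_left_comm (μ _), ← mul_sum] at h
  calc Real.exp (-(2 * t)) * ∑ x, μ x * f x ^ 2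
      ≤ Real.exp (-(2 * t)) * (Real.exp (2 * t) * ∑ x, μ x * semi μ t f x ^ 2) :=
        mul_le_mul_of_nonneg_left h (Real.exp_pos _).le
    _ = _ := by rw [← mul_assoc, ← Real.exp_add, neg_add_cancel, Real.exp_zero, one_mul]

end

end Vale.Agent.P150.High
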