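import Vale.Agent.P150.Spectral
import Vale.Agent.P150.High.Defs
import Vale.Agent.P150.High.Pair

/-!
One-site and two-site conditioning for the Ising measure.
-/

namespace Vale.Agent.P150.High

open Finset

noncomputable section

variable {n : ℕ} {J : Fin n → Fin n → ℝ} {b : Fin n → ℝ}

/-- The local field at `i`. -/
def field (J : Fin n → Fin n → ℝ) (b : Fin n → ℝ) (i : Fin n) (x : Cube n) : ℝ :=
  b i + ∑ l, J i l * spin (x l)

/-- The conditional mean of spin `i`. -/
def mean (J : Fin n → Fin n → ℝ) (b : Fin n → ℝ) (i : Fin n) (x : Cube n) : ℝ :=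
  Real.tanh (field J b i x)

/-- The conditional variance of spin `i`. -/
def cvar (J : Fin n → Fin n → ℝ) (b : Fin n → ℝ) (i : Fin n) (x : Cube n) : ℝ :=
  1 - mean J b i x ^ 2

/-- The discrete derivative at `i`. -/
def deriv' (f : Cube n → ℝ) (i : Fin n) (x : Cube n) : ℝ :=
  (f (Function.update x i true) - f (Function.update x i false)) / 2

theorem spin_sq (c : Bool) : spin c ^ 2 = 1 := by cases c <;> simp [spin]

theorem spin_not (c : Bool) : spin (!c) = -spin c := by cases c <;> simp [spin]

theorem flipAt_flipAt (i : Fin n) (x : Cube n) : flipAt i (flipAt i x) = x := by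
  simp [flipAt, Function.update_idem]

theorem sum_flipAt (i : Fin n) (F : Cube n → ℝ) : ∑ x, F (flipAt i x) = ∑ x, F x :=
  Equiv.sum_comp (Function.Involutive.toPerm (flipAt i) (flipAt_flipAt i)) F

theorem field_update_self (hJ : IsCoupling J) (i : Fin n) (x : Cube n) (c : Bool) :
    field J b i (Function.update x i c) = field J b i x := by
  refine congrArg (b i + ·) (sum_congr rfl fun l _ => ?_)
  by_cases h : l = i
  · subst h; simp [hJ.diag]
  · simp [Function.update_of_ne h]

theorem field_update (i j : Fin n) (x : Cube n) (c : Bool) :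
    field J b i (Function.update x j c) = field J b i x + J i j * (spin c - spin (x j)) := by
  have h : ∀ l, J i l * spin (Function.update x j c l) =
      J i l * spin (x l) + (if l = j then J i j * (spin c - spin (x j)) else 0) := by
    intro l
    by_cases h : l = j
    · subst h; simp; ring
    · simp [h]
  simp only [field, h, sum_add_distrib, sum_ite_eq', mem_univ, if_true]
  ring

theorem ham_update (hJ : IsCoupling J) (i : Fin n) (x : Cube n) (c : Bool) :
    ham J b (Function.update x i c) = ham J b x + (spin c - spin (x i)) * field J b i x := by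
  set δ := spin c - spin (x i) with hδ
  have hs : ∀ l, spin (Function.update x i c l) = spin (x l) + (if l = i then δ else 0) := by
    intro l
    by_cases h : l = i
    · subst h; simp [hδ]
    · simp [h]
  have h3 : ∑ a, J a i * spin (x a) = ∑ a, J i a * spin (x a) :=
    sum_congr rfl fun a _ => by rw [hJ.symm a i]
  simp only [ham, field, hs, mul_add, add_mul, sum_add_distrib, mul_ite, ite_mul, mul_zero,
    zero_mul, sum_ite_eq', mem_univ, if_true, sum_ite_irrel, sum_const_zero]
  have h4 : ∑ a, J a i * spin (x a) * δ = δ * ∑ a, J a i * spin (x a) := by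
    rw [mul_sum]; exact sum_congr rfl fun a _ => by ring
  have h5 : ∑ a, J i a * δ * spin (x a) = δ * ∑ a, J i a * spin (x a) := by
    rw [mul_sum]; exact sum_congr rfl fun a _ => by ring
  rw [h4, h5, h3, hJ.diag i]
  ring

theorem ising_update (hJ : IsCoupling J) (i : Fin n) (x : Cube n) (c : Bool) :
    ising J b (Function.update x i c) =
      ising J b x * Real.exp ((spin c - spin (x i)) * field J b i x) := by
  simp only [ising, ham_update hJ, Real.exp_add]
  ring

theorem field_flip (hJ : IsCoupling J) (i : Fin n) (x : Cube n) :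
    field J b i (flipAt i x) = field J b i x :=
  field_update_self hJ i x _

theorem mean_flip (hJ : IsCoupling J) (i : Fin n) (x : Cube n) :
    mean J b i (flipAt i x) = mean J b i x := by rw [mean, field_flip hJ]; rfl

theorem cvar_flip (hJ : IsCoupling J) (i : Fin n) (x : Cube n) :
    cvar J b i (flipAt i x) = cvar J b i x := by rw [cvar, mean_flip hJ]; rfl

theorem deriv_flip (f : Cube n → ℝ) (i : Fin n) (x : Cube n) :
    deriv' f i (flipAt i x) = deriv' f i x := by simp [deriv', flipAt, Function.update_idem]

theorem cvar_nonneg (J : Fin n → Fin n → ℝ) (b : Fin n → ℝ) (i : Fin n) (x : Cube n) :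
    0 ≤ cvar J b i x ∧ cvar J b i x ≤ 1 := by
  have h := Real.abs_tanh_lt_one (field J b i x)
  rw [← sq_lt_one_iff_abs_lt_one] at h
  exact ⟨by simp only [cvar, mean]; linarith, by simp only [cvar]; nlinarith [sq_nonneg (mean J b i x)]⟩

theorem exp_spin (h : ℝ) {s : ℝ} (hs : s ^ 2 = 1) :
    Real.exp (s * h) = Real.cosh h * (1 + s * Real.tanh h) := by
  have hc := (Real.cosh_pos h).ne'
  rw [Real.tanh_eq_sinh_div_cosh]
  rcases sq_eq_one_iff.1 hs with rfl | rfl
  · field_simp
    simp [Real.cosh_add_sinh]
  · field_simp
    simp [← sub_eq_add_neg, Real.cosh_sub_sinh]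

theorem flip_ising (hJ : IsCoupling J) (i : Fin n) (x : Cube n) :
    ising J b (flipAt i x) * (1 + spin (x i) * mean J b i x) =
      ising J b x * (1 - spin (x i) * mean J b i x) := by
  have hs := spin_sq (x i)
  have hs' : (-spin (x i)) ^ 2 = 1 := by rw [neg_sq, hs]
  have e := ising_update (b := b) hJ i x (!x i)
  rw [spin_not, show -spin (x i) - spin (x i) = -spin (x i) + -spin (x i) by ring, add_mul,
    Real.exp_add] at e
  have e1 := exp_spin (field J b i x) hs
  have e2 := exp_spin (field J b i x) hs'
  have e3 : Real.exp (spin (x i) * field J b i x) * Real.exp (-spin (x i) * field J b i x) = 1 := by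
    rw [← Real.exp_add]; simp
  have hc := (Real.cosh_pos (field J b i x)).ne'
  unfold flipAt mean
  rw [e]
  set C := Real.cosh (field J b i x)
  set P := Real.exp (spin (x i) * field J b i x)
  set N := Real.exp (-spin (x i) * field J b i x)
  have : (1 + spin (x i) * Real.tanh (field J b i x)) = P / C := by rw [e1]; field_simp
  rw [this]
  have : (1 - spin (x i) * Real.tanh (field J b i x)) = N / C := by rw [e2]; field_simp; ring
  rw [this]
  field_simp
  linear_combination (ising J b x * N) * e3

theorem flipProb_ising (hJ : IsCoupling J) (i : Fin n) (x : Cube n) :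
    flipProb (ising J b) i x = (1 - spin (x i) * mean J b i x) / 2 := by
  have h1 := ising_pos J b x
  have h2 := ising_pos J b (flipAt i x)
  rw [flipProb, div_eq_div_iff (by positivity) two_ne_zero]
  linear_combination flip_ising (b := b) hJ i x

theorem sub_flip_eq (f : Cube n → ℝ) (i : Fin n) (x : Cube n) :
    f (flipAt i x) - f x = -(2 * spin (x i)) * deriv' f i x := by
  have h := Function.update_eq_self i x
  simp only [deriv', flipAt]
  cases hc : x i
  · rw [hc] at h
    simp only [Bool.not_false, spin, Bool.false_eq_true, if_false]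
    rw [h]; ring
  · rw [hc] at h
    simp only [Bool.not_true, spin, if_true]
    rw [h]; ring

/-- `E[(x_i - m_i) φ] = 0` when `φ` does not depend on spin `i`. -/
theorem sum_sub_mean (hJ : IsCoupling J) (i : Fin n) (φ : Cube n → ℝ)
    (hφ : ∀ x, φ (flipAt i x) = φ x) :
    ∑ x, ising J b x * ((spin (x i) - mean J b i x) * φ x) = 0 := by
  set F := fun x => ising J b x * ((spin (x i) - mean J b i x) * φ x) with hF
  have : ∀ x, F x + F (flipAt i x) = 0 := by
    intro x
    have hs := spin_sq (x i)
    have hflip : spin (flipAt i x i) = -spin (x i) := by simp [flipAt, spin_not]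
    simp only [hF, hflip, mean_flip hJ, hφ]
    linear_combination (-(spin (x i)) * φ x) * flip_ising (b := b) hJ i x +
      (mean J b i x * φ x * (ising J b (flipAt i x) + ising J b x)) * hs
  have h2 : ∑ x, (F x + F (flipAt i x)) = 0 := sum_eq_zero fun x _ => this x
  rw [sum_add_distrib, sum_flipAt] at h2
  linarith

theorem generator_eq (hJ : IsCoupling J) (f : Cube n → ℝ) (x : Cube n) :
    (generator (ising J b)).mulVec f x =
      -∑ i, (spin (x i) - mean J b i x) * deriv' f i x := by
  rw [generator_mulVec _ f x, ← sum_neg_distrib]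
  refine sum_congr rfl fun i _ => ?_
  rw [flipProb_ising hJ, sub_flip_eq]
  linear_combination (mean J b i x * deriv' f i x) * spin_sq (x i)

theorem dirichlet_ising (hJ : IsCoupling J) (f : Cube n → ℝ) :
    dirichlet (ising J b) f = ∑ i, ∑ x, ising J b x * (cvar J b i x * deriv' f i x ^ 2) := by
  unfold dirichlet
  rw [sum_comm, mul_sum]
  refine sum_congr rfl fun i _ => ?_
  have h0 := sum_sub_mean (b := b) hJ i (fun x => mean J b i x * deriv' f i x ^ 2)
    fun x => by rw [mean_flip hJ, deriv_flip]
  rw [mul_sum]
  calc ∑ x, 1 / 2 * (ising J b x * flipProb (ising J b) i x * (f (flipAt i x) - f x) ^ 2)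
      = ∑ x, (ising J b x * (cvar J b i x * deriv' f i x ^ 2) -
          ising J b x * ((spin (x i) - mean J b i x) * (mean J b i x * deriv' f i x ^ 2))) := by
        refine sum_congr rfl fun x _ => ?_
        rw [flipProb_ising hJ, sub_flip_eq, cvar]
        linear_combination
          (ising J b x * (1 - spin (x i) * mean J b i x) * deriv' f i x ^ 2) * spin_sq (x i)
    _ = _ := by rw [sum_sub_distrib, h0, sub_zero]

theorem diag_term (hJ : IsCoupling J) (f : Cube n → ℝ) (i : Fin n) :
    ∑ x, ising J b x * ((spin (x i) - mean J b i x) * deriv' f i x) ^ 2 =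
      ∑ x, ising J b x * (cvar J b i x * deriv' f i x ^ 2) := by
  have h0 := sum_sub_mean (b := b) hJ i (fun x => mean J b i x * deriv' f i x ^ 2)
    fun x => by rw [mean_flip hJ, deriv_flip]
  calc _ = ∑ x, (ising J b x * (cvar J b i x * deriv' f i x ^ 2) -
          2 * (ising J b x * ((spin (x i) - mean J b i x) * (mean J b i x * deriv' f i x ^ 2)))) := by
        refine sum_congr rfl fun x _ => ?_
        rw [cvar]
        linear_combination (ising J b x * deriv' f i x ^ 2) * spin_sq (x i)
    _ = _ := by rw [sum_sub_distrib, ← mul_sum, h0, mul_zero, sub_zero]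

/-- `x` with spins `i` and `j` set. -/
def upd (i j : Fin n) (x : Cube n) (p q : Bool) : Cube n :=
  Function.update (Function.update x i p) j q

/-- Averages over two-site blocks. -/
theorem sum_blocks {i j : Fin n} (hij : i ≠ j) (G : Cube n → ℝ) :
    ∑ x, (G (upd i j x true true) + G (upd i j x true false) + G (upd i j x false true) +
      G (upd i j x false false)) = 4 * ∑ x, G x := by
  have key : ∀ x, G (upd i j x true true) + G (upd i j x true false) + G (upd i j x false true) +
      G (upd i j x false false) =
      G x + G (flipAt i x) + G (flipAt j x) + G (flipAt j (flipAt i x)) := by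
    intro x
    have e0 : x = upd i j x (x i) (x j) := by simp [upd]
    have e1 : flipAt i x = upd i j x (!x i) (x j) := by
      simp only [upd, flipAt]
      rw [Function.update_comm hij, Function.update_eq_self]
    have e2 : flipAt j x = upd i j x (x i) (!x j) := by simp [upd, flipAt]
    have e3 : flipAt j (flipAt i x) = upd i j x (!x i) (!x j) := by
      simp [upd, flipAt, Function.update_of_ne (Ne.symm hij)]
    rw [e3, e1, e2]
    nth_rewrite 5 [e0]
    cases x i <;> cases x j <;> simp <;> ring
  rw [sum_congr rfl fun x _ => key x]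
  simp only [sum_add_distrib, sum_flipAt]
  rw [sum_flipAt i (fun y => G (flipAt j y)), sum_flipAt j]
  ring

end

end Vale.Agent.P150.High
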